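import Vale.Agent.P300.H435.L2.Basic

set_option linter.all false


open MeasureTheory Filter Topology
open scoped ENNReal NNReal ComplexConjugate

namespace Vale.Agent.P300.L2

namespace Sheets

variable {n N r : ℕ} {S : Sheets n N}

theorem levi_aux_cast {F : Fin r → (Fin n → ℂ) × ℕ → ℂ} (s : ℝ) (q : (Fin n → ℂ) × ℕ) :
    ((s + ∑ j, ‖F j q‖ ^ 2 : ℝ) : ℂ) = (s : ℂ) + ∑ j, F j q * conj (F j q) := by
  push_cast
  congr 1
  refine Finset.sum_congr rfl ?_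
  intro j _
  rw [Complex.mul_conj']

theorem CD.normSq_sum {F : Fin r → (Fin n → ℂ) × ℕ → ℂ} (hF : ∀ j, S.Holo (F j)) (k : ℕ) (s : ℝ) :
    S.CD k (fun q => ((s + ∑ j, ‖F j q‖ ^ 2 : ℝ) : ℂ)) := by
  refine CD.congr (X := fun q => (s : ℂ) + ∑ j, F j q * conj (F j q)) ?_ ?_
  · exact CD.add (CD.const _) (CD.sum Finset.univ fun j _ =>
      CD.mul ((hF j).CD k) (CD.conj ((hF j).CD k)))
  · intro q _
    exact levi_aux_cast s q

theorem CD.log_normSq_sum {F : Fin r → (Fin n → ℂ) × ℕ → ℂ} (hF : ∀ j, S.Holo (F j)) (k : ℕ)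
    {s : ℝ} (hs : 0 < s) : S.CD k (fun q => ((Real.log (s + ∑ j, ‖F j q‖ ^ 2) : ℝ) : ℂ)) := by
  refine CD.log (CD.normSq_sum hF k s) ?_
  intro q _
  positivity

theorem levi_aux_Db_const (c : ℂ) {q : (Fin n → ℂ) × ℕ} (hq : q ∈ S.M) (k : Fin n) :
    S.Db k (fun _ => c) q = 0 := (Holo.const c).Db hq

theorem Db_normSq_sum {F : Fin r → (Fin n → ℂ) × ℕ → ℂ} (hF : ∀ j, S.Holo (F j)) (s : ℝ)
    {q : (Fin n → ℂ) × ℕ} (hq : q ∈ S.M) (k : Fin n) :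
    S.Db k (fun q => ((s + ∑ j, ‖F j q‖ ^ 2 : ℝ) : ℂ)) q =
      ∑ j, F j q * conj (S.D k (F j) q) := by
  rw [Db_congr (X := fun q => (s : ℂ) + ∑ j, F j q * conj (F j q))
    (fun q _ => levi_aux_cast s q) hq]
  have h1 : ∀ j ∈ Finset.univ, S.CD 1 (fun q => F j q * conj (F j q)) := fun j _ =>
    CD.mul ((hF j).CD 1) (CD.conj ((hF j).CD 1))
  rw [Db_add (CD.const _) (CD.sum Finset.univ h1) hq, levi_aux_Db_const _ hq, zero_add,
    Db_sum Finset.univ h1 hq]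
  refine Finset.sum_congr rfl ?_
  intro j _
  rw [Db_mul ((hF j).CD 1) (CD.conj ((hF j).CD 1)) hq, (hF j).Db hq, Db_conj, zero_mul, zero_add]

theorem levi_aux_D {F : Fin r → (Fin n → ℂ) × ℕ → ℂ} (hF : ∀ j, S.Holo (F j)) (s : ℝ)
    {q : (Fin n → ℂ) × ℕ} (hq : q ∈ S.M) (k : Fin n) :
    S.D k (fun q => ((s + ∑ j, ‖F j q‖ ^ 2 : ℝ) : ℂ)) q =
      ∑ j, S.D k (F j) q * conj (F j q) := by
  have h1 : S.D k (fun q => conj (((s + ∑ j, ‖F j q‖ ^ 2 : ℝ) : ℂ))) q =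
      conj (∑ j, F j q * conj (S.D k (F j) q)) := by
    rw [D_conj, Db_normSq_sum hF s hq]
  have h2 : S.D k (fun q => ((s + ∑ j, ‖F j q‖ ^ 2 : ℝ) : ℂ)) q =
      S.D k (fun q => conj (((s + ∑ j, ‖F j q‖ ^ 2 : ℝ) : ℂ))) q := by
    refine D_congr ?_ hq
    intro q _
    rw [Complex.conj_ofReal]
  rw [h2, h1, map_sum]
  refine Finset.sum_congr rfl ?_
  intro j _
  rw [map_mul, Complex.conj_conj, mul_comm]

theorem levi_aux_pos {F : Fin r → (Fin n → ℂ) × ℕ → ℂ} {s : ℝ} (hs : 0 < s)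
    (q : (Fin n → ℂ) × ℕ) : 0 < s + ∑ j, ‖F j q‖ ^ 2 := by positivity

theorem levi_aux_Db_log {F : Fin r → (Fin n → ℂ) × ℕ → ℂ} (hF : ∀ j, S.Holo (F j)) {s : ℝ}
    (hs : 0 < s) {q : (Fin n → ℂ) × ℕ} (hq : q ∈ S.M) (k : Fin n) :
    S.Db k (fun q => ((Real.log (s + ∑ j, ‖F j q‖ ^ 2) : ℝ) : ℂ)) q =
      (((s + ∑ j, ‖F j q‖ ^ 2)⁻¹ : ℝ) : ℂ) * ∑ j, F j q * conj (S.D k (F j) q) := by
  rw [Db_comp_real (φ := Real.log) (u := fun q => s + ∑ j, ‖F j q‖ ^ 2)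
    (CD.normSq_sum hF 1 s) hq (Real.differentiableAt_log (levi_aux_pos hs q).ne'),
    Db_normSq_sum hF s hq, Real.deriv_log]

theorem levi_aux_D_Db_log {F : Fin r → (Fin n → ℂ) × ℕ → ℂ} (hF : ∀ j, S.Holo (F j)) {s : ℝ}
    (hs : 0 < s) {q : (Fin n → ℂ) × ℕ} (hq : q ∈ S.M) (l k : Fin n) :
    S.D l (S.Db k (fun q => ((Real.log (s + ∑ j, ‖F j q‖ ^ 2) : ℝ) : ℂ))) q =
      (((s + ∑ j, ‖F j q‖ ^ 2)⁻¹ : ℝ) : ℂ) * ∑ j, S.D l (F j) q * conj (S.D k (F j) q) -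
      (((s + ∑ j, ‖F j q‖ ^ 2)⁻¹ : ℝ) : ℂ) ^ 2 * (∑ j, S.D l (F j) q * conj (F j q)) *
        ∑ j, F j q * conj (S.D k (F j) q) := by
  have hinv : S.CD 1 (fun q => (((s + ∑ j, ‖F j q‖ ^ 2)⁻¹ : ℝ) : ℂ)) := by
    refine CD.congr (X := fun q => ((Real.exp (-Real.log (s + ∑ j, ‖F j q‖ ^ 2)) : ℝ) : ℂ)) ?_ ?_
    · have h1 : ContDiff ℝ 1 (fun x : ℝ => Real.exp (-x)) := by fun_prop
      exact CD.comp_real (m := 1) (φ := fun x : ℝ => Real.exp (-x))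
        (u := fun q => Real.log (s + ∑ j, ‖F j q‖ ^ 2)) (by exact_mod_cast h1)
        (CD.log_normSq_sum hF 1 hs)
    · intro q _
      rw [Real.exp_neg, Real.exp_log (levi_aux_pos hs q)]
  have hterm : ∀ j ∈ Finset.univ, S.CD 1 (fun q => F j q * conj (S.D k (F j) q)) := fun j _ =>
    CD.mul ((hF j).CD 1) (CD.conj ((hF j).D.CD 1))
  rw [D_congr (X := fun q => (((s + ∑ j, ‖F j q‖ ^ 2)⁻¹ : ℝ) : ℂ) *
    ∑ j, F j q * conj (S.D k (F j) q)) (fun q hq => levi_aux_Db_log hF hs hq k) hq,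
    D_mul hinv (CD.sum Finset.univ hterm) hq]
  have h1 : S.D l (fun q => (((s + ∑ j, ‖F j q‖ ^ 2)⁻¹ : ℝ) : ℂ)) q =
      -(((s + ∑ j, ‖F j q‖ ^ 2)⁻¹ : ℝ) : ℂ) ^ 2 * ∑ j, S.D l (F j) q * conj (F j q) := by
    rw [D_comp_real (φ := fun x : ℝ => x⁻¹) (u := fun q => s + ∑ j, ‖F j q‖ ^ 2)
      (CD.normSq_sum hF 1 s) hq (differentiableAt_inv (levi_aux_pos hs q).ne'),
      levi_aux_D hF s hq, deriv_inv]
    push_cast
    rw [inv_pow]
  have h2 : S.D l (fun q => ∑ j, F j q * conj (S.D k (F j) q)) q =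
      ∑ j, S.D l (F j) q * conj (S.D k (F j) q) := by
    rw [D_sum Finset.univ hterm hq]
    refine Finset.sum_congr rfl ?_
    intro j _
    rw [D_mul ((hF j).CD 1) (CD.conj ((hF j).D.CD 1)) hq, D_conj, (hF j).D.Db hq, map_zero,
      mul_zero, add_zero]
  rw [h1, h2]
  ring

/-- The Levi form of `log (s + |F|²)`. -/
theorem levi_log_ge {F : Fin r → (Fin n → ℂ) × ℕ → ℂ} (hF : ∀ j, S.Holo (F j)) {s : ℝ}
    (hs : 0 < s) {q : (Fin n → ℂ) × ℕ} (hq : q ∈ S.M) (β : Fin n → ℂ) :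
    s * (∑ j, ‖∑ k, S.D k (F j) q * β k‖ ^ 2) / (s + ∑ j, ‖F j q‖ ^ 2) ^ 2 ≤
      S.levi (fun q => Real.log (s + ∑ j, ‖F j q‖ ^ 2)) β q := by
  set a : Fin r → ℂ := fun j => ∑ k, S.D k (F j) q * β k with ha
  set G : ℝ := s + ∑ j, ‖F j q‖ ^ 2 with hG
  have hGpos : 0 < G := levi_aux_pos hs q
  have hlevi : S.levi (fun q => Real.log (s + ∑ j, ‖F j q‖ ^ 2)) β q =
      G⁻¹ * ∑ j, ‖a j‖ ^ 2 - (G⁻¹) ^ 2 * ‖∑ j, a j * conj (F j q)‖ ^ 2 := by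
    have h1 : ∑ l, ∑ k, S.D l (S.Db k (fun q =>
        ((Real.log (s + ∑ j, ‖F j q‖ ^ 2) : ℝ) : ℂ))) q * β l * conj (β k) =
        ((G⁻¹ * ∑ j, ‖a j‖ ^ 2 - (G⁻¹) ^ 2 * ‖∑ j, a j * conj (F j q)‖ ^ 2 : ℝ) : ℂ) := by
      have h2 : ∀ l k, S.D l (S.Db k (fun q =>
          ((Real.log (s + ∑ j, ‖F j q‖ ^ 2) : ℝ) : ℂ))) q * β l * conj (β k) =
          ((G⁻¹ : ℝ) : ℂ) * ∑ j, (S.D l (F j) q * β l) * conj (S.D k (F j) q * β k) -
          ((G⁻¹ : ℝ) : ℂ) ^ 2 * ((∑ j, (S.D l (F j) q * β l) * conj (F j q)) *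
            ∑ j, F j q * conj (S.D k (F j) q * β k)) := by
        intro l k
        rw [levi_aux_D_Db_log hF hs hq l k]
        have e1 : ∑ j, (S.D l (F j) q * β l) * conj (S.D k (F j) q * β k) =
            (∑ j, S.D l (F j) q * conj (S.D k (F j) q)) * (β l * conj (β k)) := by
          rw [Finset.sum_mul]
          refine Finset.sum_congr rfl ?_
          intro j _
          rw [map_mul]
          ring
        have e2 : ∑ j, (S.D l (F j) q * β l) * conj (F j q) =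
            (∑ j, S.D l (F j) q * conj (F j q)) * β l := by
          rw [Finset.sum_mul]
          refine Finset.sum_congr rfl ?_
          intro j _
          ring
        have e3 : ∑ j, F j q * conj (S.D k (F j) q * β k) =
            (∑ j, F j q * conj (S.D k (F j) q)) * conj (β k) := by
          rw [Finset.sum_mul]
          refine Finset.sum_congr rfl ?_
          intro j _
          rw [map_mul]
          ring
        rw [e1, e2, e3]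
        ring
      simp_rw [h2, Finset.sum_sub_distrib, ← Finset.mul_sum]
      have e4 : ∑ l, ∑ k, ∑ j, (S.D l (F j) q * β l) * conj (S.D k (F j) q * β k) =
          ∑ j, a j * conj (a j) := by
        have e5 : ∀ l, ∑ k, ∑ j, (S.D l (F j) q * β l) * conj (S.D k (F j) q * β k) =
            ∑ j, (S.D l (F j) q * β l) * conj (a j) := by
          intro l
          rw [Finset.sum_comm]
          refine Finset.sum_congr rfl ?_
          intro j _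
          rw [← Finset.mul_sum, ← map_sum]
        simp_rw [e5]
        rw [Finset.sum_comm]
        refine Finset.sum_congr rfl ?_
        intro j _
        rw [← Finset.sum_mul]
      have e6 : ∑ l, ((∑ j, (S.D l (F j) q * β l) * conj (F j q)) *
          ∑ k, ∑ j, F j q * conj (S.D k (F j) q * β k)) =
          (∑ j, a j * conj (F j q)) * conj (∑ j, a j * conj (F j q)) := by
        rw [← Finset.sum_mul]
        congr 1
        · rw [Finset.sum_comm]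
          refine Finset.sum_congr rfl ?_
          intro j _
          rw [← Finset.sum_mul]
        · rw [Finset.sum_comm, map_sum]
          refine Finset.sum_congr rfl ?_
          intro j _
          rw [← Finset.mul_sum, ← map_sum, map_mul, Complex.conj_conj, mul_comm]
      rw [e4, e6, Complex.mul_conj']
      simp_rw [Complex.mul_conj']
      push_cast
      ring
    have h3 : S.levi (fun q => Real.log (s + ∑ j, ‖F j q‖ ^ 2)) β q =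
        (∑ l, ∑ k, S.D l (S.Db k (fun q =>
          ((Real.log (s + ∑ j, ‖F j q‖ ^ 2) : ℝ) : ℂ))) q * β l * conj (β k)).re := rfl
    rw [h3, h1, Complex.ofReal_re]
  rw [hlevi]
  have hCS : ‖∑ j, a j * conj (F j q)‖ ^ 2 ≤ (∑ j, ‖a j‖ ^ 2) * ∑ j, ‖F j q‖ ^ 2 := by
    have h1 : ‖∑ j, a j * conj (F j q)‖ ≤ ∑ j, ‖a j‖ * ‖F j q‖ := by
      refine (norm_sum_le _ _).trans (le_of_eq ?_)
      refine Finset.sum_congr rfl ?_
      intro j _
      rw [norm_mul, RCLike.norm_conj]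
    calc ‖∑ j, a j * conj (F j q)‖ ^ 2 ≤ (∑ j, ‖a j‖ * ‖F j q‖) ^ 2 := by
          gcongr
      _ ≤ (∑ j, ‖a j‖ ^ 2) * ∑ j, ‖F j q‖ ^ 2 := Finset.sum_mul_sq_le_sq_mul_sq _ _ _
  have hF2 : ∑ j, ‖F j q‖ ^ 2 = G - s := by rw [hG]; ring
  rw [hF2] at hCS
  have hA : 0 ≤ ∑ j, ‖a j‖ ^ 2 := by positivity
  have key : s * (∑ j, ‖a j‖ ^ 2) / G ^ 2 =
      G⁻¹ * ∑ j, ‖a j‖ ^ 2 - (G⁻¹) ^ 2 * ((∑ j, ‖a j‖ ^ 2) * (G - s)) := by
    field_simp
    ring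
  rw [key]
  have : (G⁻¹) ^ 2 * ‖∑ j, a j * conj (F j q)‖ ^ 2 ≤
      (G⁻¹) ^ 2 * ((∑ j, ‖a j‖ ^ 2) * (G - s)) := by
    gcongr
  linarith

theorem levi_aux_smul_Db {X : (Fin n → ℂ) × ℕ → ℂ} (hX : S.CD 1 X) (c : ℂ)
    {q : (Fin n → ℂ) × ℕ} (hq : q ∈ S.M) (k : Fin n) :
    S.Db k (fun q => c * X q) q = c * S.Db k X q := by
  rw [Db_mul (CD.const c) hX hq, levi_aux_Db_const c hq, zero_mul, zero_add]

theorem levi_aux_D_const (c : ℂ) {q : (Fin n → ℂ) × ℕ} (hq : q ∈ S.M) (k : Fin n) :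
    S.D k (fun _ => c) q = 0 := by
  have h1 : S.D k (fun _ => c) q = S.D k (fun q => conj ((fun _ => conj c) q)) q := by
    refine D_congr ?_ hq
    intro q _
    simp
  rw [h1, D_conj, levi_aux_Db_const _ hq, map_zero]

theorem levi_aux_smul_D {X : (Fin n → ℂ) × ℕ → ℂ} (hX : S.CD 1 X) (c : ℂ)
    {q : (Fin n → ℂ) × ℕ} (hq : q ∈ S.M) (k : Fin n) :
    S.D k (fun q => c * X q) q = c * S.D k X q := by
  rw [D_mul (CD.const c) hX hq, levi_aux_D_const c hq, zero_mul, zero_add]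

/-- Levi form of a linear combination. -/
theorem levi_lin {Φ Ψ : (Fin n → ℂ) × ℕ → ℝ} (hΦ : S.CD 2 (fun q => (Φ q : ℂ)))
    (hΨ : S.CD 2 (fun q => (Ψ q : ℂ))) (a b : ℝ) {q : (Fin n → ℂ) × ℕ} (hq : q ∈ S.M)
    (β : Fin n → ℂ) :
    S.levi (fun q => a * Φ q + b * Ψ q) β q = a * S.levi Φ β q + b * S.levi Ψ β q := by
  have hΦ1 : S.CD 1 (fun q => (Φ q : ℂ)) := hΦ.mono (by norm_num)
  have hΨ1 : S.CD 1 (fun q => (Ψ q : ℂ)) := hΨ.mono (by norm_num)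
  have hDb : ∀ k, ∀ q ∈ S.M, S.Db k (fun q => ((a * Φ q + b * Ψ q : ℝ) : ℂ)) q =
      (a : ℂ) * S.Db k (fun q => (Φ q : ℂ)) q + (b : ℂ) * S.Db k (fun q => (Ψ q : ℂ)) q := by
    intro k q hq
    rw [Db_congr (X := fun q => (a : ℂ) * (Φ q : ℂ) + (b : ℂ) * (Ψ q : ℂ))
      (fun q _ => by push_cast; ring) hq,
      Db_add (CD.mul (CD.const _) hΦ1) (CD.mul (CD.const _) hΨ1) hq,
      levi_aux_smul_Db hΦ1 _ hq, levi_aux_smul_Db hΨ1 _ hq]
  have hΦ2 : ∀ k, S.CD 1 (S.Db k (fun q => (Φ q : ℂ))) := fun k => CD.Db (m := 1) hΦ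
  have hΨ2 : ∀ k, S.CD 1 (S.Db k (fun q => (Ψ q : ℂ))) := fun k => CD.Db (m := 1) hΨ
  have hD : ∀ l k, S.D l (S.Db k (fun q => ((a * Φ q + b * Ψ q : ℝ) : ℂ))) q =
      (a : ℂ) * S.D l (S.Db k (fun q => (Φ q : ℂ))) q +
        (b : ℂ) * S.D l (S.Db k (fun q => (Ψ q : ℂ))) q := by
    intro l k
    rw [D_congr (X := fun q => (a : ℂ) * S.Db k (fun q => (Φ q : ℂ)) q +
      (b : ℂ) * S.Db k (fun q => (Ψ q : ℂ)) q) (fun q hq => hDb k q hq) hq,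
      D_add (CD.mul (CD.const _) (hΦ2 k)) (CD.mul (CD.const _) (hΨ2 k)) hq,
      levi_aux_smul_D (hΦ2 k) _ hq, levi_aux_smul_D (hΨ2 k) _ hq]
  unfold levi
  simp_rw [hD]
  have hsum : ∑ j, ∑ k, ((a : ℂ) * S.D j (S.Db k (fun q => (Φ q : ℂ))) q +
        (b : ℂ) * S.D j (S.Db k (fun q => (Ψ q : ℂ))) q) * β j * conj (β k) =
      (a : ℂ) * (∑ j, ∑ k, S.D j (S.Db k (fun q => (Φ q : ℂ))) q * β j * conj (β k)) +
      (b : ℂ) * (∑ j, ∑ k, S.D j (S.Db k (fun q => (Ψ q : ℂ))) q * β j * conj (β k)) := by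
    simp_rw [Finset.mul_sum, ← Finset.sum_add_distrib]
    refine Finset.sum_congr rfl ?_
    intro j _
    refine Finset.sum_congr rfl ?_
    intro k _
    ring
  rw [hsum, Complex.add_re, Complex.re_ofReal_mul, Complex.re_ofReal_mul]

end Sheets

end Vale.Agent.P300.L2
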