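import Vale.Agent.P300.H435.L2.Meas

set_option linter.all false


open MeasureTheory Filter Topology
open scoped ENNReal NNReal ComplexConjugate

namespace Vale.Agent.P300.L2

namespace Sheets

variable {n N : ℕ} {S : Sheets n N}

/-- Levi forms: sums. -/
theorem levi_add {Φ Ψ : (Fin n → ℂ) × ℕ → ℝ} (hΦ : S.CD 2 (fun q => (Φ q : ℂ)))
    (hΨ : S.CD 2 (fun q => (Ψ q : ℂ))) {q : (Fin n → ℂ) × ℕ} (hq : q ∈ S.M) (β : Fin n → ℂ) :
    S.levi (fun q => Φ q + Ψ q) β q = S.levi Φ β q + S.levi Ψ β q := by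
  have h : ∀ j k, S.D j (S.Db k (fun q => ((Φ q + Ψ q : ℝ) : ℂ))) q =
      S.D j (S.Db k (fun q => (Φ q : ℂ))) q + S.D j (S.Db k (fun q => (Ψ q : ℂ))) q := by
    intro j k
    have h1 : ∀ q ∈ S.M, S.Db k (fun q => ((Φ q + Ψ q : ℝ) : ℂ)) q =
        S.Db k (fun q => (Φ q : ℂ)) q + S.Db k (fun q => (Ψ q : ℂ)) q := by
      intro q hq
      simp only [Complex.ofReal_add]
      exact Db_add (hΦ.mono (by norm_num)) (hΨ.mono (by norm_num)) hq
    rw [D_congr (Y := S.Db k (fun q => ((Φ q + Ψ q : ℝ) : ℂ))) h1 hq]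
    exact D_add (CD.Db (m := 1) hΦ) (CD.Db (m := 1) hΨ) hq
  unfold levi
  rw [← Complex.add_re, ← Finset.sum_add_distrib]
  congr 1
  refine Finset.sum_congr rfl fun j _ => ?_
  rw [← Finset.sum_add_distrib]
  refine Finset.sum_congr rfl fun k _ => ?_
  rw [h j k]
  ring

private lemma dzb_real {p : (Fin n → ℂ) → ℝ} (k : Fin n) (z : Fin n → ℂ) :
    dzb k (fun z => (p z : ℂ)) z = conj (dz k (fun z => (p z : ℂ)) z) := by
  rw [← dzb_conj]
  simp only [Complex.conj_ofReal]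

/-- Levi form of `φ ∘ p`, `p` a function of `z`. -/
theorem levi_comp {φ : ℝ → ℝ} {p : (Fin n → ℂ) → ℝ} (hφ : ContDiff ℝ 2 φ)
    (hp : ContDiffOn ℝ 2 p S.V) {q : (Fin n → ℂ) × ℕ} (hq : q ∈ S.M) (β : Fin n → ℂ) :
    S.levi (fun q => φ (p q.1)) β q =
      deriv φ (p q.1) *
        (∑ j, ∑ k, dz j (dzb k (fun z => (p z : ℂ))) q.1 * β j * conj (β k)).re +
      deriv (deriv φ) (p q.1) * ‖∑ j, dz j (fun z => (p z : ℂ)) q.1 * β j‖ ^ 2 := by
  have hV : S.V ∈ 𝓝 q.1 := S.isOpen.mem_nhds hq.1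
  have hpd : ∀ z ∈ S.V, DifferentiableAt ℝ p z := fun z hz =>
    ((hp.differentiableOn (by norm_num)) z hz).differentiableAt (S.isOpen.mem_nhds hz)
  have hpc : ContDiffOn ℝ 2 (fun z => (p z : ℂ)) S.V :=
    Complex.ofRealCLM.contDiff.comp_contDiffOn hp
  have hd1 : ContDiff ℝ 1 (deriv φ) := by
    have : ContDiff ℝ (1 + 1) φ := by norm_num; exact hφ
    exact (contDiff_succ_iff_deriv.1 this).2.2
  have hφd : Differentiable ℝ φ := hφ.differentiable (by norm_num)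
  have hφd1 : Differentiable ℝ (deriv φ) := hd1.differentiable (by norm_num)
  have h : ∀ j k, S.D j (S.Db k (fun q => ((φ (p q.1) : ℝ) : ℂ))) q =
      ((deriv (deriv φ) (p q.1) : ℝ) : ℂ) * dz j (fun z => (p z : ℂ)) q.1 *
        dzb k (fun z => (p z : ℂ)) q.1 +
      ((deriv φ (p q.1) : ℝ) : ℂ) * dz j (dzb k (fun z => (p z : ℂ))) q.1 := by
    intro j k
    have h1 : S.Db k (fun q => ((φ (p q.1) : ℝ) : ℂ)) =
        fun q => dzb k (fun z => ((φ (p z) : ℝ) : ℂ)) q.1 := by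
      funext q
      exact Db_fst (f := fun z => ((φ (p z) : ℝ) : ℂ))
    rw [h1]
    rw [D_fst (f := dzb k (fun z => ((φ (p z) : ℝ) : ℂ)))]
    have h2 : dzb k (fun z => ((φ (p z) : ℝ) : ℂ)) =ᶠ[𝓝 q.1]
        fun z => ((deriv φ (p z) : ℝ) : ℂ) * dzb k (fun z => (p z : ℂ)) z := by
      filter_upwards [hV] with z hz
      exact dzb_comp_real (hpd z hz) (hφd _)
    rw [dz_congr h2]
    have h3 : ContDiffOn ℝ (1 : ℕ) (dzb k (fun z => (p z : ℂ))) S.V :=
      contDiffOn_dzb (m := 1) S.isOpen (by exact_mod_cast hpc)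
    have h4 : DifferentiableAt ℝ (dzb k (fun z => (p z : ℂ))) q.1 :=
      ((h3.differentiableOn (by norm_num)) q.1 hq.1).differentiableAt hV
    have h5 : DifferentiableAt ℝ (fun z => ((deriv φ (p z) : ℝ) : ℂ)) q.1 :=
      Complex.ofRealCLM.differentiableAt.comp q.1 ((hφd1 _).comp q.1 (hpd q.1 hq.1))
    rw [dz_mul h5 h4, dz_comp_real (hpd q.1 hq.1) (hφd1 _)]
  unfold levi
  simp only [h]
  have e1 : ∑ j, ∑ k, (((deriv (deriv φ) (p q.1) : ℝ) : ℂ) * dz j (fun z => (p z : ℂ)) q.1 *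
        dzb k (fun z => (p z : ℂ)) q.1 +
      ((deriv φ (p q.1) : ℝ) : ℂ) * dz j (dzb k (fun z => (p z : ℂ))) q.1) * β j * conj (β k) =
      ((deriv (deriv φ) (p q.1) : ℝ) : ℂ) *
        ((∑ j, dz j (fun z => (p z : ℂ)) q.1 * β j) *
          conj (∑ j, dz j (fun z => (p z : ℂ)) q.1 * β j)) +
      ((deriv φ (p q.1) : ℝ) : ℂ) *
        ∑ j, ∑ k, dz j (dzb k (fun z => (p z : ℂ))) q.1 * β j * conj (β k) := by
    rw [map_sum, Finset.sum_mul_sum, Finset.mul_sum, Finset.mul_sum, ← Finset.sum_add_distrib]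
    refine Finset.sum_congr rfl fun j _ => ?_
    rw [Finset.mul_sum, Finset.mul_sum, ← Finset.sum_add_distrib]
    refine Finset.sum_congr rfl fun k _ => ?_
    rw [dzb_real, map_mul]
    ring
  rw [e1, Complex.mul_conj, Complex.add_re, Complex.re_ofReal_mul, Complex.re_ofReal_mul,
    Complex.ofReal_re, Complex.normSq_eq_norm_sq]
  ring

/-- Cutoff functions with gradient controlled by `exp ψ`. -/
def HasCut (S : Sheets n N) (p : (Fin n → ℂ) → ℝ) (ψ : (Fin n → ℂ) × ℕ → ℝ) : Prop :=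
  ∀ R : ℝ, ∃ η : (Fin n → ℂ) → ℝ, ContDiffOn ℝ 4 η S.V ∧ (∀ z, 0 ≤ η z ∧ η z ≤ 1) ∧
    (∀ z ∈ S.V, p z ≤ R → η z = 1) ∧
    (∃ c : Set (Fin n → ℂ), IsCompact c ∧ c ⊆ S.V ∧ ∀ z, z ∉ c → η z = 0) ∧
    ∀ q ∈ S.M, ∑ j, ‖dzb j (fun z => (η z : ℂ)) q.1‖ ^ 2 ≤ Real.exp (ψ q)

private lemma deriv_st_zero {x : ℝ} (hx : x < 0 ∨ 1 < x) : deriv Real.smoothTransition x = 0 := by
  rcases hx with hx | hx
  · have : Real.smoothTransition =ᶠ[𝓝 x] fun _ => 0 := by
      filter_upwards [gt_mem_nhds hx] with y hy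
      exact Real.smoothTransition.zero_of_nonpos hy.le
    rw [this.deriv_eq]; simp
  · have : Real.smoothTransition =ᶠ[𝓝 x] fun _ => 1 := by
      filter_upwards [lt_mem_nhds hx] with y hy
      exact Real.smoothTransition.one_of_one_le hy.le
    rw [this.deriv_eq]; simp

/-- Bound of the derivative of the smooth transition function. -/
private lemma exists_st_bound : ∃ C' : ℝ, 0 < C' ∧ ∀ x, |deriv Real.smoothTransition x| ≤ C' := by
  have h1 : ContDiff ℝ 1 Real.smoothTransition := Real.smoothTransition.contDiff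
  have h2 : Continuous (deriv Real.smoothTransition) := h1.continuous_deriv (by norm_num)
  obtain ⟨B, hB⟩ := (isCompact_Icc (a := (0 : ℝ)) (b := 1)).exists_bound_of_continuousOn
    h2.continuousOn
  refine ⟨max B 1, by positivity, fun x => ?_⟩
  by_cases hx : x ∈ Set.Icc (0 : ℝ) 1
  · exact (hB x hx).trans (le_max_left _ _)
  · rw [Set.mem_Icc, not_and_or, not_le, not_le] at hx
    rw [deriv_st_zero hx, abs_zero]; positivity

open Classical in
private lemma hasCut {p : (Fin n → ℂ) → ℝ} {C : ℝ} {k0 : ℕ} (hp : Exh S.V p C k0) {τ : ℝ} (hτ : 0 < τ) :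
    S.HasCut p (fun q => ((k0 + 1 : ℕ) : ℝ) * Real.log (1 + τ * p q.1)) := by
  intro R
  obtain ⟨C', hC', hst⟩ := exists_st_bound
  set ν : ℝ := max (max R 1) (C' ^ 2 * |C| * 3 ^ k0 / τ ^ (k0 + 1)) with hν
  have hνR : R ≤ ν := (le_max_left _ _).trans (le_max_left _ _)
  have hν1 : 1 ≤ ν := (le_max_right _ _).trans (le_max_left _ _)
  have hν2 : C' ^ 2 * |C| * 3 ^ k0 ≤ τ ^ (k0 + 1) * ν := by
    have h1 : C' ^ 2 * |C| * 3 ^ k0 / τ ^ (k0 + 1) ≤ ν := le_max_right _ _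
    rw [div_le_iff₀ (by positivity)] at h1
    linarith
  have hν0 : 0 < ν := by linarith
  have hp0 : ∀ z ∈ S.V, 0 ≤ p z := fun z hz => (sq_nonneg _).trans (hp.norm_sq_le z hz)
  have hpd : ∀ z ∈ S.V, DifferentiableAt ℝ p z := fun z hz =>
    ((hp.smooth.differentiableOn (by norm_num)) z hz).differentiableAt (S.isOpen.mem_nhds hz)
  set θ : ℝ → ℝ := fun x => Real.smoothTransition (2 - x / ν) with hθ
  set η : (Fin n → ℂ) → ℝ := fun z => if z ∈ S.V then θ (p z) else 0 with hη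
  have hη1 : ∀ z ∈ S.V, η z = θ (p z) := fun z hz => if_pos hz
  have hθs : ContDiff ℝ 4 θ := by
    have : ContDiff ℝ 4 Real.smoothTransition := Real.smoothTransition.contDiff
    exact this.comp (contDiff_const.sub (contDiff_id.div_const ν))
  refine ⟨η, ?_, ?_, ?_, ?_, ?_⟩
  · exact (hθs.comp_contDiffOn hp.smooth).congr hη1
  · intro z
    simp only [hη]
    split_ifs
    · exact ⟨Real.smoothTransition.nonneg _, Real.smoothTransition.le_one _⟩
    · exact ⟨le_rfl, zero_le_one⟩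
  · intro z hz hzR
    rw [hη1 z hz]
    apply Real.smoothTransition.one_of_one_le
    have : p z / ν ≤ 1 := by
      rw [div_le_one hν0]; linarith
    linarith
  · refine ⟨{z | z ∈ S.V ∧ p z ≤ 2 * ν}, hp.compact _, fun z hz => hz.1, fun z hz => ?_⟩
    by_cases hzV : z ∈ S.V
    · rw [hη1 z hzV]
      apply Real.smoothTransition.zero_of_nonpos
      have h1 : 2 * ν < p z := by
        by_contra h
        exact hz ⟨hzV, not_lt.1 h⟩
      have : 2 ≤ p z / ν := by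
        rw [le_div_iff₀ hν0]; linarith
      linarith
    · simp only [hη, if_neg hzV]
  · intro q hq
    have hqV : q.1 ∈ S.V := hq.1
    have h1 : ∀ j, dzb j (fun z => (η z : ℂ)) q.1 =
        ((deriv θ (p q.1) : ℝ) : ℂ) * dzb j (fun z => (p z : ℂ)) q.1 := by
      intro j
      rw [← dzb_comp_real (hpd _ hqV) (hθs.differentiable (by norm_num) _)]
      apply dzb_congr
      filter_upwards [S.isOpen.mem_nhds hqV] with z hz
      rw [hη1 z hz]
    have h2 : ∑ j, ‖dzb j (fun z => (η z : ℂ)) q.1‖ ^ 2 =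
        deriv θ (p q.1) ^ 2 * ∑ j, ‖dz j (fun z => (p z : ℂ)) q.1‖ ^ 2 := by
      rw [Finset.mul_sum]
      refine Finset.sum_congr rfl fun j _ => ?_
      rw [h1 j, norm_mul, mul_pow, dzb_real, RCLike.norm_conj, Complex.norm_real, Real.norm_eq_abs,
        sq_abs]
    have h3 : deriv θ (p q.1) = deriv Real.smoothTransition (2 - p q.1 / ν) * (-(1 / ν)) := by
      have h4 : HasDerivAt (fun x : ℝ => 2 - x / ν) (-(1 / ν)) (p q.1) := by
        have := ((hasDerivAt_id (p q.1)).div_const ν).const_sub 2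
        simpa using this
      have h5 : HasDerivAt Real.smoothTransition (deriv Real.smoothTransition (2 - p q.1 / ν))
          (2 - p q.1 / ν) := by
        have : ContDiff ℝ 1 Real.smoothTransition := Real.smoothTransition.contDiff
        exact (this.differentiable (by norm_num) _).hasDerivAt
      exact (h5.comp (p q.1) h4).deriv
    rw [h2]
    set P := p q.1 with hP
    have hP0 : 0 ≤ P := hp0 _ hqV
    have hexp : Real.exp (((k0 + 1 : ℕ) : ℝ) * Real.log (1 + τ * P)) = (1 + τ * P) ^ (k0 + 1) := by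
      have : 0 < 1 + τ * P := by positivity
      rw [Real.exp_nat_mul, Real.exp_log this]
    change _ ≤ Real.exp (((k0 + 1 : ℕ) : ℝ) * Real.log (1 + τ * P))
    by_cases hcase : ν ≤ P ∧ P ≤ 2 * ν
    · rw [hexp]
      have hg := hp.grad _ hqV
      have h6 : deriv θ P ^ 2 ≤ C' ^ 2 / ν ^ 2 := by
        rw [h3, mul_pow, neg_sq, div_pow, one_pow, ← sq_abs]
        have := hst (2 - P / ν)
        rw [div_eq_mul_one_div (C' ^ 2)]
        gcongr
      have h7 : (1 + P) ^ k0 ≤ (3 * ν) ^ k0 := by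
        gcongr; linarith [hcase.2]
      have h8 : C * (1 + P) ^ k0 ≤ |C| * (3 * ν) ^ k0 := by
        calc C * (1 + P) ^ k0 ≤ |C| * (1 + P) ^ k0 := by
              gcongr; exact le_abs_self _
          _ ≤ _ := by gcongr
      have h9 : (τ * ν) ^ (k0 + 1) ≤ (1 + τ * P) ^ (k0 + 1) := by
        gcongr
        have : τ * ν ≤ τ * P := by gcongr; exact hcase.1
        linarith
      refine le_trans ?_ h9
      calc deriv θ P ^ 2 * ∑ j, ‖dz j (fun z => (p z : ℂ)) q.1‖ ^ 2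
          ≤ (C' ^ 2 / ν ^ 2) * (|C| * (3 * ν) ^ k0) := by
            gcongr
            exact hg.trans h8
        _ = (C' ^ 2 * |C| * 3 ^ k0) * (ν ^ k0 / ν ^ 2) := by
            rw [mul_pow]; ring
        _ ≤ (τ ^ (k0 + 1) * ν) * (ν ^ k0 / ν ^ 2) := by gcongr
        _ = τ ^ (k0 + 1) * ν ^ (k0 + 1) / ν ^ 2 := by ring
        _ ≤ τ ^ (k0 + 1) * ν ^ (k0 + 1) / 1 := by
            gcongr
            exact one_le_pow₀ hν1
        _ = (τ * ν) ^ (k0 + 1) := by rw [div_one, mul_pow]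
    · have h10 : deriv θ P = 0 := by
        rw [h3, deriv_st_zero, zero_mul]
        rw [not_and_or, not_le, not_le] at hcase
        rcases hcase with h | h
        · right
          have : P / ν < 1 := by rw [div_lt_one hν0]; exact h
          linarith
        · left
          have : 2 < P / ν := by rw [lt_div_iff₀ hν0]; exact h
          linarith
      rw [h10]
      simp only [ne_eq, OfNat.ofNat_ne_zero, not_false_eq_true, zero_pow, zero_mul]
      positivity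

/-- The constants: for `ψ = k1 log (1 + τ p)`, `χ = C2 τ (1 + p) ^ (k0 + 1)`. -/
theorem exists_weights {p : (Fin n → ℂ) → ℝ} {C : ℝ} {k0 : ℕ} (hp : Exh S.V p C k0) :
    ∃ (k1 : ℕ) (C2 : ℝ), 0 < C2 ∧ ∀ τ : ℝ, 0 < τ → τ ≤ 1 →
      (∀ z ∈ S.V, 2 * (k1 * Real.log (1 + τ * p z)) ≤ C2 * τ * (1 + p z) ^ (k0 + 1)) ∧
      (∀ q ∈ S.M, ∀ β : Fin n → ℂ,
        2 * ((∑ j, ‖S.D j (fun q => ((k1 * Real.log (1 + τ * p q.1) : ℝ) : ℂ)) q‖ ^ 2) *
          ∑ j, ‖β j‖ ^ 2) ≤ S.levi (fun q => C2 * τ * (1 + p q.1) ^ (k0 + 1)) β q) ∧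
      S.HasCut p (fun q => k1 * Real.log (1 + τ * p q.1)) := by
  set κ : ℝ := ((k0 + 1 : ℕ) : ℝ) with hκ
  have hκ1 : 1 ≤ κ := by rw [hκ]; push_cast; linarith [Nat.cast_nonneg (α := ℝ) k0]
  have hκ0 : 0 < κ := by linarith
  refine ⟨k0 + 1, 2 * κ + 2 * κ ^ 2 * |C|, by positivity, fun τ hτ hτ1 => ⟨?_, ?_, hasCut hp hτ⟩⟩
  · intro z hz
    have hp0 : 0 ≤ p z := (sq_nonneg _).trans (hp.norm_sq_le z hz)
    have h1 : Real.log (1 + τ * p z) ≤ τ * p z := by
      have : 0 < 1 + τ * p z := by positivity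
      have := Real.log_le_sub_one_of_pos this
      linarith
    have h2 : p z ≤ (1 + p z) ^ (k0 + 1) := by
      calc p z ≤ 1 + p z := by linarith
        _ = (1 + p z) ^ 1 := by rw [pow_one]
        _ ≤ (1 + p z) ^ (k0 + 1) := pow_le_pow_right₀ (by linarith) (by omega)
    change 2 * (κ * Real.log (1 + τ * p z)) ≤ _
    calc 2 * (κ * Real.log (1 + τ * p z)) ≤ 2 * (κ * (τ * p z)) := by gcongr
      _ = (2 * κ) * τ * p z := by ring
      _ ≤ (2 * κ + 2 * κ ^ 2 * |C|) * τ * (1 + p z) ^ (k0 + 1) := by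
          gcongr
          have : 0 ≤ 2 * κ ^ 2 * |C| := by positivity
          linarith
  · intro q hq β
    have hqV : q.1 ∈ S.V := hq.1
    have hp0 : 0 ≤ p q.1 := (sq_nonneg _).trans (hp.norm_sq_le _ hqV)
    have hpd : DifferentiableAt ℝ p q.1 :=
      ((hp.smooth.differentiableOn (by norm_num)) q.1 hqV).differentiableAt
        (S.isOpen.mem_nhds hqV)
    have hP1 : 0 < 1 + τ * p q.1 := by positivity
    set C2 : ℝ := 2 * κ + 2 * κ ^ 2 * |C| with hC2
    have hC2pos : 0 < C2 := by positivity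
    have h1 : ∀ j, S.D j (fun q => ((κ * Real.log (1 + τ * p q.1) : ℝ) : ℂ)) q =
        ((κ * (τ / (1 + τ * p q.1)) : ℝ) : ℂ) * dz j (fun z => (p z : ℂ)) q.1 := by
      intro j
      have e1 := D_fst (S := S) (j := j) (q := q)
        (f := fun z => ((κ * Real.log (1 + τ * p z) : ℝ) : ℂ))
      rw [e1]
      have h2 : HasDerivAt (fun x : ℝ => κ * Real.log (1 + τ * x)) (κ * (τ / (1 + τ * p q.1)))
          (p q.1) := by
        have h3 : HasDerivAt (fun x : ℝ => 1 + τ * x) τ (p q.1) := by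
          simpa using ((hasDerivAt_id (p q.1)).const_mul τ).const_add 1
        exact (h3.log hP1.ne').const_mul κ
      rw [dz_comp_real (φ := fun x : ℝ => κ * Real.log (1 + τ * x)) hpd h2.differentiableAt,
        h2.deriv]
    have h4 : ∑ j, ‖S.D j (fun q => ((κ * Real.log (1 + τ * p q.1) : ℝ) : ℂ)) q‖ ^ 2 ≤
        κ ^ 2 * τ * (|C| * (1 + p q.1) ^ k0) := by
      have hg := hp.grad _ hqV
      have h5 : |κ * (τ / (1 + τ * p q.1))| ^ 2 ≤ κ ^ 2 * τ := by
        rw [sq_abs, mul_pow]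
        gcongr
        have h6 : τ / (1 + τ * p q.1) ≤ τ := by
          apply div_le_self hτ.le
          have : 0 ≤ τ * p q.1 := by positivity
          linarith
        have h7 : 0 ≤ τ / (1 + τ * p q.1) := by positivity
        calc (τ / (1 + τ * p q.1)) ^ 2 ≤ τ ^ 2 := by gcongr
          _ = τ * τ := sq τ
          _ ≤ τ * 1 := by gcongr
          _ = τ := mul_one τ
      calc ∑ j, ‖S.D j (fun q => ((κ * Real.log (1 + τ * p q.1) : ℝ) : ℂ)) q‖ ^ 2
          = |κ * (τ / (1 + τ * p q.1))| ^ 2 * ∑ j, ‖dz j (fun z => (p z : ℂ)) q.1‖ ^ 2 := by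
            rw [Finset.mul_sum]
            refine Finset.sum_congr rfl fun j _ => ?_
            rw [h1 j, norm_mul, mul_pow, Complex.norm_real, Real.norm_eq_abs]
        _ ≤ (κ ^ 2 * τ) * (|C| * (1 + p q.1) ^ k0) := by
            gcongr
            refine hg.trans ?_
            gcongr
            exact le_abs_self _
    have hφ : ContDiff ℝ 2 (fun x : ℝ => C2 * τ * (1 + x) ^ (k0 + 1)) := by fun_prop
    have h8 := levi_comp hφ (hp.smooth.of_le (by norm_num)) hq β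
    have hd1 : deriv (fun x : ℝ => C2 * τ * (1 + x) ^ (k0 + 1)) =
        fun x => C2 * τ * (κ * (1 + x) ^ k0) := by
      funext x
      have h9 : HasDerivAt (fun x : ℝ => 1 + x) 1 x := by
        simpa using (hasDerivAt_id x).const_add 1
      have h10 := (h9.pow (k0 + 1)).const_mul (C2 * τ)
      simpa [hκ] using h10.deriv
    have hd2 : 0 ≤ deriv (deriv (fun x : ℝ => C2 * τ * (1 + x) ^ (k0 + 1))) (p q.1) := by
      rw [hd1]
      have h9 : HasDerivAt (fun x : ℝ => 1 + x) 1 (p q.1) := by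
        simpa using (hasDerivAt_id (p q.1)).const_add 1
      have h10 : HasDerivAt (fun x : ℝ => C2 * τ * (κ * (1 + x) ^ k0))
          (C2 * τ * (κ * (k0 * (1 + p q.1) ^ (k0 - 1) * 1))) (p q.1) :=
        ((h9.pow k0).const_mul κ).const_mul (C2 * τ)
      rw [h10.deriv]
      (clear * - hτ hp0; positivity)
    rw [hd1] at h8
    change _ ≤ S.levi (fun q => C2 * τ * (1 + p q.1) ^ (k0 + 1)) β q
    rw [h8]
    have hlev := hp.levi _ hqV β
    change 2 * ((∑ j, ‖S.D j (fun q => ((κ * Real.log (1 + τ * p q.1) : ℝ) : ℂ)) q‖ ^ 2) *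
          ∑ j, ‖β j‖ ^ 2) ≤ _
    have hβ : 0 ≤ ∑ j, ‖β j‖ ^ 2 := by positivity
    have h11 : 2 * ((∑ j, ‖S.D j (fun q => ((κ * Real.log (1 + τ * p q.1) : ℝ) : ℂ)) q‖ ^ 2) *
          ∑ j, ‖β j‖ ^ 2) ≤ C2 * τ * (κ * (1 + p q.1) ^ k0) * ∑ j, ‖β j‖ ^ 2 := by
      calc _ ≤ 2 * ((κ ^ 2 * τ * (|C| * (1 + p q.1) ^ k0)) * ∑ j, ‖β j‖ ^ 2) := by gcongr
        _ = (2 * κ ^ 2 * |C|) * τ * (1 * (1 + p q.1) ^ k0) * ∑ j, ‖β j‖ ^ 2 := by ring
        _ ≤ C2 * τ * (κ * (1 + p q.1) ^ k0) * ∑ j, ‖β j‖ ^ 2 := by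
            gcongr
            rw [hC2]; linarith
    refine h11.trans ?_
    have h12 : C2 * τ * (κ * (1 + p q.1) ^ k0) * ∑ j, ‖β j‖ ^ 2 ≤
        C2 * τ * (κ * (1 + p q.1) ^ k0) *
          (∑ j, ∑ k, dz j (dzb k (fun z => (p z : ℂ))) q.1 * β j * conj (β k)).re := by
      gcongr
    have h13 : 0 ≤ deriv (deriv (fun x : ℝ => C2 * τ * (1 + x) ^ (k0 + 1))) (p q.1) *
        ‖∑ j, dz j (fun z => (p z : ℂ)) q.1 * β j‖ ^ 2 := by positivity
    rw [hd1] at h13
    linarith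

end Sheets

end Vale.Agent.P300.L2
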