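import Vale.Agent.P300.H435.L2.Gen
import Vale.Agent.P300.H435.L2.Weights

set_option linter.all false


open MeasureTheory Filter Topology
open scoped ENNReal NNReal ComplexConjugate

namespace Vale.Agent.P300.L2

namespace Sheets

variable {n N : ℕ} {S : Sheets n N}

namespace HDense

/-- weighted norm -/
noncomputable def NN (S : Sheets n N) (Φ : (Fin n → ℂ) × ℕ → ℝ) (f : (Fin n → ℂ) × ℕ → ℂ) :
    ℝ≥0∞ :=
  eLpNorm (fun q => ((Real.exp (-(Φ q) / 2) : ℝ) : ℂ) * f q) 2 S.μ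

theorem exp_half_sq (x : ℝ) : Real.exp (-x / 2) ^ 2 = Real.exp (-x) := by
  rw [← Real.exp_nat_mul]
  congr 1
  push_cast
  ring

theorem NN_sq (Φ : (Fin n → ℂ) × ℕ → ℝ) (f : (Fin n → ℂ) × ℕ → ℂ) :
    NN S Φ f ^ 2 = ∫⁻ q, ENNReal.ofReal (‖f q‖ ^ 2 * Real.exp (-(Φ q))) ∂S.μ := by
  have h : ∀ q, ‖((Real.exp (-(Φ q) / 2) : ℝ) : ℂ) * f q‖ₑ ^ (2 : ℝ) =
      ENNReal.ofReal (‖f q‖ ^ 2 * Real.exp (-(Φ q))) := by
    intro q
    rw [← ofReal_norm, ENNReal.ofReal_rpow_of_nonneg (norm_nonneg _) (by norm_num),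
      norm_mul, Complex.norm_real, Real.norm_of_nonneg (Real.exp_pos _).le, ← exp_half_sq]
    congr 1
    norm_cast
    ring
  rw [NN, eLpNorm_eq_lintegral_rpow_enorm_toReal (by norm_num) (by norm_num),
    ENNReal.toReal_ofNat, ← ENNReal.rpow_natCast, ← ENNReal.rpow_mul,
    show (1 / 2 : ℝ) * ((2 : ℕ) : ℝ) = 1 by norm_num, ENNReal.rpow_one]
  exact lintegral_congr h

variable {Φ Φ' : (Fin n → ℂ) × ℕ → ℝ} {f g : (Fin n → ℂ) × ℕ → ℂ}

theorem sq_eLpNorm (f : (Fin n → ℂ) × ℕ → ℂ) :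
    eLpNorm f 2 S.μ ^ 2 = ∫⁻ q, ENNReal.ofReal (‖f q‖ ^ 2) ∂S.μ := by
  have h := NN_sq (S := S) (fun _ => 0) f
  simpa [NN] using h

theorem cd_w (hΦ : S.CD 0 (fun q => (Φ q : ℂ))) :
    S.CD 0 (fun q => ((Real.exp (-(Φ q) / 2) : ℝ) : ℂ)) :=
  CD.comp_real (φ := fun x => Real.exp (-x / 2)) (by fun_prop) hΦ

/-- measurability of the weighted function -/
theorem aesm_w (hΦ : S.CD 0 (fun q => (Φ q : ℂ))) (hf : AEStronglyMeasurable f S.μ) :
    AEStronglyMeasurable (fun q => ((Real.exp (-(Φ q) / 2) : ℝ) : ℂ) * f q) S.μ :=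
  (aestronglyMeasurable_of_CD (cd_w hΦ)).mul hf

theorem NN_add_le (hΦ : S.CD 0 (fun q => (Φ q : ℂ))) (hf : AEStronglyMeasurable f S.μ)
    (hg : AEStronglyMeasurable g S.μ) :
    NN S Φ (fun q => f q + g q) ≤ NN S Φ f + NN S Φ g := by
  have h1 := eLpNorm_add_le (aesm_w hΦ hf) (aesm_w hΦ hg) (p := 2) (by norm_num)
  unfold NN
  refine le_trans (le_of_eq ?_) h1
  congr 1
  ext q
  simp [mul_add]

theorem NN_sum_le {ι : Type*} (hΦ : S.CD 0 (fun q => (Φ q : ℂ))) (t : Finset ι)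
    {f : ι → (Fin n → ℂ) × ℕ → ℂ} (hf : ∀ i ∈ t, AEStronglyMeasurable (f i) S.μ) :
    NN S Φ (fun q => ∑ i ∈ t, f i q) ≤ ∑ i ∈ t, NN S Φ (f i) := by
  have h1 := eLpNorm_sum_le (f := fun i q => ((Real.exp (-(Φ q) / 2) : ℝ) : ℂ) * f i q)
    (s := t) (fun i hi => aesm_w hΦ (hf i hi)) (p := 2) (by norm_num)
  unfold NN
  refine le_trans (le_of_eq ?_) h1
  congr 1
  ext q
  simp [Finset.mul_sum]

theorem NN_congr (hfg : ∀ q ∈ S.M, f q = g q) : NN S Φ f = NN S Φ g := by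
  refine eLpNorm_congr_ae ?_
  filter_upwards [ae_mem_M] with q hq
  rw [hfg q hq]

/-- a uniform bound for a compactly supported function -/
theorem exists_bd {h : (Fin n → ℂ) × ℕ → ℂ} (hh : S.CD 0 h) {c : Set (Fin n → ℂ)}
    (hc : IsCompact c) (hcV : c ⊆ S.V) (h0 : ∀ q : (Fin n → ℂ) × ℕ, q.1 ∉ c → h q = 0) :
    ∃ B : ℝ, 0 < B ∧ ∀ q ∈ S.M, ‖h q‖ ≤ B := by
  obtain ⟨B, hB⟩ := exists_bound hh hc hcV
  refine ⟨max B 1, lt_max_of_lt_right one_pos, fun q hq => ?_⟩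
  by_cases hqc : q.1 ∈ c
  · exact (hB q hq hqc).trans (le_max_left _ _)
  · rw [h0 q hqc, norm_zero]
    exact le_max_of_le_right zero_le_one

/-- compactly supported multipliers -/
theorem NN_mul_le {h : (Fin n → ℂ) × ℕ → ℂ} (hh : S.CD 0 h) {c : Set (Fin n → ℂ)}
    (hc : IsCompact c) (hcV : c ⊆ S.V) (h0 : ∀ q : (Fin n → ℂ) × ℕ, q.1 ∉ c → h q = 0)
    (hΦ : S.CD 0 (fun q => (Φ q : ℂ))) :
    ∃ B : ℝ, 0 < B ∧ ∀ f, NN S Φ (fun q => h q * f q) ≤ ENNReal.ofReal B * eLpNorm f 2 S.μ := by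
  obtain ⟨B, hB, hB'⟩ := exists_bd ((cd_w hΦ).mul hh) hc hcV
    (fun q hq => by rw [h0 q hq, mul_zero])
  refine ⟨B, hB, fun f => eLpNorm_le_mul_eLpNorm_of_ae_le_mul ?_ 2⟩
  filter_upwards [ae_mem_M] with q hq
  rw [← mul_assoc, norm_mul]
  exact mul_le_mul_of_nonneg_right (hB' q hq) (norm_nonneg _)

theorem NN_small {h : (Fin n → ℂ) × ℕ → ℂ} (hh : S.CD 0 h) {c : Set (Fin n → ℂ)}
    (hc : IsCompact c) (hcV : c ⊆ S.V) (h0 : ∀ q : (Fin n → ℂ) × ℕ, q.1 ∉ c → h q = 0)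
    (hΦ : S.CD 0 (fun q => (Φ q : ℂ))) {δ : ℝ≥0∞} (hδ : δ ≠ 0) :
    ∀ᶠ a in 𝓝[>] (0 : ℝ≥0∞), ∀ f, eLpNorm f 2 S.μ ≤ a → NN S Φ (fun q => h q * f q) ≤ δ := by
  obtain ⟨B, hB, hB'⟩ := NN_mul_le hh hc hcV h0 hΦ
  have hB0 : ENNReal.ofReal B ≠ 0 := by simpa using hB
  have h1 : (0 : ℝ≥0∞) < δ / ENNReal.ofReal B := ENNReal.div_pos hδ ENNReal.ofReal_ne_top
  filter_upwards [mem_nhdsWithin_of_mem_nhds (Iio_mem_nhds h1)] with a ha f hf
  calc NN S Φ (fun q => h q * f q) ≤ ENNReal.ofReal B * eLpNorm f 2 S.μ := hB' f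
    _ ≤ ENNReal.ofReal B * (δ / ENNReal.ofReal B) := by
        gcongr
        exact hf.trans (le_of_lt ha)
    _ = δ := ENNReal.mul_div_cancel hB0 ENNReal.ofReal_ne_top

/-- local square integrability -/
theorem memLp_mul {h : (Fin n → ℂ) × ℕ → ℂ} (hh : S.CD 0 h) {c : Set (Fin n → ℂ)}
    (hc : IsCompact c) (hcV : c ⊆ S.V) (h0 : ∀ q : (Fin n → ℂ) × ℕ, q.1 ∉ c → h q = 0)
    (hΦ : S.CD 0 (fun q => (Φ q : ℂ))) (hf : AEStronglyMeasurable f S.μ) (hf2 : NN S Φ f ≠ ⊤) :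
    MemLp (fun q => h q * f q) 2 S.μ := by
  have hw : S.CD 0 (fun q => ((Real.exp (Φ q / 2) : ℝ) : ℂ)) :=
    CD.comp_real (φ := fun x => Real.exp (x / 2)) (by fun_prop) hΦ
  obtain ⟨B, hB, hB'⟩ := exists_bd (hw.mul hh) hc hcV
    (fun q hq => by rw [h0 q hq, mul_zero])
  refine ⟨(aestronglyMeasurable_of_CD hh).mul hf, ?_⟩
  refine lt_of_le_of_lt (b := ENNReal.ofReal B * NN S Φ f) ?_
    (ENNReal.mul_lt_top ENNReal.ofReal_lt_top (lt_top_iff_ne_top.2 hf2))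
  refine eLpNorm_le_mul_eLpNorm_of_ae_le_mul ?_ 2
  filter_upwards [ae_mem_M] with q hq
  have h1 : h q * f q = (((Real.exp (Φ q / 2) : ℝ) : ℂ) * h q) *
      (((Real.exp (-(Φ q) / 2) : ℝ) : ℂ) * f q) := by
    have h2 : ((Real.exp (Φ q / 2) : ℝ) : ℂ) * ((Real.exp (-(Φ q) / 2) : ℝ) : ℂ) = 1 := by
      rw [← Complex.ofReal_mul, ← Real.exp_add]
      simp [← add_div]
    linear_combination (-(h q * f q)) * h2
  rw [h1, norm_mul]
  exact mul_le_mul_of_nonneg_right (hB' q hq) (norm_nonneg _)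

/-- compactly supported continuous functions are square integrable -/
theorem memLp_test {h : (Fin n → ℂ) × ℕ → ℂ} (hh : S.CD 0 h) (hs : S.Supp h) :
    MemLp h 2 S.μ := by
  refine (memLp_two_iff_integrable_sq_norm (aestronglyMeasurable_of_CD hh)).2 ?_
  have h1 : Integrable (fun q => h q * conj (h q)) S.μ := by
    refine integrable_of_supp (hh.mul hh.conj) ?_
    obtain ⟨c, hc, hcV, h0⟩ := hs
    exact ⟨c, hc, hcV, fun q hq => by simp only [h0 q hq, zero_mul]⟩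
  refine h1.norm.congr (Eventually.of_forall fun q => ?_)
  simp only
  rw [norm_mul, RCLike.norm_conj, sq]

/-- convergence of the cut off functions -/
theorem NN_tendsto {h : ℕ → (Fin n → ℂ) × ℕ → ℂ} (hh : ∀ m, S.CD 0 (h m))
    (hle : ∀ m, ∀ q ∈ S.M, ‖h m q‖ ^ 2 * Real.exp (-(Φ' q)) ≤ Real.exp (-(Φ q)))
    (hz : ∀ q ∈ S.M, ∀ᶠ m in atTop, h m q = 0)
    (hΦ' : S.CD 0 (fun q => (Φ' q : ℂ))) (hf : AEStronglyMeasurable f S.μ)
    (hf2 : NN S Φ f ≠ ⊤) :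
    Tendsto (fun m => NN S Φ' (fun q => h m q * f q)) atTop (𝓝 0) := by
  have h1 : Tendsto (fun m => NN S Φ' (fun q => h m q * f q) ^ 2) atTop (𝓝 0) := by
    simp only [NN_sq]
    have h2 : (0 : ℝ≥0∞) = ∫⁻ q, 0 ∂S.μ := by simp
    rw [h2]
    refine tendsto_lintegral_of_dominated_convergence'
      (fun q => ENNReal.ofReal (‖f q‖ ^ 2 * Real.exp (-(Φ q)))) ?_ ?_ ?_ ?_
    · intro m
      have h3 := (aesm_w hΦ' ((aestronglyMeasurable_of_CD (hh m)).mul hf)).norm.aemeasurable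
      have h4 := (h3.pow_const 2).ennreal_ofReal
      refine h4.congr (Eventually.of_forall fun q => ?_)
      simp only [Pi.mul_apply]
      rw [norm_mul, Complex.norm_real, Real.norm_of_nonneg (Real.exp_pos _).le, mul_pow,
        exp_half_sq, mul_comm]
    · intro m
      filter_upwards [ae_mem_M] with q hq
      refine ENNReal.ofReal_le_ofReal ?_
      rw [norm_mul, mul_pow]
      linarith only [mul_nonneg (sub_nonneg.2 (hle m q hq)) (sq_nonneg ‖f q‖)]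
    · rw [← NN_sq]
      exact ENNReal.pow_ne_top hf2
    · filter_upwards [ae_mem_M] with q hq
      refine tendsto_const_nhds.congr' ?_
      filter_upwards [hz q hq] with m hm
      simp [hm]
  have h5 := (ENNReal.continuous_rpow_const (y := 1 / 2)).tendsto 0 |>.comp h1
  have h6 : ((0 : ℝ≥0∞) ^ (1 / 2 : ℝ)) = 0 := ENNReal.zero_rpow_of_pos (by norm_num)
  rw [h6] at h5
  refine h5.congr fun m => ?_
  simp only [Function.comp]
  rw [← ENNReal.rpow_natCast, ← ENNReal.rpow_mul]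
  norm_num

/-! ### cutoff functions -/

/-- the derivatives of a function with values in `[0, 1]` vanish where it is `0` or `1` -/
theorem fderiv_extr {η : (Fin n → ℂ) → ℝ} (hη : ∀ z, 0 ≤ η z ∧ η z ≤ 1) {z : Fin n → ℂ}
    (hz : η z = 0 ∨ η z = 1) : fderiv ℝ (fun z => (η z : ℂ)) z = 0 := by
  by_cases hd : DifferentiableAt ℝ (fun z => (η z : ℂ)) z
  · have hd' : DifferentiableAt ℝ η z := by
      have h1 : DifferentiableAt ℝ (fun z => Complex.reCLM (η z : ℂ)) z :=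
        Complex.reCLM.differentiableAt.comp z hd
      simpa using h1
    have h1 : fderiv ℝ η z = 0 := by
      rcases hz with hz | hz
      · refine IsLocalMin.fderiv_eq_zero (Eventually.of_forall fun w => ?_)
        rw [hz]
        exact (hη w).1
      · refine IsLocalMax.fderiv_eq_zero (Eventually.of_forall fun w => ?_)
        rw [hz]
        exact (hη w).2
    have h2 : HasFDerivAt η (0 : (Fin n → ℂ) →L[ℝ] ℝ) z := by
      rw [← h1]
      exact hd'.hasFDerivAt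
    have h3 := Complex.ofRealCLM.hasFDerivAt.comp z h2
    have h4 : fderiv ℝ (fun z => (η z : ℂ)) z = Complex.ofRealCLM.comp 0 := h3.fderiv
    rw [h4, ContinuousLinearMap.comp_zero]
  · exact fderiv_zero_of_not_differentiableAt hd

theorem dz_extr {η : (Fin n → ℂ) → ℝ} (hη : ∀ z, 0 ≤ η z ∧ η z ≤ 1) {z : Fin n → ℂ}
    (hz : η z = 0 ∨ η z = 1) (j : Fin n) : dz j (fun z => (η z : ℂ)) z = 0 := by
  rw [dz, fderiv_extr hη hz]
  simp

theorem dzb_extr {η : (Fin n → ℂ) → ℝ} (hη : ∀ z, 0 ≤ η z ∧ η z ≤ 1) {z : Fin n → ℂ}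
    (hz : η z = 0 ∨ η z = 1) (j : Fin n) : dzb j (fun z => (η z : ℂ)) z = 0 := by
  rw [dzb, fderiv_extr hη hz]
  simp

theorem norm_dz_real (η : (Fin n → ℂ) → ℝ) (z : Fin n → ℂ) (j : Fin n) :
    ‖dz j (fun z => (η z : ℂ)) z‖ = ‖dzb j (fun z => (η z : ℂ)) z‖ := by
  have h := dz_conj (f := fun z => (η z : ℂ)) (z := z) (j := j)
  simp only [Complex.conj_ofReal] at h
  rw [h, RCLike.norm_conj]

/-- a cutoff function with compact support -/
structure Cut (S : Sheets n N) (η : (Fin n → ℂ) → ℝ) (c : Set (Fin n → ℂ)) : Prop where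
  smooth : ContDiffOn ℝ 4 η S.V
  mem : ∀ z, 0 ≤ η z ∧ η z ≤ 1
  compact : IsCompact c
  subset : c ⊆ S.V
  zero : ∀ z, z ∉ c → η z = 0

theorem Cut.cd {η : (Fin n → ℂ) → ℝ} (hη : ContDiffOn ℝ 4 η S.V) :
    S.CD 4 (fun q => (η q.1 : ℂ)) :=
  CD.fst (f := fun z => (η z : ℂ)) (Complex.ofRealCLM.contDiff.comp_contDiffOn hη)

theorem Cut.cd_dz {η : (Fin n → ℂ) → ℝ} (hη : ContDiffOn ℝ 4 η S.V) (j : Fin n) :
    S.CD 3 (fun q => dz j (fun z => (η z : ℂ)) q.1) :=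
  CD.D (j := j) (m := 3) (Cut.cd hη)

theorem Cut.cd_dzb {η : (Fin n → ℂ) → ℝ} (hη : ContDiffOn ℝ 4 η S.V) (j : Fin n) :
    S.CD 3 (fun q => dzb j (fun z => (η z : ℂ)) q.1) :=
  CD.Db (j := j) (m := 3) (Cut.cd hη)

theorem Cut.dz_zero {η : (Fin n → ℂ) → ℝ} {c : Set (Fin n → ℂ)} (h : Cut S η c)
    {z : Fin n → ℂ} (hz : z ∉ c) (j : Fin n) : dz j (fun z => (η z : ℂ)) z = 0 :=
  dz_extr h.mem (Or.inl (h.zero z hz)) j

theorem Cut.dzb_zero {η : (Fin n → ℂ) → ℝ} {c : Set (Fin n → ℂ)} (h : Cut S η c)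
    {z : Fin n → ℂ} (hz : z ∉ c) (j : Fin n) : dzb j (fun z => (η z : ℂ)) z = 0 :=
  dzb_extr h.mem (Or.inl (h.zero z hz)) j

/-- cutoff functions equal to one on a compact set -/
theorem exists_cut (S : Sheets n N) {c : Set (Fin n → ℂ)} (hc : IsCompact c) (hcV : c ⊆ S.V) :
    ∃ (θ : (Fin n → ℂ) → ℝ) (L : Set (Fin n → ℂ)), Cut S θ L ∧ ∀ z ∈ c, θ z = 1 := by
  obtain ⟨L, hL, hcL, hLV⟩ := exists_compact_between hc S.isOpen hcV
  obtain ⟨f, hf1, hf0, hf⟩ := exists_contMDiffMap_one_nhds_of_subset_interior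
    (n := (4 : ℕ)) (modelWithCornersSelf ℝ (Fin n → ℂ)) hc.isClosed hcL
  refine ⟨f, L, ⟨?_, fun z => hf z, hL, hLV, hf0⟩, fun z hz => hf1.self_of_nhdsSet z hz⟩
  exact (contMDiff_iff_contDiff.1 f.contMDiff).contDiffOn

/-- first step: the cutoff -/
theorem exists_eta {lam ψ : (Fin n → ℂ) × ℕ → ℝ} (hlam : S.CD 0 (fun q => (lam q : ℂ)))
    (hψ : S.CD 0 (fun q => (ψ q : ℂ))) {p : (Fin n → ℂ) → ℝ} (hcut : S.HasCut p ψ)
    {b : Fin n → (Fin n → ℂ) × ℕ → ℂ} {g : (Fin n → ℂ) × ℕ → ℂ}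
    (hb : ∀ j, AEStronglyMeasurable (b j) S.μ) (hg : AEStronglyMeasurable g S.μ)
    (hb2 : ∀ j, NN S (fun q => lam q - ψ q) (b j) ≠ ⊤) (hg2 : NN S lam g ≠ ⊤)
    {δ : ℝ≥0∞} (hδ : δ ≠ 0) :
    ∃ (η : (Fin n → ℂ) → ℝ) (c : Set (Fin n → ℂ)), Cut S η c ∧
      (∀ j, NN S (fun q => lam q - ψ q) (fun q => ((η q.1 : ℂ) - 1) * b j q) ≤ δ) ∧
      NN S lam (fun q => ((η q.1 : ℂ) - 1) * g q) ≤ δ ∧
      (∀ j k, NN S lam (fun q => dz j (fun z => (η z : ℂ)) q.1 * b k q) ≤ δ) ∧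
      ∀ j k, NN S lam (fun q => dzb j (fun z => (η z : ℂ)) q.1 * b k q) ≤ δ := by
  choose η h1 h2 h3 h4 h5 using fun m : ℕ => hcut m
  choose c h6 h7 h8 using h4
  have hφ : S.CD 0 (fun q => ((lam q - ψ q : ℝ) : ℂ)) := by
    have h := hlam.add (hψ.mul (CD.const (S := S) (m := 0) (-1)))
    refine h.congr fun q _ => ?_
    push_cast
    ring
  have hcd : ∀ m, S.CD 0 (fun q => (η m q.1 : ℂ) - 1) := by
    intro m
    have h := ((Cut.cd (S := S) (h1 m)).mono (m' := 0) (by norm_num)).add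
      (CD.const (S := S) (m := 0) (-1))
    refine h.congr fun q _ => ?_
    ring
  have hone : ∀ m, ∀ q ∈ S.M, ‖(η m q.1 : ℂ) - 1‖ ^ 2 ≤ 1 := by
    intro m q hq
    have h9 : ‖(η m q.1 : ℂ) - 1‖ ≤ 1 := by
      rw [← Complex.ofReal_one, ← Complex.ofReal_sub, Complex.norm_real, Real.norm_eq_abs, abs_le]
      have := h2 m q.1
      constructor <;> linarith
    exact pow_le_one₀ (norm_nonneg _) h9
  have hev : ∀ q ∈ S.M, ∀ᶠ m : ℕ in atTop, η m q.1 = 1 := by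
    intro q hq
    filter_upwards [eventually_ge_atTop ⌈p q.1⌉₊] with m hm
    exact h3 m q.1 hq.1 ((Nat.le_ceil _).trans (by exact_mod_cast hm))
  have e1 : ∀ j, Tendsto (fun m => NN S (fun q => lam q - ψ q)
      (fun q => ((η m q.1 : ℂ) - 1) * b j q)) atTop (𝓝 0) := by
    intro j
    refine NN_tendsto (Φ := fun q => lam q - ψ q) hcd ?_ ?_ hφ (hb j) (hb2 j)
    · intro m q hq
      exact mul_le_of_le_one_left (Real.exp_pos _).le (hone m q hq)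
    · intro q hq
      filter_upwards [hev q hq] with m hm
      rw [hm]
      simp
  have e2 : Tendsto (fun m => NN S lam (fun q => ((η m q.1 : ℂ) - 1) * g q)) atTop (𝓝 0) := by
    refine NN_tendsto (Φ := lam) hcd ?_ ?_ hlam hg hg2
    · intro m q hq
      exact mul_le_of_le_one_left (Real.exp_pos _).le (hone m q hq)
    · intro q hq
      filter_upwards [hev q hq] with m hm
      rw [hm]
      simp
  have hexp : ∀ q, Real.exp (ψ q) * Real.exp (-(lam q)) = Real.exp (-(lam q - ψ q)) := by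
    intro q
    rw [← Real.exp_add]
    congr 1
    ring
  have hbar : ∀ m, ∀ q ∈ S.M, ∀ j, ‖dzb j (fun z => (η m z : ℂ)) q.1‖ ^ 2 ≤ Real.exp (ψ q) := by
    intro m q hq j
    exact (Finset.single_le_sum (f := fun j => ‖dzb j (fun z => (η m z : ℂ)) q.1‖ ^ 2)
      (fun _ _ => sq_nonneg _) (Finset.mem_univ j)).trans (h5 m q hq)
  have e3 : ∀ j k, Tendsto (fun m => NN S lam
      (fun q => dz j (fun z => (η m z : ℂ)) q.1 * b k q)) atTop (𝓝 0) := by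
    intro j k
    refine NN_tendsto (Φ := fun q => lam q - ψ q)
      (fun m => (Cut.cd_dz (S := S) (h1 m) j).mono (by norm_num)) ?_ ?_ hlam (hb k) (hb2 k)
    · intro m q hq
      rw [← hexp, norm_dz_real]
      exact mul_le_mul_of_nonneg_right (hbar m q hq j) (Real.exp_pos _).le
    · intro q hq
      filter_upwards [hev q hq] with m hm
      exact dz_extr (h2 m) (Or.inr hm) j
  have e4 : ∀ j k, Tendsto (fun m => NN S lam
      (fun q => dzb j (fun z => (η m z : ℂ)) q.1 * b k q)) atTop (𝓝 0) := by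
    intro j k
    refine NN_tendsto (Φ := fun q => lam q - ψ q)
      (fun m => (Cut.cd_dzb (S := S) (h1 m) j).mono (by norm_num)) ?_ ?_ hlam (hb k) (hb2 k)
    · intro m q hq
      rw [← hexp]
      exact mul_le_mul_of_nonneg_right (hbar m q hq j) (Real.exp_pos _).le
    · intro q hq
      filter_upwards [hev q hq] with m hm
      exact dzb_extr (h2 m) (Or.inr hm) j
  have hδ' : (0 : ℝ≥0∞) < δ := pos_iff_ne_zero.2 hδ
  have f1 := eventually_all.2 fun j => (e1 j).eventually_le_const hδ'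
  have f2 := e2.eventually_le_const hδ'
  have f3 := eventually_all.2 fun j => eventually_all.2 fun k => (e3 j k).eventually_le_const hδ'
  have f4 := eventually_all.2 fun j => eventually_all.2 fun k => (e4 j k).eventually_le_const hδ'
  obtain ⟨m, g1, g2, g3, g4⟩ := (f1.and (f2.and (f3.and f4))).exists
  exact ⟨η m, c m, ⟨h1 m, h2 m, h6 m, h7 m, h8 m⟩, g1, g2, g3, g4⟩

/-! ### weak derivatives after the cutoff -/

theorem supp_D {κ : (Fin n → ℂ) × ℕ → ℂ} (h : S.Supp κ) (j : Fin n) : S.Supp (S.D j κ) := by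
  obtain ⟨c, hc, hcV, h0⟩ := h
  refine ⟨c, hc, hcV, fun q hq => ?_⟩
  have h1 : (fun z => κ (z, S.sec q z)) =ᶠ[𝓝 q.1] fun _ => 0 := by
    filter_upwards [hc.isClosed.isOpen_compl.mem_nhds hq] with z hz
    exact h0 _ hz
  rw [Sheets.D, dz_congr h1, dz_const]

theorem supp_Db {κ : (Fin n → ℂ) × ℕ → ℂ} (h : S.Supp κ) (j : Fin n) : S.Supp (S.Db j κ) := by
  obtain ⟨c, hc, hcV, h0⟩ := h
  refine ⟨c, hc, hcV, fun q hq => ?_⟩
  have h1 : (fun z => κ (z, S.sec q z)) =ᶠ[𝓝 q.1] fun _ => 0 := by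
    filter_upwards [hc.isClosed.isOpen_compl.mem_nhds hq] with z hz
    exact h0 _ hz
  rw [Sheets.Db, dzb_congr h1, dzb_const]

/-- the unweighted weak divergence of `η b` -/
noncomputable def gw (S : Sheets n N) (φ : (Fin n → ℂ) × ℕ → ℝ) (η : (Fin n → ℂ) → ℝ)
    (b : Fin n → (Fin n → ℂ) × ℕ → ℂ) (g : (Fin n → ℂ) × ℕ → ℂ) (q : (Fin n → ℂ) × ℕ) : ℂ :=
  (η q.1 : ℂ) * g q + ∑ j, dz j (fun z => (η z : ℂ)) q.1 * b j q +
    ∑ j, (S.D j (fun q => (φ q : ℂ)) q * (η q.1 : ℂ)) * b j q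

/-- the weak curl of `η b` -/
noncomputable def sw (η : (Fin n → ℂ) → ℝ) (b : Fin n → (Fin n → ℂ) × ℕ → ℂ) (j k : Fin n)
    (q : (Fin n → ℂ) × ℕ) : ℂ :=
  dzb j (fun z => (η z : ℂ)) q.1 * b k q - dzb k (fun z => (η z : ℂ)) q.1 * b j q

section
variable {φ lam : (Fin n → ℂ) × ℕ → ℝ} (hφ : S.CD 2 (fun q => (φ q : ℂ)))
  (hlam : S.CD 0 (fun q => (lam q : ℂ)))
  {b : Fin n → (Fin n → ℂ) × ℕ → ℂ} {g : (Fin n → ℂ) × ℕ → ℂ}
  (hb : ∀ j, AEStronglyMeasurable (b j) S.μ) (hg : AEStronglyMeasurable g S.μ)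
  (hb2 : ∀ j, NN S φ (b j) ≠ ⊤) (hg2 : NN S lam g ≠ ⊤)
  {η : (Fin n → ℂ) → ℝ} {c : Set (Fin n → ℂ)} (hη : Cut S η c)

include hφ hb hb2 hη in
theorem memLp_b (j : Fin n) : MemLp (fun q => (η q.1 : ℂ) * b j q) 2 S.μ :=
  memLp_mul ((Cut.cd hη.smooth).mono (by norm_num)) hη.compact hη.subset
    (fun q hq => by rw [hη.zero q.1 hq, Complex.ofReal_zero]) (hφ.mono (by norm_num)) (hb j) (hb2 j)

include hlam hg hg2 hη in
theorem memLp_g : MemLp (fun q => (η q.1 : ℂ) * g q) 2 S.μ :=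
  memLp_mul ((Cut.cd hη.smooth).mono (by norm_num)) hη.compact hη.subset
    (fun q hq => by rw [hη.zero q.1 hq, Complex.ofReal_zero]) hlam hg hg2

include hφ hb hb2 hη in
theorem memLp_dz (j k : Fin n) :
    MemLp (fun q => dz j (fun z => (η z : ℂ)) q.1 * b k q) 2 S.μ :=
  memLp_mul ((Cut.cd_dz hη.smooth j).mono (by norm_num)) hη.compact hη.subset
    (fun _ hq => hη.dz_zero hq j) (hφ.mono (by norm_num)) (hb k) (hb2 k)

include hφ hb hb2 hη in
theorem memLp_dzb (j k : Fin n) :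
    MemLp (fun q => dzb j (fun z => (η z : ℂ)) q.1 * b k q) 2 S.μ :=
  memLp_mul ((Cut.cd_dzb hη.smooth j).mono (by norm_num)) hη.compact hη.subset
    (fun _ hq => hη.dzb_zero hq j) (hφ.mono (by norm_num)) (hb k) (hb2 k)

include hφ in
theorem cd_Dphi (hη : ContDiffOn ℝ 4 η S.V) (j : Fin n) :
    S.CD 1 (fun q => S.D j (fun q => (φ q : ℂ)) q * (η q.1 : ℂ)) :=
  (CD.D (j := j) (m := 1) hφ).mul ((Cut.cd hη).mono (by norm_num))

include hφ hb hb2 hη in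
theorem memLp_D (j k : Fin n) :
    MemLp (fun q => (S.D j (fun q => (φ q : ℂ)) q * (η q.1 : ℂ)) * b k q) 2 S.μ :=
  memLp_mul ((cd_Dphi hφ hη.smooth j).mono (by norm_num)) hη.compact hη.subset
    (fun q hq => by rw [hη.zero q.1 hq, Complex.ofReal_zero, mul_zero])
    (hφ.mono (by norm_num)) (hb k) (hb2 k)

include hφ hb hb2 hη in
theorem memLp_low : MemLp (fun q => ∑ j, dz j (fun z => (η z : ℂ)) q.1 * b j q +
    ∑ j, (S.D j (fun q => (φ q : ℂ)) q * (η q.1 : ℂ)) * b j q) 2 S.μ :=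
  (memLp_finsetSum _ fun j _ => memLp_dz hφ hb hb2 hη j j).add
    (memLp_finsetSum _ fun j _ => memLp_D hφ hb hb2 hη j j)

include hφ hlam hb hb2 hg hg2 hη in
theorem memLp_gw : MemLp (gw S φ η b g) 2 S.μ := by
  refine ((memLp_g hlam hg hg2 hη).add (memLp_low hφ hb hb2 hη)).ae_eq
    (Eventually.of_forall fun q => ?_)
  simp only [Pi.add_apply, gw]
  ring

include hφ hb hb2 hη in
theorem memLp_sw (j k : Fin n) : MemLp (sw η b j k) 2 S.μ :=
  (memLp_dzb hφ hb hb2 hη j k).sub (memLp_dzb hφ hb hb2 hη k j)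

include hφ hlam hb hb2 hg hg2 hη in
theorem weak_div (hgw : ∀ κ, S.IsTest κ →
      ∫ q, (∑ j, b j q * S.D j κ q) * Real.exp (-(φ q)) ∂S.μ =
      - ∫ q, g q * κ q * Real.exp (-(φ q)) ∂S.μ) (κ : (Fin n → ℂ) × ℕ → ℂ) (hκ : S.IsTest κ) :
    ∫ q, ∑ j, ((η q.1 : ℂ) * b j q) * S.D j κ q ∂S.μ = - ∫ q, gw S φ η b g q * κ q ∂S.μ := by
  have hη2 : S.CD 2 (fun q => (η q.1 : ℂ)) := (Cut.cd hη.smooth).mono (by norm_num)
  have he : S.CD 2 (fun q => ((Real.exp (φ q) : ℝ) : ℂ)) :=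
    CD.comp_real (φ := Real.exp) Real.contDiff_exp hφ
  have hηκ : S.CD 2 (fun q => (η q.1 : ℂ) * κ q) := hη2.mul hκ.1
  have htest : S.IsTest (fun q => ((η q.1 : ℂ) * κ q) * ((Real.exp (φ q) : ℝ) : ℂ)) := by
    refine ⟨hηκ.mul he, c, hη.compact, hη.subset, fun q hq => ?_⟩
    simp only [hη.zero q.1 hq, Complex.ofReal_zero, zero_mul]
  have h1 := hgw _ htest
  have hee : ∀ q, ((Real.exp (φ q) : ℝ) : ℂ) * ((Real.exp (-(φ q)) : ℝ) : ℂ) = 1 := by
    intro q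
    rw [← Complex.ofReal_mul, ← Real.exp_add]
    simp
  have h2 : ∀ q ∈ S.M, (∑ j, b j q * S.D j (fun q => ((η q.1 : ℂ) * κ q) *
      ((Real.exp (φ q) : ℝ) : ℂ)) q) * ((Real.exp (-(φ q)) : ℝ) : ℂ) =
      (∑ j, ((η q.1 : ℂ) * b j q) * S.D j κ q) +
        (∑ j, dz j (fun z => (η z : ℂ)) q.1 * b j q +
          ∑ j, (S.D j (fun q => (φ q : ℂ)) q * (η q.1 : ℂ)) * b j q) * κ q := by
    intro q hq
    rw [Finset.sum_mul, add_mul, Finset.sum_mul, Finset.sum_mul, ← Finset.sum_add_distrib,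
      ← Finset.sum_add_distrib]
    refine Finset.sum_congr rfl fun j _ => ?_
    rw [D_mul (hηκ.mono (by norm_num)) (he.mono (by norm_num)) hq,
      D_mul (hη2.mono (by norm_num)) (hκ.1.mono (by norm_num)) hq,
      D_fst (f := fun z => (η z : ℂ)),
      D_comp_real (φ := Real.exp) (hφ.mono (by norm_num)) hq Real.differentiableAt_exp,
      Real.deriv_exp]
    linear_combination (b j q * (dz j (fun z => (η z : ℂ)) q.1 * κ q + (η q.1 : ℂ) * S.D j κ q +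
      (η q.1 : ℂ) * κ q * S.D j (fun q => (φ q : ℂ)) q)) * hee q
  have h3 : ∀ q ∈ S.M, g q * (((η q.1 : ℂ) * κ q) * ((Real.exp (φ q) : ℝ) : ℂ)) *
      ((Real.exp (-(φ q)) : ℝ) : ℂ) = ((η q.1 : ℂ) * g q) * κ q := by
    intro q hq
    linear_combination (g q * (η q.1 : ℂ) * κ q) * hee q
  have hκ0 : MemLp κ 2 S.μ := memLp_test (hκ.1.mono (by norm_num)) hκ.2
  have i1 : Integrable (fun q => ∑ j, ((η q.1 : ℂ) * b j q) * S.D j κ q) S.μ :=
    integrable_finsetSum _ fun j _ => (memLp_b hφ hb hb2 hη j).integrable_mul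
      (memLp_test ((CD.D (j := j) (m := 1) hκ.1).mono (by norm_num)) (supp_D hκ.2 j))
  have i2 : Integrable (fun q => (∑ j, dz j (fun z => (η z : ℂ)) q.1 * b j q +
          ∑ j, (S.D j (fun q => (φ q : ℂ)) q * (η q.1 : ℂ)) * b j q) * κ q) S.μ :=
    (memLp_low hφ hb hb2 hη).integrable_mul hκ0
  have i3 : Integrable (fun q => ((η q.1 : ℂ) * g q) * κ q) S.μ :=
    (memLp_g hlam hg hg2 hη).integrable_mul hκ0
  rw [integral_congr_ae (g := fun q => (∑ j, ((η q.1 : ℂ) * b j q) * S.D j κ q) +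
        (∑ j, dz j (fun z => (η z : ℂ)) q.1 * b j q +
          ∑ j, (S.D j (fun q => (φ q : ℂ)) q * (η q.1 : ℂ)) * b j q) * κ q)
      (by filter_upwards [ae_mem_M] with q hq using h2 q hq), integral_add i1 i2,
    integral_congr_ae (f := fun q => g q * (((η q.1 : ℂ) * κ q) * ((Real.exp (φ q) : ℝ) : ℂ)) *
      ((Real.exp (-(φ q)) : ℝ) : ℂ)) (g := fun q => ((η q.1 : ℂ) * g q) * κ q)
      (by filter_upwards [ae_mem_M] with q hq using h3 q hq)] at h1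
  have h4 : ∫ q, gw S φ η b g q * κ q ∂S.μ = ∫ q, ((η q.1 : ℂ) * g q) * κ q ∂S.μ +
      ∫ q, (∑ j, dz j (fun z => (η z : ℂ)) q.1 * b j q +
          ∑ j, (S.D j (fun q => (φ q : ℂ)) q * (η q.1 : ℂ)) * b j q) * κ q ∂S.μ := by
    rw [← integral_add i3 i2]
    refine integral_congr_ae (Eventually.of_forall fun q => ?_)
    simp only [gw]
    ring
  rw [h4]
  linear_combination h1

include hφ hb hb2 hη in
theorem weak_curl (hsw : ∀ κ, S.IsTest κ → ∀ j k,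
      ∫ q, (b k q * S.Db j κ q - b j q * S.Db k κ q) ∂S.μ = 0)
    (κ : (Fin n → ℂ) × ℕ → ℂ) (hκ : S.IsTest κ) (j k : Fin n) :
    ∫ q, (((η q.1 : ℂ) * b k q) * S.Db j κ q - ((η q.1 : ℂ) * b j q) * S.Db k κ q) ∂S.μ =
      - ∫ q, sw η b j k q * κ q ∂S.μ := by
  have hη2 : S.CD 2 (fun q => (η q.1 : ℂ)) := (Cut.cd hη.smooth).mono (by norm_num)
  have htest : S.IsTest (fun q => (η q.1 : ℂ) * κ q) := by
    refine ⟨hη2.mul hκ.1, c, hη.compact, hη.subset, fun q hq => ?_⟩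
    simp only [hη.zero q.1 hq, Complex.ofReal_zero, zero_mul]
  have h1 := hsw _ htest j k
  have h2 : ∀ q ∈ S.M, b k q * S.Db j (fun q => (η q.1 : ℂ) * κ q) q -
      b j q * S.Db k (fun q => (η q.1 : ℂ) * κ q) q =
      (((η q.1 : ℂ) * b k q) * S.Db j κ q - ((η q.1 : ℂ) * b j q) * S.Db k κ q) +
        sw η b j k q * κ q := by
    intro q hq
    rw [Db_mul (hη2.mono (by norm_num)) (hκ.1.mono (by norm_num)) hq,
      Db_mul (hη2.mono (by norm_num)) (hκ.1.mono (by norm_num)) hq,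
      Db_fst (f := fun z => (η z : ℂ)), Db_fst (f := fun z => (η z : ℂ)), sw]
    ring
  have hκ0 : MemLp κ 2 S.μ := memLp_test (hκ.1.mono (by norm_num)) hκ.2
  have i0 : ∀ j k, Integrable (fun q => ((η q.1 : ℂ) * b k q) * S.Db j κ q) S.μ := fun j k =>
    (memLp_b hφ hb hb2 hη k).integrable_mul
      (memLp_test ((CD.Db (j := j) (m := 1) hκ.1).mono (by norm_num)) (supp_Db hκ.2 j))
  have i1 := (i0 j k).sub (i0 k j)
  have i2 : Integrable (fun q => sw η b j k q * κ q) S.μ :=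
    (memLp_sw hφ hb hb2 hη j k).integrable_mul hκ0
  rw [integral_congr_ae (g := fun q => (((η q.1 : ℂ) * b k q) * S.Db j κ q -
      ((η q.1 : ℂ) * b j q) * S.Db k κ q) + sw η b j k q * κ q)
      (by filter_upwards [ae_mem_M] with q hq using h2 q hq)] at h1
  have h5 := integral_add i1 i2
  simp only [Pi.sub_apply] at h5
  rw [h5] at h1
  linear_combination h1

end

section
variable {φ lam : (Fin n → ℂ) × ℕ → ℝ} (hφ : S.CD 2 (fun q => (φ q : ℂ)))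
  (hlam : S.CD 0 (fun q => (lam q : ℂ)))
  {b : Fin n → (Fin n → ℂ) × ℕ → ℂ} {g : (Fin n → ℂ) × ℕ → ℂ}
  (hb : ∀ j, AEStronglyMeasurable (b j) S.μ) (hg : AEStronglyMeasurable g S.μ)
  (hb2 : ∀ j, NN S φ (b j) ≠ ⊤) (hg2 : NN S lam g ≠ ⊤)
  {η : (Fin n → ℂ) → ℝ} {c : Set (Fin n → ℂ)} (hη : Cut S η c)

/-- second step, pointwise identity for the divergence -/
theorem div_eq {θ : (Fin n → ℂ) → ℝ} {L : Set (Fin n → ℂ)} (hη : Cut S η c) (hθ : Cut S θ L)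
    (h1 : ∀ z ∈ c, θ z = 1) {β : Fin n → (Fin n → ℂ) × ℕ → ℂ} (hβ : ∀ j, S.IsTest (β j))
    {q : (Fin n → ℂ) × ℕ} (hq : q ∈ S.M) :
    ∑ j, (S.D j (fun q => (θ q.1 : ℂ) * β j q) q -
        S.D j (fun q => (φ q : ℂ)) q * ((θ q.1 : ℂ) * β j q)) -
      ((η q.1 : ℂ) * g q + ∑ j, dz j (fun z => (η z : ℂ)) q.1 * b j q) =
    (∑ j, dz j (fun z => (θ z : ℂ)) q.1 * (β j q - (η q.1 : ℂ) * b j q) +
      (θ q.1 : ℂ) * (∑ j, S.D j (β j) q - gw S φ η b g q)) +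
    ∑ j, (-(S.D j (fun q => (φ q : ℂ)) q * (θ q.1 : ℂ))) * (β j q - (η q.1 : ℂ) * b j q) := by
  have hθ2 : S.CD 1 (fun q => (θ q.1 : ℂ)) := (Cut.cd hθ.smooth).mono (by norm_num)
  have e1 : ∀ j, S.D j (fun q => (θ q.1 : ℂ) * β j q) q =
      dz j (fun z => (θ z : ℂ)) q.1 * β j q + (θ q.1 : ℂ) * S.D j (β j) q := by
    intro j
    rw [D_mul hθ2 ((hβ j).1.mono (by norm_num)) hq, D_fst (f := fun z => (θ z : ℂ))]
  have e3 : ∀ j, dz j (fun z => (θ z : ℂ)) q.1 * ((η q.1 : ℂ) * b j q) = 0 := by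
    intro j
    by_cases hqc : q.1 ∈ c
    · rw [dz_extr hθ.mem (Or.inr (h1 _ hqc)), zero_mul]
    · rw [hη.zero _ hqc]
      simp
  have e4 : (θ q.1 : ℂ) * ((η q.1 : ℂ) * g q + ∑ j, dz j (fun z => (η z : ℂ)) q.1 * b j q) =
      (η q.1 : ℂ) * g q + ∑ j, dz j (fun z => (η z : ℂ)) q.1 * b j q := by
    by_cases hqc : q.1 ∈ c
    · rw [h1 _ hqc]
      simp
    · rw [hη.zero _ hqc, Finset.sum_congr rfl fun j _ => by rw [hη.dz_zero hqc j, zero_mul]]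
      simp
  have e5 : ∑ j, (S.D j (fun q => (θ q.1 : ℂ) * β j q) q -
        S.D j (fun q => (φ q : ℂ)) q * ((θ q.1 : ℂ) * β j q)) =
      ∑ j, dz j (fun z => (θ z : ℂ)) q.1 * β j q + (θ q.1 : ℂ) * ∑ j, S.D j (β j) q -
        ∑ j, S.D j (fun q => (φ q : ℂ)) q * (θ q.1 : ℂ) * β j q := by
    rw [Finset.mul_sum, ← Finset.sum_add_distrib, ← Finset.sum_sub_distrib]
    refine Finset.sum_congr rfl fun j _ => ?_
    rw [e1 j]
    ring
  have e6 : ∑ j, dz j (fun z => (θ z : ℂ)) q.1 * (β j q - (η q.1 : ℂ) * b j q) =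
      ∑ j, dz j (fun z => (θ z : ℂ)) q.1 * β j q := by
    refine Finset.sum_congr rfl fun j _ => ?_
    rw [mul_sub, e3 j, sub_zero]
  have e7 : ∑ j, (-(S.D j (fun q => (φ q : ℂ)) q * (θ q.1 : ℂ))) *
      (β j q - (η q.1 : ℂ) * b j q) =
      (θ q.1 : ℂ) * ∑ j, (S.D j (fun q => (φ q : ℂ)) q * (η q.1 : ℂ)) * b j q -
        ∑ j, S.D j (fun q => (φ q : ℂ)) q * (θ q.1 : ℂ) * β j q := by
    rw [Finset.mul_sum, ← Finset.sum_sub_distrib]
    refine Finset.sum_congr rfl fun j _ => ?_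
    ring
  rw [e5, e6, e7, gw]
  linear_combination e4

/-- second step, pointwise identity for the curl -/
theorem curl_eq {θ : (Fin n → ℂ) → ℝ} {L : Set (Fin n → ℂ)} (hη : Cut S η c) (hθ : Cut S θ L)
    (h1 : ∀ z ∈ c, θ z = 1) {β : Fin n → (Fin n → ℂ) × ℕ → ℂ} (hβ : ∀ j, S.IsTest (β j))
    {q : (Fin n → ℂ) × ℕ} (hq : q ∈ S.M) (j k : Fin n) :
    S.Db j (fun q => (θ q.1 : ℂ) * β k q) q - S.Db k (fun q => (θ q.1 : ℂ) * β j q) q -
      sw η b j k q =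
    (dzb j (fun z => (θ z : ℂ)) q.1 * (β k q - (η q.1 : ℂ) * b k q) +
      (θ q.1 : ℂ) * (S.Db j (β k) q - S.Db k (β j) q - sw η b j k q)) +
      (-(dzb k (fun z => (θ z : ℂ)) q.1)) * (β j q - (η q.1 : ℂ) * b j q) := by
  have hθ2 : S.CD 1 (fun q => (θ q.1 : ℂ)) := (Cut.cd hθ.smooth).mono (by norm_num)
  have e1 : ∀ j k, S.Db j (fun q => (θ q.1 : ℂ) * β k q) q =
      dzb j (fun z => (θ z : ℂ)) q.1 * β k q + (θ q.1 : ℂ) * S.Db j (β k) q := by
    intro j k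
    rw [Db_mul hθ2 ((hβ k).1.mono (by norm_num)) hq, Db_fst (f := fun z => (θ z : ℂ))]
  have e3 : ∀ j k, dzb j (fun z => (θ z : ℂ)) q.1 * ((η q.1 : ℂ) * b k q) = 0 := by
    intro j k
    by_cases hqc : q.1 ∈ c
    · rw [dzb_extr hθ.mem (Or.inr (h1 _ hqc)), zero_mul]
    · rw [hη.zero _ hqc]
      simp
  have e4 : (θ q.1 : ℂ) * sw η b j k q = sw η b j k q := by
    by_cases hqc : q.1 ∈ c
    · rw [h1 _ hqc]
      simp
    · rw [sw, hη.dzb_zero hqc j, hη.dzb_zero hqc k]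
      simp
  rw [e1, e1]
  linear_combination e4 + e3 j k - e3 k j

include hφ hlam hb hg hb2 hg2 hη in
/-- second step: approximation of the form after the cutoff -/
theorem exists_test_eta (hgw : ∀ κ, S.IsTest κ →
      ∫ q, (∑ j, b j q * S.D j κ q) * Real.exp (-(φ q)) ∂S.μ =
      - ∫ q, g q * κ q * Real.exp (-(φ q)) ∂S.μ)
    (hsw : ∀ κ, S.IsTest κ → ∀ j k,
      ∫ q, (b k q * S.Db j κ q - b j q * S.Db k κ q) ∂S.μ = 0)
    {δ : ℝ≥0∞} (hδ : δ ≠ 0) :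
    ∃ β : Fin n → (Fin n → ℂ) × ℕ → ℂ, (∀ j, S.IsTest (β j)) ∧
      (∀ j, NN S φ (fun q => β j q - (η q.1 : ℂ) * b j q) ≤ δ) ∧
      NN S lam (fun q => ∑ j, (S.D j (β j) q - S.D j (fun q => (φ q : ℂ)) q * β j q) -
        ((η q.1 : ℂ) * g q + ∑ j, dz j (fun z => (η z : ℂ)) q.1 * b j q)) ≤ (2 * n + 1) * δ ∧
      ∀ j k, NN S lam (fun q => S.Db j (β k) q - S.Db k (β j) q - sw η b j k q) ≤ 3 * δ := by
  obtain ⟨θ, L, hθ, hθ1⟩ := exists_cut S hη.compact hη.subset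
  have hφ0 : S.CD 0 (fun q => (φ q : ℂ)) := hφ.mono (by norm_num)
  have c1 : S.CD 0 (fun q => (θ q.1 : ℂ)) := (Cut.cd hθ.smooth).mono (by norm_num)
  have z1 : ∀ q : (Fin n → ℂ) × ℕ, q.1 ∉ L → (θ q.1 : ℂ) = 0 := fun q hq => by
    rw [hθ.zero _ hq, Complex.ofReal_zero]
  have c2 : ∀ j, S.CD 0 (fun q => dz j (fun z => (θ z : ℂ)) q.1) := fun j =>
    (Cut.cd_dz hθ.smooth j).mono (by norm_num)
  have c3 : ∀ j, S.CD 0 (fun q => dzb j (fun z => (θ z : ℂ)) q.1) := fun j =>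
    (Cut.cd_dzb hθ.smooth j).mono (by norm_num)
  have c3' : ∀ j, S.CD 0 (fun q => -(dzb j (fun z => (θ z : ℂ)) q.1)) := fun j =>
    ((CD.const (S := S) (m := 0) (-1)).mul (c3 j)).congr fun q _ => by ring
  have c4 : ∀ j, S.CD 0 (fun q => -(S.D j (fun q => (φ q : ℂ)) q * (θ q.1 : ℂ))) := fun j =>
    ((CD.const (S := S) (m := 0) (-1)).mul ((cd_Dphi hφ hθ.smooth j).mono (by norm_num))).congr
      fun q _ => by ring
  have s1 := NN_small c1 hθ.compact hθ.subset z1 hφ0 hδ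
  have s1' := NN_small c1 hθ.compact hθ.subset z1 hlam hδ
  have s2 := eventually_all.2 fun j => NN_small (c2 j) hθ.compact hθ.subset
    (fun q hq => hθ.dz_zero hq j) hlam hδ
  have s3 := eventually_all.2 fun j => NN_small (c3 j) hθ.compact hθ.subset
    (fun q hq => hθ.dzb_zero hq j) hlam hδ
  have s3' := eventually_all.2 fun j => NN_small (c3' j) hθ.compact hθ.subset
    (fun q hq => by rw [hθ.dzb_zero hq j, neg_zero]) hlam hδ
  have s4 := eventually_all.2 fun j => NN_small (c4 j) hθ.compact hθ.subset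
    (fun q hq => by rw [z1 q hq, mul_zero, neg_zero]) hlam hδ
  obtain ⟨a, ⟨t1, t1', t2, t3, t3', t4⟩, ha⟩ :=
    ((s1.and (s1'.and (s2.and (s3.and (s3'.and s4))))).and self_mem_nhdsWithin).exists
  have ha0 : a ^ 2 ≠ 0 := pow_ne_zero 2 (ne_of_gt ha)
  obtain ⟨β, hβ, -, b1, b2, b3⟩ := exists_test_approx_compact
    (fun j q => (η q.1 : ℂ) * b j q) (gw S φ η b g) (sw η b) hη.compact hη.subset
    (fun j q hq => by simp only [hη.zero _ hq, Complex.ofReal_zero, zero_mul])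
    (memLp_b hφ hb hb2 hη) (memLp_gw hφ hlam hb hg hb2 hg2 hη) (memLp_sw hφ hb hb2 hη)
    (weak_div hφ hlam hb hg hb2 hg2 hη hgw) (weak_curl hφ hb hb2 hη hsw) ha0
  have conv : ∀ f : (Fin n → ℂ) × ℕ → ℂ, ∫⁻ q, ENNReal.ofReal (‖f q‖ ^ 2) ∂S.μ ≤ a ^ 2 →
      eLpNorm f 2 S.μ ≤ a := by
    intro f hf
    rw [← sq_eLpNorm] at hf
    exact (ENNReal.pow_le_pow_left_iff two_ne_zero).1 hf
  have d1 : ∀ j, eLpNorm (fun q => β j q - (η q.1 : ℂ) * b j q) 2 S.μ ≤ a := fun j => conv _ (b1 j)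
  have d2 := conv _ b2
  have d3 : ∀ j k, eLpNorm (fun q => S.Db j (β k) q - S.Db k (β j) q - sw η b j k q) 2 S.μ ≤ a :=
    fun j k => conv _ (b3 j k)
  -- measurability
  have mβ : ∀ j, AEStronglyMeasurable (β j) S.μ := fun j =>
    aestronglyMeasurable_of_CD ((hβ j).1.mono (by norm_num))
  have m1 : ∀ j, AEStronglyMeasurable (fun q => β j q - (η q.1 : ℂ) * b j q) S.μ := fun j =>
    (mβ j).sub (memLp_b hφ hb hb2 hη j).1
  have m2 : AEStronglyMeasurable (fun q => ∑ j, S.D j (β j) q - gw S φ η b g q) S.μ := by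
    refine AEStronglyMeasurable.sub ?_ (memLp_gw hφ hlam hb hg hb2 hg2 hη).1
    refine aestronglyMeasurable_of_CD (CD.sum _ fun j _ => ?_)
    exact (CD.D (j := j) (m := 1) (hβ j).1).mono (by norm_num)
  have m3 : ∀ j k, AEStronglyMeasurable
      (fun q => S.Db j (β k) q - S.Db k (β j) q - sw η b j k q) S.μ := fun j k =>
    ((aestronglyMeasurable_of_CD ((CD.Db (j := j) (m := 1) (hβ k).1).mono (by norm_num))).sub
      (aestronglyMeasurable_of_CD ((CD.Db (j := k) (m := 1) (hβ j).1).mono (by norm_num)))).sub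
      (memLp_sw hφ hb hb2 hη j k).1
  have mc : ∀ {h f : (Fin n → ℂ) × ℕ → ℂ}, S.CD 0 h → AEStronglyMeasurable f S.μ →
      AEStronglyMeasurable (fun q => h q * f q) S.μ := fun hh hf =>
    (aestronglyMeasurable_of_CD hh).mul hf
  refine ⟨fun j q => (θ q.1 : ℂ) * β j q, ?_, ?_, ?_, ?_⟩
  · intro j
    refine ⟨((Cut.cd hθ.smooth).mono (by norm_num)).mul (hβ j).1, L, hθ.compact, hθ.subset,
      fun q hq => ?_⟩
    simp only [z1 q hq, zero_mul]
  · intro j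
    refine le_trans (le_of_eq ?_) (t1 _ (d1 j))
    refine NN_congr fun q _ => ?_
    have e : (θ q.1 : ℂ) * ((η q.1 : ℂ) * b j q) = (η q.1 : ℂ) * b j q := by
      by_cases hqc : q.1 ∈ c
      · rw [hθ1 _ hqc]
        simp
      · rw [hη.zero _ hqc]
        simp
    linear_combination e
  · rw [NN_congr fun q hq => div_eq hη hθ hθ1 hβ hq]
    have k1 : NN S lam (fun q => ∑ j, dz j (fun z => (θ z : ℂ)) q.1 *
        (β j q - (η q.1 : ℂ) * b j q)) ≤ n * δ := by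
      refine (NN_sum_le hlam _ fun j _ => mc (c2 j) (m1 j)).trans ?_
      refine (Finset.sum_le_sum fun j _ => t2 j _ (d1 j)).trans ?_
      rw [Finset.sum_const, Finset.card_univ, Fintype.card_fin, nsmul_eq_mul]
    have k2 : NN S lam (fun q => (θ q.1 : ℂ) * (∑ j, S.D j (β j) q - gw S φ η b g q)) ≤ δ :=
      t1' _ d2
    have k3 : NN S lam (fun q => ∑ j, (-(S.D j (fun q => (φ q : ℂ)) q * (θ q.1 : ℂ))) *
        (β j q - (η q.1 : ℂ) * b j q)) ≤ n * δ := by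
      refine (NN_sum_le hlam _ fun j _ => mc (c4 j) (m1 j)).trans ?_
      refine (Finset.sum_le_sum fun j _ => t4 j _ (d1 j)).trans ?_
      rw [Finset.sum_const, Finset.card_univ, Fintype.card_fin, nsmul_eq_mul]
    have n1 : AEStronglyMeasurable (fun q => ∑ j, dz j (fun z => (θ z : ℂ)) q.1 *
        (β j q - (η q.1 : ℂ) * b j q)) S.μ :=
      Finset.aestronglyMeasurable_fun_sum _ fun j _ => mc (c2 j) (m1 j)
    have n2 : AEStronglyMeasurable
        (fun q => (θ q.1 : ℂ) * (∑ j, S.D j (β j) q - gw S φ η b g q)) S.μ := mc c1 m2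
    have n3 : AEStronglyMeasurable (fun q => ∑ j,
        (-(S.D j (fun q => (φ q : ℂ)) q * (θ q.1 : ℂ))) * (β j q - (η q.1 : ℂ) * b j q)) S.μ :=
      Finset.aestronglyMeasurable_fun_sum _ fun j _ => mc (c4 j) (m1 j)
    refine (NN_add_le hlam (n1.add n2) n3).trans ?_
    refine (add_le_add (NN_add_le hlam n1 n2) le_rfl).trans ?_
    refine (add_le_add (add_le_add k1 k2) k3).trans (le_of_eq ?_)
    ring
  · intro j k
    rw [NN_congr fun q hq => curl_eq hη hθ hθ1 hβ hq j k]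
    refine (NN_add_le hlam ((mc (c3 j) (m1 k)).add (mc c1 (m3 j k)))
      (mc (c3' k) (m1 j))).trans ?_
    refine (add_le_add (NN_add_le hlam (mc (c3 j) (m1 k)) (mc c1 (m3 j k))) le_rfl).trans ?_
    refine (add_le_add (add_le_add (t3 j _ (d1 k)) (t1' _ (d3 j k))) (t3' k _ (d1 j))).trans
      (le_of_eq ?_)
    ring

end

end HDense

open HDense in
/-- Density of test forms in the graph norm, with weights `φ₁ = lam - 2 ψ`, `φ₂ = lam - ψ`,
`φ₃ = lam`. Here `g` is the weak value of `∑ (D_j b_j - D_j φ₂ b_j)` and `b` is closed. -/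
theorem exists_test_approx {lam ψ : (Fin n → ℂ) × ℕ → ℝ} (hlam : S.CD 2 (fun q => (lam q : ℂ)))
    (hψ : S.CD 2 (fun q => (ψ q : ℂ))) {p : (Fin n → ℂ) → ℝ} (hcut : S.HasCut p ψ)
    (b : Fin n → (Fin n → ℂ) × ℕ → ℂ) (g : (Fin n → ℂ) × ℕ → ℂ)
    (hb : ∀ j, AEStronglyMeasurable (b j) S.μ) (hg : AEStronglyMeasurable g S.μ)
    (hb2 : ∀ j, ∫⁻ q, ENNReal.ofReal (‖b j q‖ ^ 2 * Real.exp (-(lam q - ψ q))) ∂S.μ < ⊤)
    (hg2 : ∫⁻ q, ENNReal.ofReal (‖g q‖ ^ 2 * Real.exp (-lam q)) ∂S.μ < ⊤)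
    (hgw : ∀ κ, S.IsTest κ → ∫ q, (∑ j, b j q * S.D j κ q) * Real.exp (-(lam q - ψ q)) ∂S.μ =
      - ∫ q, g q * κ q * Real.exp (-(lam q - ψ q)) ∂S.μ)
    (hsw : ∀ κ, S.IsTest κ → ∀ j k, ∫ q, (b k q * S.Db j κ q - b j q * S.Db k κ q) ∂S.μ = 0)
    {ε : ℝ≥0∞} (hε : ε ≠ 0) :
    ∃ β : Fin n → (Fin n → ℂ) × ℕ → ℂ, (∀ j, S.IsTest (β j)) ∧
      (∀ j, ∫⁻ q, ENNReal.ofReal (‖β j q - b j q‖ ^ 2 * Real.exp (-(lam q - ψ q))) ∂S.μ ≤ ε) ∧
      ∫⁻ q, ENNReal.ofReal (‖∑ j, (S.D j (β j) q -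
        S.D j (fun q => ((lam q - ψ q : ℝ) : ℂ)) q * β j q) - g q‖ ^ 2 *
          Real.exp (-lam q)) ∂S.μ ≤ ε ∧
      ∀ j k, ∫⁻ q, ENNReal.ofReal (‖S.Db j (β k) q - S.Db k (β j) q‖ ^ 2 *
        Real.exp (-lam q)) ∂S.μ ≤ ε := by
  set φ : (Fin n → ℂ) × ℕ → ℝ := fun q => lam q - ψ q with hφdef
  have hφ : S.CD 2 (fun q => (φ q : ℂ)) := by
    have h := hlam.add (hψ.mul (CD.const (S := S) (m := 2) (-1)))
    refine h.congr fun q _ => ?_
    simp only [hφdef]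
    push_cast
    ring
  have hlam0 : S.CD 0 (fun q => (lam q : ℂ)) := hlam.mono (by norm_num)
  have hφ0 : S.CD 0 (fun q => (φ q : ℂ)) := hφ.mono (by norm_num)
  have fin_of : ∀ (Φ : (Fin n → ℂ) × ℕ → ℝ) (f : (Fin n → ℂ) × ℕ → ℂ),
      ∫⁻ q, ENNReal.ofReal (‖f q‖ ^ 2 * Real.exp (-(Φ q))) ∂S.μ < ⊤ → NN S Φ f ≠ ⊤ := by
    intro Φ f hf h
    rw [← NN_sq, h] at hf
    simp at hf
  have hb2' : ∀ j, NN S φ (b j) ≠ ⊤ := fun j => fin_of φ (b j) (hb2 j)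
  have hg2' : NN S lam g ≠ ⊤ := fin_of lam g hg2
  -- the small quantity
  set δ : ℝ≥0∞ := ε ^ (1 / 2 : ℝ) / (4 * n + 6) with hδdef
  have hn0 : ((4 : ℝ≥0∞) * n + 6) ≠ 0 := by simp
  have hnt : ((4 : ℝ≥0∞) * n + 6) ≠ ⊤ := by
    have : ((4 : ℝ≥0∞) * n + 6) = ((4 * n + 6 : ℕ) : ℝ≥0∞) := by push_cast; ring
    rw [this]
    exact ENNReal.natCast_ne_top _
  have hδ : δ ≠ 0 := by
    refine (ENNReal.div_pos ?_ hnt).ne'
    exact (ENNReal.rpow_pos_of_nonneg (pos_iff_ne_zero.2 hε) (by norm_num)).ne'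
  have hδε : ((4 * n + 6) * δ) ^ 2 ≤ ε := by
    rw [hδdef, ENNReal.mul_div_cancel hn0 hnt, ← ENNReal.rpow_natCast, ← ENNReal.rpow_mul]
    norm_num
  obtain ⟨η, c, hη, a1, a2, a3, a4⟩ := exists_eta hlam0 (hψ.mono (by norm_num)) hcut hb hg hb2'
    hg2' hδ
  obtain ⟨β, hβ, b1, b2, b3⟩ := exists_test_eta hφ hlam0 hb hg hb2' hg2' hη hgw hsw hδ
  have fin : ∀ (Φ : (Fin n → ℂ) × ℕ → ℝ) (f : (Fin n → ℂ) × ℕ → ℂ),
      NN S Φ f ≤ (4 * n + 6) * δ →
      ∫⁻ q, ENNReal.ofReal (‖f q‖ ^ 2 * Real.exp (-(Φ q))) ∂S.μ ≤ ε := by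
    intro Φ f hf
    rw [← NN_sq]
    exact (pow_le_pow_left' hf 2).trans hδε
  have hη0 : S.CD 0 (fun q => (η q.1 : ℂ)) := (Cut.cd hη.smooth).mono (by norm_num)
  have mη : AEStronglyMeasurable (fun q => (η q.1 : ℂ)) S.μ := aestronglyMeasurable_of_CD hη0
  have mη1 : AEStronglyMeasurable (fun q => (η q.1 : ℂ) - 1) S.μ :=
    mη.sub aestronglyMeasurable_const
  have mβ : ∀ j, AEStronglyMeasurable (β j) S.μ := fun j =>
    aestronglyMeasurable_of_CD ((hβ j).1.mono (by norm_num))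
  have mdz : ∀ j k, AEStronglyMeasurable (fun q => dz j (fun z => (η z : ℂ)) q.1 * b k q) S.μ :=
    fun j k => (memLp_dz hφ hb hb2' hη j k).1
  have mdzb : ∀ j k, AEStronglyMeasurable (fun q => dzb j (fun z => (η z : ℂ)) q.1 * b k q) S.μ :=
    fun j k => (memLp_dzb hφ hb hb2' hη j k).1
  refine ⟨β, hβ, ?_, ?_, ?_⟩
  · intro j
    refine fin φ _ ?_
    have e : NN S φ (fun q => β j q - b j q) =
        NN S φ (fun q => (β j q - (η q.1 : ℂ) * b j q) + ((η q.1 : ℂ) - 1) * b j q) :=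
      NN_congr fun q _ => by ring
    rw [e]
    refine (NN_add_le hφ0 ((mβ j).sub (mη.mul (hb j))) (mη1.mul (hb j))).trans ?_
    refine (add_le_add (b1 j) (a1 j)).trans ?_
    calc δ + δ = 2 * δ := by ring
      _ ≤ (4 * n + 6) * δ := by
          gcongr
          exact le_add_left (by norm_num)
  · refine fin lam _ ?_
    have e : NN S lam (fun q => ∑ j, (S.D j (β j) q -
        S.D j (fun q => ((lam q - ψ q : ℝ) : ℂ)) q * β j q) - g q) =
        NN S lam (fun q => (∑ j, (S.D j (β j) q - S.D j (fun q => (φ q : ℂ)) q * β j q) -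
        ((η q.1 : ℂ) * g q + ∑ j, dz j (fun z => (η z : ℂ)) q.1 * b j q)) +
        (((η q.1 : ℂ) - 1) * g q + ∑ j, dz j (fun z => (η z : ℂ)) q.1 * b j q)) :=
      NN_congr fun q _ => by ring
    rw [e]
    have m1 : AEStronglyMeasurable (fun q => ∑ j, (S.D j (β j) q -
        S.D j (fun q => (φ q : ℂ)) q * β j q)) S.μ := by
      refine Finset.aestronglyMeasurable_fun_sum _ fun j _ => ?_
      refine AEStronglyMeasurable.sub ?_ (AEStronglyMeasurable.mul ?_ (mβ j))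
      · exact aestronglyMeasurable_of_CD ((CD.D (j := j) (m := 1) (hβ j).1).mono (by norm_num))
      · exact aestronglyMeasurable_of_CD ((CD.D (j := j) (m := 1) hφ).mono (by norm_num))
    have m2 : AEStronglyMeasurable (fun q => ∑ j, dz j (fun z => (η z : ℂ)) q.1 * b j q) S.μ :=
      Finset.aestronglyMeasurable_fun_sum _ fun j _ => mdz j j
    refine (NN_add_le hlam0 (m1.sub ((mη.mul hg).add m2)) ((mη1.mul hg).add m2)).trans ?_
    refine (add_le_add b2 ((NN_add_le hlam0 (mη1.mul hg) m2).trans (add_le_add a2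
      (NN_sum_le hlam0 _ fun j _ => mdz j j)))).trans ?_
    refine (add_le_add le_rfl (add_le_add le_rfl
      (Finset.sum_le_sum fun j _ => a3 j j))).trans ?_
    rw [Finset.sum_const, Finset.card_univ, Fintype.card_fin, nsmul_eq_mul]
    calc (2 * (n : ℝ≥0∞) + 1) * δ + (δ + n * δ) = (3 * n + 2) * δ := by ring
      _ ≤ (4 * n + 6) * δ := by
          gcongr <;> norm_num
  · intro j k
    refine fin lam _ ?_
    have e : NN S lam (fun q => S.Db j (β k) q - S.Db k (β j) q) =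
        NN S lam (fun q => ((S.Db j (β k) q - S.Db k (β j) q - sw η b j k q) +
          dzb j (fun z => (η z : ℂ)) q.1 * b k q) +
          (-1) * (dzb k (fun z => (η z : ℂ)) q.1 * b j q)) :=
      NN_congr fun q _ => by rw [sw]; ring
    have e' : NN S lam (fun q => (-1) * (dzb k (fun z => (η z : ℂ)) q.1 * b j q)) =
        NN S lam (fun q => dzb k (fun z => (η z : ℂ)) q.1 * b j q) := by
      rw [NN, NN, ← eLpNorm_neg]
      congr 1
      ext q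
      simp only [Pi.neg_apply]
      ring
    rw [e]
    have m1 : AEStronglyMeasurable
        (fun q => S.Db j (β k) q - S.Db k (β j) q - sw η b j k q) S.μ :=
      ((aestronglyMeasurable_of_CD ((CD.Db (j := j) (m := 1) (hβ k).1).mono (by norm_num))).sub
      (aestronglyMeasurable_of_CD ((CD.Db (j := k) (m := 1) (hβ j).1).mono (by norm_num)))).sub
      (memLp_sw hφ hb hb2' hη j k).1
    refine (NN_add_le (g := fun q => (-1) * (dzb k (fun z => (η z : ℂ)) q.1 * b j q)) hlam0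
      (m1.add (mdzb j k)) (aestronglyMeasurable_const.mul (mdzb k j))).trans ?_
    rw [e']
    refine (add_le_add ((NN_add_le hlam0 m1 (mdzb j k)).trans (add_le_add (b3 j k) (a4 j k)))
      (a4 k j)).trans ?_
    calc 3 * δ + δ + δ = 5 * δ := by ring
      _ ≤ (4 * n + 6) * δ := by
          gcongr
          exact le_add_left (by norm_num)

end Sheets

end Vale.Agent.P300.L2
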