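import Vale.Agent.P300.H435.L2.Ineq
import Vale.Agent.P300.H435.L2.HDense

set_option linter.all false


open MeasureTheory Filter Topology
open scoped ENNReal NNReal ComplexConjugate

namespace Vale.Agent.P300.L2

namespace Sheets

variable {n N : ℕ} {S : Sheets n N}

theorem hp_int_levi {Φ lam : (Fin n → ℂ) × ℕ → ℝ} (hΦ : S.CD 2 (fun q => (Φ q : ℂ)))
    (hlam : S.CD 0 (fun q => (lam q : ℂ)))
    {β : Fin n → (Fin n → ℂ) × ℕ → ℂ} (hβ : ∀ j, S.IsTest (β j)) :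
    Integrable (fun q => S.levi Φ (fun j => β j q) q * Real.exp (-lam q)) S.μ := by
  have hE0 : S.CD 0 (fun q => ((Real.exp (-lam q) : ℝ) : ℂ)) := hb_CD_exp hlam
  have hβ0 : ∀ j, S.CD 0 (β j) := fun j => (hβ j).1.mono (by norm_num)
  have hL0 : ∀ j k, S.CD 0 (S.D j (S.Db k (fun q => (Φ q : ℂ)))) := fun j k =>
    CD.D (m := 0) (CD.Db (m := 1) hΦ)
  have i3 : ∀ j k, Integrable (fun q => S.D j (S.Db k (fun q => (Φ q : ℂ))) q * β j q *
      conj (β k q) * ((Real.exp (-lam q) : ℝ) : ℂ)) S.μ := fun j k =>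
    integrable_of_supp ((((hL0 j k).mul (hβ0 j)).mul (hβ0 k).conj).mul hE0)
      (hb_supp_mul (hb_supp_mul (hb_supp_mul' _ (hβ j).2) _) _)
  have h := (integrable_finsetSum Finset.univ fun j (_ : j ∈ Finset.univ) =>
    integrable_finsetSum Finset.univ fun k (_ : k ∈ Finset.univ) => i3 j k).re
  refine h.congr (Eventually.of_forall fun q => ?_)
  change (∑ j, ∑ k, S.D j (S.Db k (fun q => (Φ q : ℂ))) q * β j q * conj (β k q) *
      ((Real.exp (-lam q) : ℝ) : ℂ)).re = _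
  beta_reduce
  rw [levi, ← Complex.re_mul_ofReal, Finset.sum_mul]
  congr 1
  exact Finset.sum_congr rfl fun j _ => (Finset.sum_mul _ _ _).symm

theorem hp_int_sq {lam : (Fin n → ℂ) × ℕ → ℝ} (hlam : S.CD 0 (fun q => (lam q : ℂ)))
    {G : (Fin n → ℂ) × ℕ → ℂ} (hG : S.CD 0 G) (hs : S.Supp G) :
    Integrable (fun q => ‖G q‖ ^ 2 * Real.exp (-lam q)) S.μ := by
  have hE0 : S.CD 0 (fun q => ((Real.exp (-lam q) : ℝ) : ℂ)) := hb_CD_exp hlam
  have e : (fun q => (((‖G q‖ ^ 2 * Real.exp (-lam q) : ℝ)) : ℂ)) =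
      fun q => G q * conj (G q) * ((Real.exp (-lam q) : ℝ) : ℂ) := by
    funext q
    rw [Complex.mul_conj, Complex.normSq_eq_norm_sq]
    push_cast
    rfl
  refine hb_integrable_real ?_ ?_
  · rw [e]
    exact (hG.mul hG.conj).mul hE0
  · rw [e]
    exact hb_supp_mul (hb_supp_mul hs _) _

/-- The a priori estimate for test forms. `Φ` is the weight, `ψ` and `χ` as above;
`lam = Φ + χ`, `φ₁ = lam - 2 ψ`, `φ₂ = lam - ψ`, `φ₃ = lam`. -/
theorem a_priori {Φ ψ χ : (Fin n → ℂ) × ℕ → ℝ} (hΦ : S.CD 2 (fun q => (Φ q : ℂ)))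
    (hψ : S.CD 2 (fun q => (ψ q : ℂ))) (hχ : S.CD 2 (fun q => (χ q : ℂ)))
    (hχψ : ∀ q ∈ S.M, ∀ β : Fin n → ℂ,
      2 * ((∑ j, ‖S.D j (fun q => (ψ q : ℂ)) q‖ ^ 2) * ∑ j, ‖β j‖ ^ 2) ≤ S.levi χ β q)
    (β : Fin n → (Fin n → ℂ) × ℕ → ℂ) (hβ : ∀ j, S.IsTest (β j)) :
    ∫ q, S.levi Φ (fun j => β j q) q * Real.exp (-(Φ q + χ q)) ∂S.μ ≤
      2 * ∫ q, ‖∑ j, (S.D j (β j) q - S.D j (fun q => ((Φ q + χ q - ψ q : ℝ) : ℂ)) q * β j q)‖ ^ 2 *
        Real.exp (-(Φ q + χ q)) ∂S.μ +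
      (1 / 2) * ∑ j, ∑ k, ∫ q, ‖S.Db j (β k) q - S.Db k (β j) q‖ ^ 2 *
        Real.exp (-(Φ q + χ q)) ∂S.μ := by
  have hlam : S.CD 2 (fun q => ((Φ q + χ q : ℝ) : ℂ)) := by
    simpa only [Complex.ofReal_add] using hΦ.add hχ
  have hlam0 : S.CD 0 (fun q => ((Φ q + χ q : ℝ) : ℂ)) := hlam.mono (by norm_num)
  have hlam1 : S.CD 1 (fun q => ((Φ q + χ q : ℝ) : ℂ)) := hlam.mono (by norm_num)
  have hψ1 : S.CD 1 (fun q => (ψ q : ℂ)) := hψ.mono (by norm_num)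
  have hgam1 : S.CD 1 (fun q => ((Φ q + χ q - ψ q : ℝ) : ℂ)) := by
    simpa only [Complex.ofReal_sub] using hb_CD_sub hlam1 hψ1
  have hβ0 : ∀ j, S.CD 0 (β j) := fun j => (hβ j).1.mono (by norm_num)
  have hβ1 : ∀ j, S.CD 1 (β j) := fun j => (hβ j).1.mono (by norm_num)
  have hb := basic_ineq (fun q => Φ q + χ q) hlam β hβ
  have iΦ := hp_int_levi hΦ hlam0 hβ
  have iχ := hp_int_levi hχ hlam0 hβ
  have iA : Integrable (fun q => ‖∑ j, (S.D j (β j) q -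
      S.D j (fun q => ((Φ q + χ q - ψ q : ℝ) : ℂ)) q * β j q)‖ ^ 2 *
      Real.exp (-(Φ q + χ q))) S.μ :=
    hp_int_sq hlam0
      (CD.sum Finset.univ (X := fun j q => S.D j (β j) q -
        S.D j (fun q => ((Φ q + χ q - ψ q : ℝ) : ℂ)) q * β j q) fun j _ =>
        hb_CD_sub (CD.D (m := 0) (hβ1 j)) ((CD.D (m := 0) hgam1).mul (hβ0 j)))
      (hb_supp_sum Finset.univ (X := fun j q => S.D j (β j) q -
        S.D j (fun q => ((Φ q + χ q - ψ q : ℝ) : ℂ)) q * β j q) fun j _ =>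
        hb_supp_sub (hb_supp_D (hβ j).2) (hb_supp_mul' _ (hβ j).2))
  have iL : Integrable (fun q => ‖∑ j, (S.D j (β j) q -
      S.D j (fun q => ((Φ q + χ q : ℝ) : ℂ)) q * β j q)‖ ^ 2 *
      Real.exp (-(Φ q + χ q))) S.μ :=
    hp_int_sq hlam0
      (CD.sum Finset.univ (X := fun j q => S.D j (β j) q -
        S.D j (fun q => ((Φ q + χ q : ℝ) : ℂ)) q * β j q) fun j _ =>
        hb_CD_sub (CD.D (m := 0) (hβ1 j)) ((CD.D (m := 0) hlam1).mul (hβ0 j)))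
      (hb_supp_sum Finset.univ (X := fun j q => S.D j (β j) q -
        S.D j (fun q => ((Φ q + χ q : ℝ) : ℂ)) q * β j q) fun j _ =>
        hb_supp_sub (hb_supp_D (hβ j).2) (hb_supp_mul' _ (hβ j).2))
  -- the Levi form of the sum
  have e1 : ∫ q, S.levi (fun q => Φ q + χ q) (fun j => β j q) q *
        Real.exp (-(Φ q + χ q)) ∂S.μ =
      ∫ q, S.levi Φ (fun j => β j q) q * Real.exp (-(Φ q + χ q)) ∂S.μ +
      ∫ q, S.levi χ (fun j => β j q) q * Real.exp (-(Φ q + χ q)) ∂S.μ := by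
    rw [← integral_add iΦ iχ]
    refine integral_congr_ae (ae_mem_M.mono fun q hq => ?_)
    beta_reduce
    rw [levi_add hΦ hχ hq, add_mul]
  -- the pointwise estimate
  have e2 : ∫ q, ‖∑ j, (S.D j (β j) q -
        S.D j (fun q => ((Φ q + χ q : ℝ) : ℂ)) q * β j q)‖ ^ 2 *
        Real.exp (-(Φ q + χ q)) ∂S.μ ≤
      2 * ∫ q, ‖∑ j, (S.D j (β j) q -
        S.D j (fun q => ((Φ q + χ q - ψ q : ℝ) : ℂ)) q * β j q)‖ ^ 2 *
        Real.exp (-(Φ q + χ q)) ∂S.μ +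
      ∫ q, S.levi χ (fun j => β j q) q * Real.exp (-(Φ q + χ q)) ∂S.μ := by
    rw [← integral_const_mul, ← integral_add (iA.const_mul 2) iχ]
    refine integral_mono_ae iL ((iA.const_mul 2).add iχ) (ae_mem_M.mono fun q hq => ?_)
    change ‖∑ j, (S.D j (β j) q - S.D j (fun q => ((Φ q + χ q : ℝ) : ℂ)) q * β j q)‖ ^ 2 *
        Real.exp (-(Φ q + χ q)) ≤
      2 * (‖∑ j, (S.D j (β j) q -
        S.D j (fun q => ((Φ q + χ q - ψ q : ℝ) : ℂ)) q * β j q)‖ ^ 2 *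
        Real.exp (-(Φ q + χ q))) +
      S.levi χ (fun j => β j q) q * Real.exp (-(Φ q + χ q))
    have hd : ∀ j, S.D j (fun q => ((Φ q + χ q : ℝ) : ℂ)) q =
        S.D j (fun q => ((Φ q + χ q - ψ q : ℝ) : ℂ)) q + S.D j (fun q => (ψ q : ℂ)) q := by
      intro j
      have h := D_add (j := j) hgam1 hψ1 hq
      rw [← h]
      congr 1
      funext q
      push_cast
      ring
    have hsum : ∑ j, (S.D j (β j) q - S.D j (fun q => ((Φ q + χ q : ℝ) : ℂ)) q * β j q) =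
        ∑ j, (S.D j (β j) q - S.D j (fun q => ((Φ q + χ q - ψ q : ℝ) : ℂ)) q * β j q) -
        ∑ j, S.D j (fun q => (ψ q : ℂ)) q * β j q := by
      rw [← Finset.sum_sub_distrib]
      refine Finset.sum_congr rfl fun j _ => ?_
      rw [hd j]
      ring
    set A := ∑ j, (S.D j (β j) q -
      S.D j (fun q => ((Φ q + χ q - ψ q : ℝ) : ℂ)) q * β j q) with hA
    set B := ∑ j, S.D j (fun q => (ψ q : ℂ)) q * β j q with hB
    have h1 : ‖A - B‖ ^ 2 ≤ 2 * ‖A‖ ^ 2 + 2 * ‖B‖ ^ 2 := by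
      have h := norm_sub_le A B
      linarith only [mul_nonneg (sub_nonneg.2 h) (sub_nonneg.2 (norm_nonneg B)), mul_nonneg (sub_nonneg.2 h) (sub_nonneg.2 (norm_nonneg A)), mul_nonneg (sub_nonneg.2 h) (sub_nonneg.2 (norm_nonneg (A - B))), mul_nonneg (mul_self_nonneg (1 : ℝ)) (sq_nonneg (‖A‖ - ‖B‖))]
    have h2 : ‖B‖ ^ 2 ≤ (∑ j, ‖S.D j (fun q => (ψ q : ℂ)) q‖ ^ 2) * ∑ j, ‖β j q‖ ^ 2 := by
      have h3 : ‖B‖ ≤ ∑ j, ‖S.D j (fun q => (ψ q : ℂ)) q‖ * ‖β j q‖ := by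
        rw [hB]
        exact (norm_sum_le _ _).trans (Finset.sum_le_sum fun j _ => (norm_mul _ _).le)
      calc ‖B‖ ^ 2 ≤ (∑ j, ‖S.D j (fun q => (ψ q : ℂ)) q‖ * ‖β j q‖) ^ 2 :=
            pow_le_pow_left₀ (norm_nonneg _) h3 2
        _ ≤ _ := Finset.sum_mul_sq_le_sq_mul_sq _ _ _
    have h4 := hχψ q hq fun j => β j q
    rw [hsum, ← mul_assoc, ← add_mul]
    refine mul_le_mul_of_nonneg_right ?_ (Real.exp_pos _).le
    linarith
  rw [e1] at hb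
  linarith

end Sheets

end Vale.Agent.P300.L2
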