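import Vale.Agent.P300.H435.L2.Wirt

set_option linter.all false


open MeasureTheory Filter Topology
open scoped ENNReal NNReal ComplexConjugate

namespace Vale.Agent.P300.L2

namespace Sheets

variable {n N : ℕ} {S : Sheets n N} {X Y : (Fin n → ℂ) × ℕ → ℂ} {q : (Fin n → ℂ) × ℕ}
  {j k : Fin n} {m : ℕ} {W W' : Set (Fin n → ℂ)} {s s' : (Fin n → ℂ) → ℕ}

theorem IsSection.isOpen (h : S.IsSection W s) : IsOpen W := S.isOpen_dom h

theorem IsSection.subset (h : S.IsSection W s) : W ⊆ S.V := S.subset_dom h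

theorem IsSection.mem (h : S.IsSection W s) : ∀ z ∈ W, s z ∈ S.fib z := S.mem_fib h

theorem IsSection.mono (h : S.IsSection W s) (hW' : IsOpen W') (hWW : W' ⊆ W) :
    S.IsSection W' s := S.mono_dom h hW' hWW

theorem exists_section (hq : q ∈ S.M) : ∃ s W, S.IsSection W s ∧ q.1 ∈ W ∧ s q.1 = q.2 := by
  obtain ⟨W, σ, hW, hqW, hWV, hσ, hfib⟩ := S.loc q.1 hq.1
  have h2 : q.2 ∈ Finset.univ.image (fun i => σ i q.1) := by
    rw [← (hfib q.1 hqW).2]
    exact hq.2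
  obtain ⟨i, -, hi⟩ := Finset.mem_image.1 h2
  exact ⟨σ i, W, hσ i, hqW, hi⟩

/-- Sections through the same point agree near it. -/
theorem IsSection.germ (h : S.IsSection W s) (h' : S.IsSection W' s') {z : Fin n → ℂ}
    (hz : z ∈ W) (hz' : z ∈ W') (hs : s z = s' z) : s =ᶠ[𝓝 z] s' :=
  S.germ_eq h h' hz hz' hs

/-- Sections through different points are different near them. -/
theorem IsSection.germ_ne (h : S.IsSection W s) (h' : S.IsSection W' s') {z : Fin n → ℂ}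
    (hz : z ∈ W) (hz' : z ∈ W') (hs : s z ≠ s' z) : ∀ᶠ ζ in 𝓝 z, s ζ ≠ s' ζ := by
  obtain ⟨W₀, σ, hW₀, hz₀, hW₀V, hσ, hfib⟩ := S.loc z (h.subset hz)
  have h2 := h.mem z hz
  have h3 := h'.mem z hz'
  rw [(hfib z hz₀).2] at h2 h3
  obtain ⟨i, -, hi⟩ := Finset.mem_image.1 h2
  obtain ⟨i', -, hi'⟩ := Finset.mem_image.1 h3
  have hne : i ≠ i' := by
    rintro rfl
    exact hs (hi.symm.trans hi')
  filter_upwards [(hσ i).germ h hz₀ hz hi, (hσ i').germ h' hz₀ hz' hi', hW₀.mem_nhds hz₀]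
    with ζ h4 h5 h6 h7
  rw [← h4, ← h5] at h7
  exact hne ((hfib ζ h6).1 h7)

theorem IsSection.mem_M (h : S.IsSection W s) {z : Fin n → ℂ} (hz : z ∈ W) : (z, s z) ∈ S.M :=
  ⟨h.subset hz, h.mem z hz⟩

theorem sec_spec (hq : q ∈ S.M) : ∃ W, S.IsSection W (S.sec q) ∧ q.1 ∈ W ∧ S.sec q q.1 = q.2 := by
  have h := exists_section hq
  unfold sec
  rw [dif_pos h]
  exact h.choose_spec

theorem sec_germ (h : S.IsSection W s) {z : Fin n → ℂ} (hz : z ∈ W) :
    S.sec (z, s z) =ᶠ[𝓝 z] s := by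
  obtain ⟨W', h', hz', hs⟩ := sec_spec (h.mem_M hz)
  exact h'.germ h hz' hz hs

theorem sec_comp_germ (h : S.IsSection W s) {z : Fin n → ℂ} (hz : z ∈ W) :
    (fun z' => X (z', S.sec (z, s z) z')) =ᶠ[𝓝 z] fun z' => X (z', s z') := by
  filter_upwards [sec_germ h hz] with z' h'
  rw [h']

theorem D_apply (h : S.IsSection W s) {z : Fin n → ℂ} (hz : z ∈ W) :
    S.D j X (z, s z) = dz j (fun z => X (z, s z)) z :=
  dz_congr (sec_comp_germ h hz)

theorem Db_apply (h : S.IsSection W s) {z : Fin n → ℂ} (hz : z ∈ W) :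
    S.Db j X (z, s z) = dzb j (fun z => X (z, s z)) z :=
  dzb_congr (sec_comp_germ h hz)

/-- Every point of the total space is on a section. -/
theorem exists_section' (hq : q ∈ S.M) : ∃ s W, S.IsSection W s ∧ ∃ z ∈ W, q = (z, s z) := by
  obtain ⟨s, W, h, hz, hs⟩ := exists_section hq
  exact ⟨s, W, h, q.1, hz, by rw [hs]⟩

theorem CD.mono {m' : ℕ} (hX : S.CD m X) (h : m' ≤ m) : S.CD m' X :=
  fun W s hs => (hX W s hs).of_le (by exact_mod_cast h)

theorem CD.D (hX : S.CD (m + 1) X) : S.CD m (S.D j X) := fun W s hs =>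
  (contDiffOn_dz hs.isOpen (hX W s hs)).congr fun _ hz => D_apply hs hz

theorem CD.Db (hX : S.CD (m + 1) X) : S.CD m (S.Db j X) := fun W s hs =>
  (contDiffOn_dzb hs.isOpen (hX W s hs)).congr fun _ hz => Db_apply hs hz

theorem CD.add (hX : S.CD m X) (hY : S.CD m Y) : S.CD m (fun q => X q + Y q) :=
  fun W s hs => (hX W s hs).add (hY W s hs)

theorem CD.mul (hX : S.CD m X) (hY : S.CD m Y) : S.CD m (fun q => X q * Y q) :=
  fun W s hs => (hX W s hs).mul (hY W s hs)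

theorem CD.conj (hX : S.CD m X) : S.CD m (fun q => conj (X q)) := fun W s hs =>
  (Complex.conjCLE.contDiff.of_le le_top).comp_contDiffOn (hX W s hs)

theorem CD.sum {ι : Type*} (t : Finset ι) {X : ι → (Fin n → ℂ) × ℕ → ℂ}
    (hX : ∀ i ∈ t, S.CD m (X i)) : S.CD m (fun q => ∑ i ∈ t, X i q) := fun W s hs =>
  ContDiffOn.sum fun i hi => hX i hi W s hs

theorem CD.const (c : ℂ) : S.CD m (fun _ => c) := fun _ _ _ => contDiffOn_const

/-- Functions of `z` only. -/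
theorem CD.fst {f : (Fin n → ℂ) → ℂ} (hf : ContDiffOn ℝ m f S.V) : S.CD m (fun q => f q.1) :=
  fun _ _ hs => hf.mono hs.subset

theorem CD.re_section {u : (Fin n → ℂ) × ℕ → ℝ} (hu : S.CD m (fun q => (u q : ℂ)))
    (hs : S.IsSection W s) : ContDiffOn ℝ m (fun z => u (z, s z)) W := by
  have h := (Complex.reCLM.contDiff (n := (m : WithTop ℕ∞))).comp_contDiffOn (hu W s hs)
  refine h.congr fun z _ => ?_
  simp

theorem CD.comp_real {φ : ℝ → ℝ} (hφ : ContDiff ℝ m φ) {u : (Fin n → ℂ) × ℕ → ℝ}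
    (hu : S.CD m (fun q => (u q : ℂ))) : S.CD m (fun q => ((φ (u q) : ℝ) : ℂ)) := fun W s hs =>
  (Complex.ofRealCLM.contDiff (n := (m : WithTop ℕ∞))).comp_contDiffOn
    (hφ.comp_contDiffOn (CD.re_section hu hs))

theorem CD.log {u : (Fin n → ℂ) × ℕ → ℝ} (hu : S.CD m (fun q => (u q : ℂ)))
    (hpos : ∀ q ∈ S.M, 0 < u q) : S.CD m (fun q => ((Real.log (u q) : ℝ) : ℂ)) := fun W s hs =>
  (Complex.ofRealCLM.contDiff (n := (m : WithTop ℕ∞))).comp_contDiffOn
    ((CD.re_section hu hs).log fun _ hz => (hpos _ (hs.mem_M hz)).ne')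

theorem CD.congr (hX : S.CD m X) (h : ∀ q ∈ S.M, Y q = X q) : S.CD m Y := fun W s hs =>
  (hX W s hs).congr fun _ hz => h _ (hs.mem_M hz)

theorem congr_section (h : ∀ q ∈ S.M, Y q = X q) (hs : S.IsSection W s) {z : Fin n → ℂ}
    (hz : z ∈ W) : (fun z => Y (z, s z)) =ᶠ[𝓝 z] fun z => X (z, s z) := by
  filter_upwards [hs.isOpen.mem_nhds hz] with z' hz' using h _ (hs.mem_M hz')

theorem D_congr (h : ∀ q ∈ S.M, Y q = X q) (hq : q ∈ S.M) : S.D j Y q = S.D j X q := by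
  obtain ⟨s, W, hs, z, hz, rfl⟩ := exists_section' hq
  rw [D_apply hs hz, D_apply hs hz, dz_congr (congr_section h hs hz)]

theorem Db_congr (h : ∀ q ∈ S.M, Y q = X q) (hq : q ∈ S.M) : S.Db j Y q = S.Db j X q := by
  obtain ⟨s, W, hs, z, hz, rfl⟩ := exists_section' hq
  rw [Db_apply hs hz, Db_apply hs hz, dzb_congr (congr_section h hs hz)]

theorem CD.diffAt (hX : S.CD 1 X) (hs : S.IsSection W s) {z : Fin n → ℂ} (hz : z ∈ W) :
    DifferentiableAt ℝ (fun z => X (z, s z)) z :=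
  ((hX W s hs).contDiffAt (hs.isOpen.mem_nhds hz)).differentiableAt (by norm_num)

theorem D_add (hX : S.CD 1 X) (hY : S.CD 1 Y) (hq : q ∈ S.M) :
    S.D j (fun q => X q + Y q) q = S.D j X q + S.D j Y q := by
  obtain ⟨s, W, hs, z, hz, rfl⟩ := exists_section' hq
  rw [D_apply hs hz, D_apply hs hz, D_apply hs hz]
  exact dz_add (hX.diffAt hs hz) (hY.diffAt hs hz)

theorem Db_add (hX : S.CD 1 X) (hY : S.CD 1 Y) (hq : q ∈ S.M) :
    S.Db j (fun q => X q + Y q) q = S.Db j X q + S.Db j Y q := by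
  obtain ⟨s, W, hs, z, hz, rfl⟩ := exists_section' hq
  rw [Db_apply hs hz, Db_apply hs hz, Db_apply hs hz]
  exact dzb_add (hX.diffAt hs hz) (hY.diffAt hs hz)

theorem D_sum {ι : Type*} (t : Finset ι) {X : ι → (Fin n → ℂ) × ℕ → ℂ}
    (hX : ∀ i ∈ t, S.CD 1 (X i)) (hq : q ∈ S.M) :
    S.D j (fun q => ∑ i ∈ t, X i q) q = ∑ i ∈ t, S.D j (X i) q := by
  obtain ⟨s, W, hs, z, hz, rfl⟩ := exists_section' hq
  rw [D_apply hs hz, Finset.sum_congr rfl fun i _ => D_apply (j := j) (X := X i) hs hz]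
  exact dz_sum t fun i hi => (hX i hi).diffAt hs hz

theorem Db_sum {ι : Type*} (t : Finset ι) {X : ι → (Fin n → ℂ) × ℕ → ℂ}
    (hX : ∀ i ∈ t, S.CD 1 (X i)) (hq : q ∈ S.M) :
    S.Db j (fun q => ∑ i ∈ t, X i q) q = ∑ i ∈ t, S.Db j (X i) q := by
  obtain ⟨s, W, hs, z, hz, rfl⟩ := exists_section' hq
  rw [Db_apply hs hz, Finset.sum_congr rfl fun i _ => Db_apply (j := j) (X := X i) hs hz]
  exact dzb_sum t fun i hi => (hX i hi).diffAt hs hz

theorem D_mul (hX : S.CD 1 X) (hY : S.CD 1 Y) (hq : q ∈ S.M) :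
    S.D j (fun q => X q * Y q) q = S.D j X q * Y q + X q * S.D j Y q := by
  obtain ⟨s, W, hs, z, hz, rfl⟩ := exists_section' hq
  rw [D_apply hs hz, D_apply hs hz, D_apply hs hz]
  exact dz_mul (hX.diffAt hs hz) (hY.diffAt hs hz)

theorem Db_mul (hX : S.CD 1 X) (hY : S.CD 1 Y) (hq : q ∈ S.M) :
    S.Db j (fun q => X q * Y q) q = S.Db j X q * Y q + X q * S.Db j Y q := by
  obtain ⟨s, W, hs, z, hz, rfl⟩ := exists_section' hq
  rw [Db_apply hs hz, Db_apply hs hz, Db_apply hs hz]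
  exact dzb_mul (hX.diffAt hs hz) (hY.diffAt hs hz)

theorem D_conj : S.D j (fun q => conj (X q)) q = conj (S.Db j X q) := dz_conj

theorem Db_conj : S.Db j (fun q => conj (X q)) q = conj (S.D j X q) := dzb_conj

theorem D_fst {f : (Fin n → ℂ) → ℂ} : S.D j (fun q => f q.1) q = dz j f q.1 := rfl

theorem Db_fst {f : (Fin n → ℂ) → ℂ} : S.Db j (fun q => f q.1) q = dzb j f q.1 := rfl

theorem re_diffAt {u : (Fin n → ℂ) × ℕ → ℝ} (hu : S.CD 1 (fun q => (u q : ℂ)))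
    (hs : S.IsSection W s) {z : Fin n → ℂ} (hz : z ∈ W) :
    DifferentiableAt ℝ (fun z => u (z, s z)) z :=
  ((CD.re_section hu hs).contDiffAt (hs.isOpen.mem_nhds hz)).differentiableAt (by norm_num)

theorem D_comp_real {φ : ℝ → ℝ} {u : (Fin n → ℂ) × ℕ → ℝ}
    (hu : S.CD 1 (fun q => (u q : ℂ))) (hq : q ∈ S.M) (hφ : DifferentiableAt ℝ φ (u q)) :
    S.D j (fun q => ((φ (u q) : ℝ) : ℂ)) q = ((deriv φ (u q) : ℝ) : ℂ) * S.D j (fun q => (u q : ℂ)) q := by
  obtain ⟨s, W, hs, z, hz, rfl⟩ := exists_section' hq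
  rw [D_apply hs hz, D_apply hs hz]
  exact dz_comp_real (re_diffAt hu hs hz) hφ

theorem Db_comp_real {φ : ℝ → ℝ} {u : (Fin n → ℂ) × ℕ → ℝ}
    (hu : S.CD 1 (fun q => (u q : ℂ))) (hq : q ∈ S.M) (hφ : DifferentiableAt ℝ φ (u q)) :
    S.Db j (fun q => ((φ (u q) : ℝ) : ℂ)) q =
      ((deriv φ (u q) : ℝ) : ℂ) * S.Db j (fun q => (u q : ℂ)) q := by
  obtain ⟨s, W, hs, z, hz, rfl⟩ := exists_section' hq
  rw [Db_apply hs hz, Db_apply hs hz]
  exact dzb_comp_real (re_diffAt hu hs hz) hφ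

theorem D_Db_comm (hX : S.CD 2 X) (hq : q ∈ S.M) : S.D j (S.Db k X) q = S.Db k (S.D j X) q := by
  obtain ⟨s, W, hs, z, hz, rfl⟩ := exists_section' hq
  have h1 : (fun z => S.Db k X (z, s z)) =ᶠ[𝓝 z] dzb k (fun z => X (z, s z)) := by
    filter_upwards [hs.isOpen.mem_nhds hz] with z' hz' using Db_apply hs hz'
  have h2 : (fun z => S.D j X (z, s z)) =ᶠ[𝓝 z] dz j (fun z => X (z, s z)) := by
    filter_upwards [hs.isOpen.mem_nhds hz] with z' hz' using D_apply hs hz'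
  rw [D_apply hs hz, Db_apply hs hz, dz_congr h1, dzb_congr h2]
  exact dz_dzb_comm hs.isOpen (hX W s hs) hz

theorem Db_Db_comm (hX : S.CD 2 X) (hq : q ∈ S.M) : S.Db j (S.Db k X) q = S.Db k (S.Db j X) q := by
  obtain ⟨s, W, hs, z, hz, rfl⟩ := exists_section' hq
  have h1 : (fun z => S.Db k X (z, s z)) =ᶠ[𝓝 z] dzb k (fun z => X (z, s z)) := by
    filter_upwards [hs.isOpen.mem_nhds hz] with z' hz' using Db_apply hs hz'
  have h2 : (fun z => S.Db j X (z, s z)) =ᶠ[𝓝 z] dzb j (fun z => X (z, s z)) := by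
    filter_upwards [hs.isOpen.mem_nhds hz] with z' hz' using Db_apply hs hz'
  rw [Db_apply hs hz, Db_apply hs hz, dzb_congr h1, dzb_congr h2]
  exact dzb_dzb_comm hs.isOpen (hX W s hs) hz

theorem Holo.Db (hX : S.Holo X) (hq : q ∈ S.M) : S.Db j X q = 0 := by
  obtain ⟨s, W, hs, z, hz, rfl⟩ := exists_section' hq
  rw [Db_apply hs hz]
  exact dzb_holo ((hX W s hs).differentiableAt (hs.isOpen.mem_nhds hz))

theorem contDiffOn_real_of_holo {f : (Fin n → ℂ) → ℂ} (hW : IsOpen W)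
    (hf : DifferentiableOn ℂ f W) (m : ℕ) : ContDiffOn ℝ m f W := by
  induction m generalizing f with
  | zero => exact_mod_cast contDiffOn_zero.2 hf.continuousOn
  | succ m ih =>
    rw [Nat.cast_add, Nat.cast_one, contDiffOn_succ_iff_fderiv_of_isOpen hW]
    refine ⟨hf.restrictScalars ℝ, by simp, ?_⟩
    rw [contDiffOn_clm_apply]
    intro v
    have h1 : ContDiffOn ℝ m (fun z => ∑ j, v j * dz j f z) W :=
      ContDiffOn.sum fun j _ => contDiffOn_const.mul (ih (differentiableOn_dz_holo hW hf))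
    refine h1.congr fun z hz => ?_
    have h2 : DifferentiableAt ℂ f z := hf.differentiableAt (hW.mem_nhds hz)
    have h3 : fderiv ℝ f z v = fderiv ℂ f z v := by
      rw [h2.fderiv_restrictScalars ℝ]
      rfl
    rw [h3]
    have h4 : v = ∑ j, v j • (Pi.single j (1 : ℂ) : Fin n → ℂ) := by
      ext l
      simp [Finset.sum_apply, Pi.single_apply]
    conv_lhs => rw [h4]
    rw [map_sum]
    refine Finset.sum_congr rfl fun j _ => ?_
    rw [map_smul, dz_holo h2, smul_eq_mul]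

theorem Holo.CD (hX : S.Holo X) (m : ℕ) : S.CD m X := fun W s hs =>
  contDiffOn_real_of_holo hs.isOpen (hX W s hs) m

theorem Holo.D (hX : S.Holo X) : S.Holo (S.D j X) := fun W s hs =>
  (differentiableOn_dz_holo hs.isOpen (hX W s hs)).congr fun _ hz => D_apply hs hz

theorem Holo.mul (hX : S.Holo X) (hY : S.Holo Y) : S.Holo (fun q => X q * Y q) :=
  fun W s hs => (hX W s hs).mul (hY W s hs)

theorem Holo.add (hX : S.Holo X) (hY : S.Holo Y) : S.Holo (fun q => X q + Y q) :=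
  fun W s hs => (hX W s hs).add (hY W s hs)

theorem Holo.const (c : ℂ) : S.Holo (fun _ => c) := fun _ _ _ => differentiableOn_const _

theorem Holo.fst {f : (Fin n → ℂ) → ℂ} (hf : DifferentiableOn ℂ f S.V) :
    S.Holo (fun q => f q.1) := fun _ _ hs => hf.mono hs.subset

theorem Holo.inv (hX : S.Holo X) (h : ∀ q ∈ S.M, X q ≠ 0) : S.Holo (fun q => (X q)⁻¹) :=
  fun W s hs => (hX W s hs).inv fun _ hz => h _ (hs.mem_M hz)

theorem card_fib {z : Fin n → ℂ} (hz : z ∈ S.V) : (S.fib z).card = N := by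
  obtain ⟨W, σ, -, hzW, -, -, hfib⟩ := S.loc z hz
  rw [(hfib z hzW).2, Finset.card_image_of_injective _ (hfib z hzW).1, Finset.card_univ,
    Fintype.card_fin]

end Sheets

end Vale.Agent.P300.L2
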