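import Mathlib

/-!
P300, block L2C: Hoermander's `L²` theorem on an abstract finite étale cover of an open subset
of `ℂⁿ`. Port of `Vale.Agent.P282.Bd3` (covers embedded in `ℂⁿ × ℂ`) to covers whose points are
labelled by natural numbers: `M = {(z, w) : z ∈ V, w ∈ fib z}`, and the structure of the cover is
given by the family of its local sections.
-/

set_option linter.all false

open MeasureTheory Filter Topology
open scoped ENNReal NNReal ComplexConjugate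

namespace Vale.Agent.P300.L2

/-! ### Wirtinger derivatives on `ℂⁿ` -/

/-- `∂f/∂z_j`. -/
noncomputable def dz {n : ℕ} (j : Fin n) (f : (Fin n → ℂ) → ℂ) (z : Fin n → ℂ) : ℂ :=
  (fderiv ℝ f z (Pi.single j 1) - Complex.I * fderiv ℝ f z (Pi.single j Complex.I)) / 2

/-- `∂f/∂z̄_j`. -/
noncomputable def dzb {n : ℕ} (j : Fin n) (f : (Fin n → ℂ) → ℂ) (z : Fin n → ℂ) : ℂ :=
  (fderiv ℝ f z (Pi.single j 1) + Complex.I * fderiv ℝ f z (Pi.single j Complex.I)) / 2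

/-! ### Finite étale covers of open subsets of `ℂⁿ` -/

/-- An `N`-sheeted étale cover of an open set `V ⊆ ℂⁿ`. The points over `z` are the pairs `(z, w)`,
`w ∈ fib z ⊆ ℕ`; the labels `w` have no topological meaning: the continuous local sections of the
cover are the maps `z ↦ (z, s z)` with `IsSection W s`. -/
structure Sheets (n N : ℕ) where
  V : Set (Fin n → ℂ)
  fib : (Fin n → ℂ) → Finset ℕ
  /-- `z ↦ (z, s z)` is a section of the cover over the open set `W`. -/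
  IsSection : Set (Fin n → ℂ) → ((Fin n → ℂ) → ℕ) → Prop
  isOpen : IsOpen V
  isOpen_dom : ∀ {W s}, IsSection W s → IsOpen W
  subset_dom : ∀ {W s}, IsSection W s → W ⊆ V
  mem_fib : ∀ {W s}, IsSection W s → ∀ z ∈ W, s z ∈ fib z
  germ_eq : ∀ {W W' s s'}, IsSection W s → IsSection W' s' → ∀ {z}, z ∈ W → z ∈ W' →
    s z = s' z → s =ᶠ[𝓝 z] s'
  mono_dom : ∀ {W W' s}, IsSection W s → IsOpen W' → W' ⊆ W → IsSection W' s
  meas_dom : ∀ {W s}, IsSection W s → ∃ s' : (Fin n → ℂ) → ℕ, Measurable s' ∧ ∀ z ∈ W, s' z = s z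
  loc : ∀ z₀ ∈ V, ∃ (W : Set (Fin n → ℂ)) (s : Fin N → (Fin n → ℂ) → ℕ),
    IsOpen W ∧ z₀ ∈ W ∧ W ⊆ V ∧ (∀ i, IsSection W (s i)) ∧
    ∀ z ∈ W, Function.Injective (fun i => s i z) ∧ fib z = Finset.univ.image (fun i => s i z)

namespace Sheets

variable {n N : ℕ} (S : Sheets n N)

/-- The total space. -/
def M : Set ((Fin n → ℂ) × ℕ) := {q | q.1 ∈ S.V ∧ q.2 ∈ S.fib q.1}

/-- `X` is of class `C^k` along the sheets. -/
def CD (k : ℕ) (X : (Fin n → ℂ) × ℕ → ℂ) : Prop :=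
  ∀ W s, S.IsSection W s → ContDiffOn ℝ k (fun z => X (z, s z)) W

/-- `X` is holomorphic along the sheets. -/
def Holo (X : (Fin n → ℂ) × ℕ → ℂ) : Prop :=
  ∀ W s, S.IsSection W s → DifferentiableOn ℂ (fun z => X (z, s z)) W

open Classical in
/-- A local section through `q`. -/
noncomputable def sec (q : (Fin n → ℂ) × ℕ) : (Fin n → ℂ) → ℕ :=
  if h : ∃ s : (Fin n → ℂ) → ℕ, ∃ W, S.IsSection W s ∧ q.1 ∈ W ∧ s q.1 = q.2 then h.choose
  else fun _ => 0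

/-- `∂/∂z_j` along the sheets. -/
noncomputable def D (j : Fin n) (X : (Fin n → ℂ) × ℕ → ℂ) (q : (Fin n → ℂ) × ℕ) : ℂ :=
  dz j (fun z => X (z, S.sec q z)) q.1

/-- `∂/∂z̄_j` along the sheets. -/
noncomputable def Db (j : Fin n) (X : (Fin n → ℂ) × ℕ → ℂ) (q : (Fin n → ℂ) × ℕ) : ℂ :=
  dzb j (fun z => X (z, S.sec q z)) q.1

/-- `X` vanishes outside of a compact subset of `V`. -/
def Supp (X : (Fin n → ℂ) × ℕ → ℂ) : Prop :=
  ∃ C : Set (Fin n → ℂ), IsCompact C ∧ C ⊆ S.V ∧ ∀ q : (Fin n → ℂ) × ℕ, q.1 ∉ C → X q = 0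

/-- Test functions. -/
def IsTest (X : (Fin n → ℂ) × ℕ → ℂ) : Prop := S.CD 2 X ∧ S.Supp X

/-- Sum over the fibers. -/
noncomputable def fsum (X : (Fin n → ℂ) × ℕ → ℂ) (z : Fin n → ℂ) : ℂ := ∑ w ∈ S.fib z, X (z, w)

/-- The pull back of Lebesgue measure to `M`. -/
noncomputable def μ : Measure ((Fin n → ℂ) × ℕ) :=
  (volume.restrict S.V).bind fun z => ∑ w ∈ S.fib z, Measure.dirac (z, w)

/-- Levi form of a real function along the sheets. -/
noncomputable def levi (Φ : (Fin n → ℂ) × ℕ → ℝ) (β : Fin n → ℂ) (q : (Fin n → ℂ) × ℕ) : ℝ :=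
  (∑ j, ∑ k, S.D j (S.Db k (fun q => (Φ q : ℂ))) q * β j * conj (β k)).re

end Sheets

/-- A plurisubharmonic exhaustion function of `V` with polynomially bounded gradient. -/
structure Exh {n : ℕ} (V : Set (Fin n → ℂ)) (p : (Fin n → ℂ) → ℝ) (C : ℝ) (k0 : ℕ) : Prop where
  smooth : ContDiffOn ℝ 4 p V
  norm_sq_le : ∀ z ∈ V, ‖z‖ ^ 2 ≤ p z
  compact : ∀ c : ℝ, IsCompact {z | z ∈ V ∧ p z ≤ c}
  levi : ∀ z ∈ V, ∀ β : Fin n → ℂ, ∑ j, ‖β j‖ ^ 2 ≤
    (∑ j, ∑ k, dz j (dzb k (fun z => (p z : ℂ))) z * β j * conj (β k)).re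
  grad : ∀ z ∈ V, ∑ j, ‖dz j (fun z => (p z : ℂ)) z‖ ^ 2 ≤ C * (1 + p z) ^ k0

end Vale.Agent.P300.L2
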