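import Vale.Agent.P300.H435.L2.Basic

set_option linter.all false


open MeasureTheory Filter Topology
open scoped ENNReal NNReal ComplexConjugate

namespace Vale.Agent.P300.L2

namespace Sheets

variable {n N : ℕ} {S : Sheets n N} {X Y : (Fin n → ℂ) × ℕ → ℂ} {q : (Fin n → ℂ) × ℕ}
  {j k : Fin n} {m : ℕ} {W W' : Set (Fin n → ℂ)} {s s' : (Fin n → ℂ) → ℕ}

/-- All the sections near a point. -/
theorem exists_sections {z₀ : Fin n → ℂ} (hz : z₀ ∈ S.V) :
    ∃ (W : Set (Fin n → ℂ)) (s : Fin N → (Fin n → ℂ) → ℕ), IsOpen W ∧ z₀ ∈ W ∧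
      (∀ i, S.IsSection W (s i)) ∧ (∀ z ∈ W, Function.Injective fun i => s i z) ∧
      (∀ z ∈ W, S.fib z = Finset.univ.image fun i => s i z) ∧
      ∀ (X : (Fin n → ℂ) × ℕ → ℂ), ∀ z ∈ W, S.fsum X z = ∑ i, X (z, s i z) := by
  obtain ⟨W, s, hW, hzW, hWV, hs, h⟩ := S.loc z₀ hz
  refine ⟨W, s, hW, hzW, hs, fun z hz => (h z hz).1,
    fun z hz => (h z hz).2, fun X z hz => ?_⟩
  rw [fsum, (h z hz).2, Finset.sum_image fun i _ j _ hij => (h z hz).1 hij]

/-- Fiber sums. -/
theorem contDiffOn_fsum (hX : S.CD m X) : ContDiffOn ℝ m (S.fsum X) S.V := by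
  intro z hz
  obtain ⟨W, s, hW, hzW, hs, -, -, hsum⟩ := exists_sections hz
  have h1 : ContDiffOn ℝ m (fun z => ∑ i, X (z, s i z)) W :=
    ContDiffOn.sum fun i _ => hX W (s i) (hs i)
  have h2 : ContDiffAt ℝ m (fun z => ∑ i, X (z, s i z)) z := h1.contDiffAt (hW.mem_nhds hzW)
  refine (h2.congr_of_eventuallyEq ?_).contDiffWithinAt
  filter_upwards [hW.mem_nhds hzW] with y hy using hsum X y hy

theorem dz_fsum (hX : S.CD 1 X) {z : Fin n → ℂ} (hz : z ∈ S.V) :
    dz j (S.fsum X) z = S.fsum (S.D j X) z := by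
  obtain ⟨W, s, hW, hzW, hs, -, -, hsum⟩ := exists_sections hz
  have h1 : S.fsum X =ᶠ[𝓝 z] fun z => ∑ i, X (z, s i z) := by
    filter_upwards [hW.mem_nhds hzW] with y hy using hsum X y hy
  rw [dz_congr h1, dz_sum Finset.univ, hsum _ z hzW]
  · exact Finset.sum_congr rfl fun i _ => (D_apply (hs i) hzW).symm
  · intro i _
    exact ((hX W (s i) (hs i)).differentiableOn (by norm_num)).differentiableAt (hW.mem_nhds hzW)

theorem dzb_fsum (hX : S.CD 1 X) {z : Fin n → ℂ} (hz : z ∈ S.V) :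
    dzb j (S.fsum X) z = S.fsum (S.Db j X) z := by
  obtain ⟨W, s, hW, hzW, hs, -, -, hsum⟩ := exists_sections hz
  have h1 : S.fsum X =ᶠ[𝓝 z] fun z => ∑ i, X (z, s i z) := by
    filter_upwards [hW.mem_nhds hzW] with y hy using hsum X y hy
  rw [dzb_congr h1, dzb_sum Finset.univ, hsum _ z hzW]
  · exact Finset.sum_congr rfl fun i _ => (Db_apply (hs i) hzW).symm
  · intro i _
    exact ((hX W (s i) (hs i)).differentiableOn (by norm_num)).differentiableAt (hW.mem_nhds hzW)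

theorem differentiableOn_fsum (hX : S.Holo X) : DifferentiableOn ℂ (S.fsum X) S.V := by
  intro z hz
  obtain ⟨W, s, hW, hzW, hs, -, -, hsum⟩ := exists_sections hz
  have h2 : DifferentiableAt ℂ (fun z => ∑ i, X (z, s i z)) z :=
    DifferentiableAt.fun_sum fun i _ => (hX W (s i) (hs i)).differentiableAt (hW.mem_nhds hzW)
  refine (h2.congr_of_eventuallyEq ?_).differentiableWithinAt
  filter_upwards [hW.mem_nhds hzW] with y hy using hsum X y hy

theorem contDiff_fsum (hX : S.CD m X) (hs : S.Supp X) : ContDiff ℝ m (S.fsum X) := by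
  obtain ⟨C, hC, hCV, h0⟩ := hs
  rw [contDiff_iff_contDiffAt]
  intro z
  by_cases hz : z ∈ S.V
  · exact (contDiffOn_fsum hX).contDiffAt (S.isOpen.mem_nhds hz)
  · have hzC : z ∈ Cᶜ := fun h => hz (hCV h)
    have h1 : S.fsum X =ᶠ[𝓝 z] fun _ => 0 := by
      filter_upwards [hC.isClosed.isOpen_compl.mem_nhds hzC] with y hy
      exact Finset.sum_eq_zero fun w _ => h0 (y, w) hy
    exact contDiffAt_const.congr_of_eventuallyEq h1

theorem hasCompactSupport_fsum (hs : S.Supp X) : HasCompactSupport (S.fsum X) := by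
  obtain ⟨C, hC, -, h0⟩ := hs
  exact HasCompactSupport.intro hC fun z hz => Finset.sum_eq_zero fun w _ => h0 (z, w) hz

end Sheets

end Vale.Agent.P300.L2
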