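import Vale.Agent.P300.H435.L2.Res

set_option linter.all false

open MeasureTheory Filter Topology
open scoped ENNReal NNReal ComplexConjugate

namespace Vale.Agent.P300.L2

/-- A finite `C²` partition of unity near a compact set. -/
theorem exists_partition {n : ℕ} {V C : Set (Fin n → ℂ)} (hV : IsOpen V) (hC : IsCompact C)
    (hCV : C ⊆ V) (U : (Fin n → ℂ) → Set (Fin n → ℂ)) (hU : ∀ z ∈ V, IsOpen (U z) ∧ z ∈ U z) :
    ∃ (t : Finset (Fin n → ℂ)) (χ : t → (Fin n → ℂ) → ℂ), (∀ a ∈ t, a ∈ V) ∧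
      (∀ a, ContDiff ℝ 2 (χ a)) ∧ (∀ a : t, tsupport (χ a) ⊆ U a) ∧
      ∀ᶠ z in 𝓝ˢ C, ∑ a, χ a z = 1 := by
  obtain ⟨K, hK, hCK, hKV⟩ := exists_compact_between hC hV hCV
  obtain ⟨t, htK, htU⟩ := hK.elim_nhds_subcover U
    (fun z hz => (hU z (hKV hz)).1.mem_nhds (hU z (hKV hz)).2)
  obtain ⟨f, hf⟩ := SmoothPartitionOfUnity.exists_isSubordinate
    (modelWithCornersSelf ℝ (Fin n → ℂ)) hK.isClosed (fun a : t => U a)
    (fun a => (hU a (hKV (htK a a.2))).1) (by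
      intro z hz
      obtain ⟨a, ha, hza⟩ := Set.mem_iUnion₂.1 (htU hz)
      exact Set.mem_iUnion.2 ⟨⟨a, ha⟩, hza⟩)
  refine ⟨t, fun a z => (f a z : ℂ), fun a ha => hKV (htK a ha), fun a => ?_, fun a => ?_, ?_⟩
  · have h1 : ContDiff ℝ 2 (f a) := ((f a).contMDiff.contDiff).of_le (by norm_cast)
    exact Complex.ofRealCLM.contDiff.comp h1
  · have h1 : Function.support (fun z => (f a z : ℂ)) ⊆ Function.support (f a) := by
      intro z hz hz0
      exact hz (by simp [hz0])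
    exact (closure_mono h1).trans (hf a)
  · have h1 : interior K ∈ 𝓝ˢ C := isOpen_interior.mem_nhdsSet.2 hCK
    filter_upwards [h1] with z hz
    have h2 := f.sum_eq_one (interior_subset hz)
    rw [finsum_eq_sum_of_fintype] at h2
    rw [← Complex.ofReal_sum, h2, Complex.ofReal_one]

namespace Sheets

variable {n N : ℕ} {S : Sheets n N}

theorem D_zero_off {X : (Fin n → ℂ) × ℕ → ℂ} {C : Set (Fin n → ℂ)} (hC : IsClosed C)
    (h0 : ∀ q : (Fin n → ℂ) × ℕ, q.1 ∉ C → X q = 0) {q : (Fin n → ℂ) × ℕ} (hq : q.1 ∉ C)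
    (j : Fin n) : S.D j X q = 0 := by
  have h1 : (fun z => X (z, S.sec q z)) =ᶠ[𝓝 q.1] fun _ => 0 := by
    filter_upwards [hC.isOpen_compl.mem_nhds hq] with z hz
    exact h0 _ hz
  show dz j (fun z => X (z, S.sec q z)) q.1 = 0
  rw [dz_congr h1, dz_const]

theorem Db_zero_off {X : (Fin n → ℂ) × ℕ → ℂ} {C : Set (Fin n → ℂ)} (hC : IsClosed C)
    (h0 : ∀ q : (Fin n → ℂ) × ℕ, q.1 ∉ C → X q = 0) {q : (Fin n → ℂ) × ℕ} (hq : q.1 ∉ C)
    (j : Fin n) : S.Db j X q = 0 := by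
  have h1 : (fun z => X (z, S.sec q z)) =ᶠ[𝓝 q.1] fun _ => 0 := by
    filter_upwards [hC.isOpen_compl.mem_nhds hq] with z hz
    exact h0 _ hz
  show dzb j (fun z => X (z, S.sec q z)) q.1 = 0
  rw [dzb_congr h1, dzb_const]

theorem dz_zero_off {χ : (Fin n → ℂ) → ℂ} {z : Fin n → ℂ} (hz : z ∉ tsupport χ) (j : Fin n) :
    dz j χ z = 0 := by
  have h1 : χ =ᶠ[𝓝 z] fun _ => 0 := by
    filter_upwards [(isClosed_tsupport χ).isOpen_compl.mem_nhds hz] with y hy
    exact image_eq_zero_of_notMem_tsupport hy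
  rw [dz_congr h1, dz_const]

theorem dzb_zero_off {χ : (Fin n → ℂ) → ℂ} {z : Fin n → ℂ} (hz : z ∉ tsupport χ) (j : Fin n) :
    dzb j χ z = 0 := by
  have h1 : χ =ᶠ[𝓝 z] fun _ => 0 := by
    filter_upwards [(isClosed_tsupport χ).isOpen_compl.mem_nhds hz] with y hy
    exact image_eq_zero_of_notMem_tsupport hy
  rw [dzb_congr h1, dzb_const]

theorem memLp_fst_mul {X : (Fin n → ℂ) × ℕ → ℂ} (hX : MemLp X 2 S.μ) {C : Set (Fin n → ℂ)}
    (hC : IsCompact C) (hXC : ∀ q : (Fin n → ℂ) × ℕ, q.1 ∉ C → X q = 0)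
    {φ : (Fin n → ℂ) → ℂ} (hφ : Continuous φ) : MemLp (fun q => φ q.1 * X q) 2 S.μ := by
  obtain ⟨B, hB⟩ := hC.exists_bound_of_continuousOn hφ.continuousOn
  refine MemLp.of_le_mul (c := B) hX ?_ (Eventually.of_forall fun q => ?_)
  · exact ((hφ.measurable.comp measurable_fst).aestronglyMeasurable).mul hX.1
  · by_cases hq : q.1 ∈ C
    · rw [norm_mul]
      exact mul_le_mul_of_nonneg_right (hB _ hq) (norm_nonneg _)
    · simp [hXC q hq]

theorem isTest_fst_mul {κ : (Fin n → ℂ) × ℕ → ℂ} (hκ : S.IsTest κ) {χ : (Fin n → ℂ) → ℂ}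
    (hχ : ContDiff ℝ 2 χ) : S.IsTest (fun q => χ q.1 * κ q) := by
  obtain ⟨h1, C, hC, hCV, h0⟩ := hκ
  exact ⟨(CD.fst (by exact_mod_cast hχ.contDiffOn)).mul h1, C, hC, hCV,
    fun q hq => by simp [h0 q hq]⟩

theorem D_fst_mul {κ : (Fin n → ℂ) × ℕ → ℂ} (hκ : S.IsTest κ) {χ : (Fin n → ℂ) → ℂ}
    (hχ : ContDiff ℝ 2 χ) {q : (Fin n → ℂ) × ℕ} (hq : q ∈ S.M) (j : Fin n) :
    S.D j (fun q => χ q.1 * κ q) q = dz j χ q.1 * κ q + χ q.1 * S.D j κ q := by
  have h1 : S.CD 1 (fun q => χ q.1) :=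
    CD.fst (by exact_mod_cast (hχ.of_le one_le_two).contDiffOn)
  rw [D_mul h1 (hκ.1.mono one_le_two) hq, D_fst]

theorem Db_fst_mul {κ : (Fin n → ℂ) × ℕ → ℂ} (hκ : S.IsTest κ) {χ : (Fin n → ℂ) → ℂ}
    (hχ : ContDiff ℝ 2 χ) {q : (Fin n → ℂ) × ℕ} (hq : q ∈ S.M) (j : Fin n) :
    S.Db j (fun q => χ q.1 * κ q) q = dzb j χ q.1 * κ q + χ q.1 * S.Db j κ q := by
  have h1 : S.CD 1 (fun q => χ q.1) :=
    CD.fst (by exact_mod_cast (hχ.of_le one_le_two).contDiffOn)
  rw [Db_mul h1 (hκ.1.mono one_le_two) hq, Db_fst]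

/-- Approximation of `χ b`, where `χ` is supported in a trivializing open set. -/
theorem approx_local {W₀ : Set (Fin n → ℂ)} {σ : Fin N → (Fin n → ℂ) → ℕ} (hσ : S.SmTriv W₀ σ)
    {χ : (Fin n → ℂ) → ℂ} (hχ : ContDiff ℝ 2 χ) (hχW : tsupport χ ⊆ W₀)
    (b : Fin n → (Fin n → ℂ) × ℕ → ℂ) (g : (Fin n → ℂ) × ℕ → ℂ)
    (s : Fin n → Fin n → (Fin n → ℂ) × ℕ → ℂ) {C : Set (Fin n → ℂ)} (hC : IsCompact C)
    (hCV : C ⊆ S.V) (hbC : ∀ j, ∀ q : (Fin n → ℂ) × ℕ, q.1 ∉ C → b j q = 0)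
    (hgC : ∀ q : (Fin n → ℂ) × ℕ, q.1 ∉ C → g q = 0)
    (hsC : ∀ j k, ∀ q : (Fin n → ℂ) × ℕ, q.1 ∉ C → s j k q = 0)
    (hb : ∀ j, MemLp (b j) 2 S.μ) (hg : MemLp g 2 S.μ) (hs : ∀ j k, MemLp (s j k) 2 S.μ)
    (hgw : ∀ κ, S.IsTest κ → ∫ q, ∑ j, b j q * S.D j κ q ∂S.μ = - ∫ q, g q * κ q ∂S.μ)
    (hsw : ∀ κ, S.IsTest κ → ∀ j k, ∫ q, (b k q * S.Db j κ q - b j q * S.Db k κ q) ∂S.μ =
      - ∫ q, s j k q * κ q ∂S.μ) {ε : ℝ≥0∞} (hε : ε ≠ 0) :
    ∃ β : Fin n → (Fin n → ℂ) × ℕ → ℂ, (∀ j, S.IsTest (β j)) ∧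
      (∃ C' : Set (Fin n → ℂ), IsCompact C' ∧ C' ⊆ S.V ∧
        ∀ j, ∀ q : (Fin n → ℂ) × ℕ, q.1 ∉ C' → β j q = 0) ∧
      (∀ j, ∫⁻ q, ENNReal.ofReal (‖β j q - χ q.1 * b j q‖ ^ 2) ∂S.μ ≤ ε) ∧
      ∫⁻ q, ENNReal.ofReal (‖∑ j, S.D j (β j) q -
        (χ q.1 * g q + ∑ j, dz j χ q.1 * b j q)‖ ^ 2) ∂S.μ ≤ ε ∧
      ∀ j k, ∫⁻ q, ENNReal.ofReal (‖S.Db j (β k) q - S.Db k (β j) q -
        (χ q.1 * s j k q + (dzb j χ q.1 * b k q - dzb k χ q.1 * b j q))‖ ^ 2) ∂S.μ ≤ ε := by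
  have hW₀ := hσ.isOpen
  have hWV := hσ.subset
  set T := S.res W₀ hW₀ hWV with hT
  obtain ⟨e, c, hdu⟩ := exists_dual_triv (S := S) (W₀ := W₀) (hW₀ := hW₀) (hWV := hWV) hσ
  have hTμ : T.μ = S.μ.restrict {q : (Fin n → ℂ) × ℕ | q.1 ∈ W₀} := res_μ
  have hcz : ∀ j, Continuous (dz j χ) := fun j => hdc_cont_dz hχ j
  have hczb : ∀ j, Continuous (dzb j χ) := fun j => hdc_cont_dzb hχ j
  have hC' : IsCompact (C ∩ tsupport χ) := hC.inter_right (isClosed_tsupport χ)
  have hχ0 : ∀ z, z ∉ tsupport χ → χ z = 0 := fun z hz => image_eq_zero_of_notMem_tsupport hz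
  -- integrability
  have hI : ∀ {X : (Fin n → ℂ) × ℕ → ℂ} {Y : (Fin n → ℂ) × ℕ → ℂ}, MemLp X 2 S.μ → S.CD 0 Y →
      (∀ q : (Fin n → ℂ) × ℕ, q.1 ∉ C → X q = 0) → Integrable (fun q => X q * Y q) S.μ :=
    fun hX hY hX0 => hdc_integrable hX hY hC hCV hX0
  have hcd : ∀ {φ : (Fin n → ℂ) → ℂ}, Continuous φ → S.CD 0 (fun q => φ q.1) := fun hφ =>
    CD.fst (by rw [Nat.cast_zero, contDiffOn_zero]; exact hφ.continuousOn)
  obtain ⟨β, h1, ⟨C', hC'c, hC'W, hβ0⟩, h3, h4, h5⟩ := exists_test_approx_dual hdu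
    (fun j q => χ q.1 * b j q) (fun q => χ q.1 * g q + ∑ j, dz j χ q.1 * b j q)
    (fun j k q => χ q.1 * s j k q + (dzb j χ q.1 * b k q - dzb k χ q.1 * b j q))
    (C := C ∩ tsupport χ) hC' (Set.inter_subset_right.trans hχW)
    (by
      intro j q hq
      by_cases hqC : q.1 ∈ C
      · have : q.1 ∉ tsupport χ := fun h => hq ⟨hqC, h⟩
        simp [hχ0 _ this]
      · simp [hbC j q hqC])
    (by
      intro j
      rw [hTμ]
      exact (memLp_fst_mul (hb j) hC (hbC j) hχ.continuous).restrict _)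
    (by
      rw [hTμ]
      refine MemLp.restrict _ (MemLp.add (memLp_fst_mul hg hC hgC hχ.continuous) ?_)
      exact memLp_finsetSum _ fun j _ => memLp_fst_mul (hb j) hC (hbC j) (hcz j))
    (by
      intro j k
      rw [hTμ]
      refine MemLp.restrict _ (MemLp.add (memLp_fst_mul (hs j k) hC (hsC j k) hχ.continuous) ?_)
      exact (memLp_fst_mul (hb k) hC (hbC k) (hczb j)).sub
        (memLp_fst_mul (hb j) hC (hbC j) (hczb k)))
    (by
      intro κ hκ
      have hκS : S.IsTest κ := res_isTest hκ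
      obtain ⟨Cκ, hCκ, hCκW, hκ0⟩ := hκ.2
      have h1 := hgw _ (isTest_fst_mul hκS hχ)
      have e1 : ∫ q, ∑ j, χ q.1 * b j q * T.D j κ q ∂T.μ =
          ∫ q, ∑ j, χ q.1 * b j q * S.D j κ q ∂S.μ := by
        rw [← res_integral (S := S) (W₀ := W₀) (hW₀ := hW₀) (hWV := hWV)]
        · refine integral_congr_ae ?_
          filter_upwards [ae_mem_M (S := T)] with q hq
          refine Finset.sum_congr rfl fun j _ => ?_
          rw [res_D hq]
        · intro q hq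
          refine Finset.sum_eq_zero fun j _ => ?_
          rw [D_zero_off hCκ.isClosed hκ0 (fun h => hq (hCκW h)), mul_zero]
      have e2 : ∫ q, (χ q.1 * g q + ∑ j, dz j χ q.1 * b j q) * κ q ∂T.μ =
          ∫ q, (χ q.1 * g q + ∑ j, dz j χ q.1 * b j q) * κ q ∂S.μ := by
        rw [← res_integral (S := S) (W₀ := W₀) (hW₀ := hW₀) (hWV := hWV)]
        intro q hq
        rw [hκ0 q (fun h => hq (hCκW h)), mul_zero]
      rw [e1, e2]
      have e3 : ∫ q, ∑ j, b j q * S.D j (fun q => χ q.1 * κ q) q ∂S.μ =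
          ∫ q, ∑ j, (b j q * (dz j χ q.1 * κ q) + b j q * (χ q.1 * S.D j κ q)) ∂S.μ := by
        refine integral_congr_ae ?_
        filter_upwards [ae_mem_M (S := S)] with q hq
        refine Finset.sum_congr rfl fun j _ => ?_
        rw [D_fst_mul hκS hχ hq]
        ring
      have i1 : ∀ j, Integrable (fun q => b j q * (dz j χ q.1 * κ q)) S.μ := fun j =>
        hI (hb j) ((hcd (hcz j)).mul (hκS.1.mono (Nat.zero_le 2))) (hbC j)
      have i2 : ∀ j, Integrable (fun q => b j q * (χ q.1 * S.D j κ q)) S.μ := fun j =>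
        hI (hb j) ((hcd hχ.continuous).mul (CD.D (m := 0) (hκS.1.mono one_le_two))) (hbC j)
      have i3 : Integrable (fun q => g q * (χ q.1 * κ q)) S.μ :=
        hI hg ((hcd hχ.continuous).mul (hκS.1.mono (Nat.zero_le 2))) hgC
      have iA : ∀ j, Integrable
          (fun q => b j q * (dz j χ q.1 * κ q) + b j q * (χ q.1 * S.D j κ q)) S.μ :=
        fun j => (i1 j).add (i2 j)
      rw [e3, integral_finsetSum _ fun j _ => iA j,
        Finset.sum_congr rfl fun j _ => integral_add (i1 j) (i2 j),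
        Finset.sum_add_distrib] at h1
      have e4 : ∫ q, ∑ j, χ q.1 * b j q * S.D j κ q ∂S.μ =
          ∑ j, ∫ q, b j q * (χ q.1 * S.D j κ q) ∂S.μ := by
        rw [← integral_finsetSum _ fun j _ => i2 j]
        refine integral_congr_ae (Eventually.of_forall fun q => ?_)
        exact Finset.sum_congr rfl fun j _ => by ring
      have e5 : ∫ q, (χ q.1 * g q + ∑ j, dz j χ q.1 * b j q) * κ q ∂S.μ =
          (∫ q, g q * (χ q.1 * κ q) ∂S.μ) + ∑ j, ∫ q, b j q * (dz j χ q.1 * κ q) ∂S.μ := by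
        have iA : Integrable (fun q => ∑ j, b j q * (dz j χ q.1 * κ q)) S.μ :=
          integrable_finsetSum _ fun j _ => i1 j
        rw [← integral_finsetSum _ fun j _ => i1 j, ← integral_add i3 iA]
        refine integral_congr_ae (Eventually.of_forall fun q => ?_)
        simp only [add_mul, Finset.sum_mul]
        congr 1
        · ring
        · exact Finset.sum_congr rfl fun j _ => by ring
      rw [e4, e5]
      linear_combination h1)
    (by
      intro κ hκ j k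
      have hκS : S.IsTest κ := res_isTest hκ
      obtain ⟨Cκ, hCκ, hCκW, hκ0⟩ := hκ.2
      have h1 := hsw _ (isTest_fst_mul hκS hχ) j k
      have e1 : ∫ q, (χ q.1 * b k q * T.Db j κ q - χ q.1 * b j q * T.Db k κ q) ∂T.μ =
          ∫ q, (χ q.1 * b k q * S.Db j κ q - χ q.1 * b j q * S.Db k κ q) ∂S.μ := by
        rw [← res_integral (S := S) (W₀ := W₀) (hW₀ := hW₀) (hWV := hWV)]
        · refine integral_congr_ae ?_
          filter_upwards [ae_mem_M (S := T)] with q hq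
          rw [res_Db hq, res_Db hq]
        · intro q hq
          rw [Db_zero_off hCκ.isClosed hκ0 (fun h => hq (hCκW h)),
            Db_zero_off hCκ.isClosed hκ0 (fun h => hq (hCκW h)), mul_zero, mul_zero, sub_zero]
      have e2 : ∫ q, (χ q.1 * s j k q + (dzb j χ q.1 * b k q - dzb k χ q.1 * b j q)) * κ q ∂T.μ =
          ∫ q, (χ q.1 * s j k q + (dzb j χ q.1 * b k q - dzb k χ q.1 * b j q)) * κ q ∂S.μ := by
        rw [← res_integral (S := S) (W₀ := W₀) (hW₀ := hW₀) (hWV := hWV)]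
        intro q hq
        rw [hκ0 q (fun h => hq (hCκW h)), mul_zero]
      rw [e1, e2]
      have i1 : ∀ l m, Integrable (fun q => b l q * (dzb m χ q.1 * κ q)) S.μ := fun l m =>
        hI (hb l) ((hcd (hczb m)).mul (hκS.1.mono (Nat.zero_le 2))) (hbC l)
      have i2 : ∀ l m, Integrable (fun q => b l q * (χ q.1 * S.Db m κ q)) S.μ := fun l m =>
        hI (hb l) ((hcd hχ.continuous).mul (CD.Db (m := 0) (hκS.1.mono one_le_two))) (hbC l)
      have i3 : Integrable (fun q => s j k q * (χ q.1 * κ q)) S.μ :=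
        hI (hs j k) ((hcd hχ.continuous).mul (hκS.1.mono (Nat.zero_le 2))) (hsC j k)
      have e3 : ∫ q, (b k q * S.Db j (fun q => χ q.1 * κ q) q -
          b j q * S.Db k (fun q => χ q.1 * κ q) q) ∂S.μ =
          (∫ q, b k q * (dzb j χ q.1 * κ q) ∂S.μ) + (∫ q, b k q * (χ q.1 * S.Db j κ q) ∂S.μ) -
          ((∫ q, b j q * (dzb k χ q.1 * κ q) ∂S.μ) + ∫ q, b j q * (χ q.1 * S.Db k κ q) ∂S.μ) := by
        have iA : Integrable (fun q => b k q * (dzb j χ q.1 * κ q) +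
          b k q * (χ q.1 * S.Db j κ q)) S.μ := (i1 k j).add (i2 k j)
        have iB : Integrable (fun q => b j q * (dzb k χ q.1 * κ q) +
          b j q * (χ q.1 * S.Db k κ q)) S.μ := (i1 j k).add (i2 j k)
        rw [← integral_add (i1 k j) (i2 k j), ← integral_add (i1 j k) (i2 j k),
          ← integral_sub iA iB]
        refine integral_congr_ae ?_
        filter_upwards [ae_mem_M (S := S)] with q hq
        rw [Db_fst_mul hκS hχ hq, Db_fst_mul hκS hχ hq]
        ring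
      have e4 : ∫ q, (χ q.1 * b k q * S.Db j κ q - χ q.1 * b j q * S.Db k κ q) ∂S.μ =
          (∫ q, b k q * (χ q.1 * S.Db j κ q) ∂S.μ) - ∫ q, b j q * (χ q.1 * S.Db k κ q) ∂S.μ := by
        rw [← integral_sub (i2 k j) (i2 j k)]
        refine integral_congr_ae (Eventually.of_forall fun q => ?_)
        simp only
        ring
      have e5 : ∫ q, (χ q.1 * s j k q + (dzb j χ q.1 * b k q - dzb k χ q.1 * b j q)) * κ q ∂S.μ =
          (∫ q, s j k q * (χ q.1 * κ q) ∂S.μ) + ((∫ q, b k q * (dzb j χ q.1 * κ q) ∂S.μ) -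
          ∫ q, b j q * (dzb k χ q.1 * κ q) ∂S.μ) := by
        have iA : Integrable (fun q => b k q * (dzb j χ q.1 * κ q) -
          b j q * (dzb k χ q.1 * κ q)) S.μ := (i1 k j).sub (i1 j k)
        rw [← integral_sub (i1 k j) (i1 j k), ← integral_add i3 iA]
        refine integral_congr_ae (Eventually.of_forall fun q => ?_)
        simp only
        ring
      rw [e3] at h1
      rw [e4, e5]
      linear_combination h1) hε
  refine ⟨β, fun j => res_isTest (h1 j), ⟨C', hC'c, hC'W.trans hWV, hβ0⟩, ?_, ?_, ?_⟩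
  · intro j
    rw [← res_lintegral (S := S) (W₀ := W₀) (hW₀ := hW₀) (hWV := hWV)]
    · exact h3 j
    · intro q hq
      rw [hβ0 j q (fun h => hq (hC'W h)), hχ0 q.1 (fun h => hq (hχW h))]
      simp
  · rw [← res_lintegral (S := S) (W₀ := W₀) (hW₀ := hW₀) (hWV := hWV)]
    · refine le_trans (le_of_eq ?_) h4
      refine lintegral_congr_ae ?_
      filter_upwards [ae_mem_M (S := T)] with q hq
      congr 4
      exact Finset.sum_congr rfl fun j _ => (res_D hq).symm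
    · intro q hq
      have h6 : ∑ j, S.D j (β j) q = 0 := Finset.sum_eq_zero fun j _ =>
        D_zero_off hC'c.isClosed (hβ0 j) (fun h => hq (hC'W h)) j
      have h7 : ∑ j, dz j χ q.1 * b j q = 0 := Finset.sum_eq_zero fun j _ => by
        rw [dz_zero_off (fun h => hq (hχW h)), zero_mul]
      rw [h6, h7, hχ0 q.1 (fun h => hq (hχW h))]
      simp
  · intro j k
    rw [← res_lintegral (S := S) (W₀ := W₀) (hW₀ := hW₀) (hWV := hWV)]
    · refine le_trans (le_of_eq ?_) (h5 j k)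
      refine lintegral_congr_ae ?_
      filter_upwards [ae_mem_M (S := T)] with q hq
      rw [res_Db hq, res_Db hq]
    · intro q hq
      rw [Db_zero_off hC'c.isClosed (hβ0 k) (fun h => hq (hC'W h)) j,
        Db_zero_off hC'c.isClosed (hβ0 j) (fun h => hq (hC'W h)) k,
        dzb_zero_off (fun h => hq (hχW h)), dzb_zero_off (fun h => hq (hχW h)),
        hχ0 q.1 (fun h => hq (hχW h))]
      simp

/-- Approximation for forms supported over a compact set. Here `g` is the weak value of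
`∑ D_j b_j` and `s j k` is the weak value of `D̄_j b_k - D̄_k b_j`. -/
theorem exists_test_approx_compact (b : Fin n → (Fin n → ℂ) × ℕ → ℂ) (g : (Fin n → ℂ) × ℕ → ℂ)
    (s : Fin n → Fin n → (Fin n → ℂ) × ℕ → ℂ) {C : Set (Fin n → ℂ)} (hC : IsCompact C)
    (hCV : C ⊆ S.V) (hbC : ∀ j, ∀ q : (Fin n → ℂ) × ℕ, q.1 ∉ C → b j q = 0)
    (hb : ∀ j, MemLp (b j) 2 S.μ) (hg : MemLp g 2 S.μ) (hs : ∀ j k, MemLp (s j k) 2 S.μ)
    (hgw : ∀ κ, S.IsTest κ → ∫ q, ∑ j, b j q * S.D j κ q ∂S.μ = - ∫ q, g q * κ q ∂S.μ)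
    (hsw : ∀ κ, S.IsTest κ → ∀ j k, ∫ q, (b k q * S.Db j κ q - b j q * S.Db k κ q) ∂S.μ =
      - ∫ q, s j k q * κ q ∂S.μ) {ε : ℝ≥0∞} (hε : ε ≠ 0) :
    ∃ β : Fin n → (Fin n → ℂ) × ℕ → ℂ, (∀ j, S.IsTest (β j)) ∧
      (∃ C' : Set (Fin n → ℂ), IsCompact C' ∧ C' ⊆ S.V ∧
        ∀ j, ∀ q : (Fin n → ℂ) × ℕ, q.1 ∉ C' → β j q = 0) ∧
      (∀ j, ∫⁻ q, ENNReal.ofReal (‖β j q - b j q‖ ^ 2) ∂S.μ ≤ ε) ∧
      ∫⁻ q, ENNReal.ofReal (‖∑ j, S.D j (β j) q - g q‖ ^ 2) ∂S.μ ≤ ε ∧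
      ∀ j k, ∫⁻ q, ENNReal.ofReal (‖S.Db j (β k) q - S.Db k (β j) q - s j k q‖ ^ 2) ∂S.μ ≤ ε := by
  classical
  -- `g` and `s` vanish off `C`
  have hgz : ∀ᵐ q ∂S.μ, q.1 ∉ C → g q = 0 := by
    refine vanish_off hg hC.isClosed fun κ hκ hK => ?_
    obtain ⟨K, hK, hKC, h0⟩ := hK
    have h1 := hgw κ hκ
    have h2 : ∫ q, ∑ j, b j q * S.D j κ q ∂S.μ = 0 := by
      rw [← integral_zero ((Fin n → ℂ) × ℕ) ℂ (μ := S.μ)]
      refine integral_congr_ae (Eventually.of_forall fun q => ?_)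
      refine Finset.sum_eq_zero fun j _ => ?_
      by_cases hqC : q.1 ∈ C
      · rw [D_zero_off hK.isClosed h0 (fun h => Set.disjoint_left.1 hKC h hqC), mul_zero]
      · rw [hbC j q hqC, zero_mul]
    rw [h2] at h1
    exact neg_eq_zero.1 h1.symm
  have hsz : ∀ j k, ∀ᵐ q ∂S.μ, q.1 ∉ C → s j k q = 0 := by
    intro j k
    refine vanish_off (hs j k) hC.isClosed fun κ hκ hK => ?_
    obtain ⟨K, hK, hKC, h0⟩ := hK
    have h1 := hsw κ hκ j k
    have h2 : ∫ q, (b k q * S.Db j κ q - b j q * S.Db k κ q) ∂S.μ = 0 := by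
      rw [← integral_zero ((Fin n → ℂ) × ℕ) ℂ (μ := S.μ)]
      refine integral_congr_ae (Eventually.of_forall fun q => ?_)
      simp only
      by_cases hqC : q.1 ∈ C
      · rw [Db_zero_off hK.isClosed h0 (fun h => Set.disjoint_left.1 hKC h hqC),
          Db_zero_off hK.isClosed h0 (fun h => Set.disjoint_left.1 hKC h hqC), mul_zero, mul_zero,
          sub_zero]
      · rw [hbC j q hqC, hbC k q hqC, zero_mul, zero_mul, sub_zero]
    rw [h2] at h1
    exact neg_eq_zero.1 h1.symm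
  set A : Set ((Fin n → ℂ) × ℕ) := {q | q.1 ∈ C} with hA
  have hAm : MeasurableSet A := hdc_meas_fst hC
  have hge : A.indicator g =ᵐ[S.μ] g := by
    filter_upwards [hgz] with q hq
    by_cases hqC : q.1 ∈ C
    · exact Set.indicator_of_mem (by exact hqC) _
    · rw [Set.indicator_of_notMem (by exact hqC), hq hqC]
  have hse : ∀ j k, A.indicator (s j k) =ᵐ[S.μ] s j k := by
    intro j k
    filter_upwards [hsz j k] with q hq
    by_cases hqC : q.1 ∈ C
    · exact Set.indicator_of_mem (by exact hqC) _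
    · rw [Set.indicator_of_notMem (by exact hqC), hq hqC]
  -- the partition of unity
  have hch : ∀ z : Fin n → ℂ, ∃ (W : Set (Fin n → ℂ)) (σ : Fin N → (Fin n → ℂ) → ℕ),
      z ∈ S.V → S.SmTriv W σ ∧ z ∈ W := by
    intro z
    by_cases hz : z ∈ S.V
    · obtain ⟨W, s, h⟩ := sm_loc hz
      exact ⟨W, s, fun _ => h⟩
    · exact ⟨∅, fun _ _ => 0, fun h => absurd h hz⟩
  choose W σ hW using hch
  obtain ⟨t, χ, htV, hχ, hχs, hχ1⟩ := exists_partition S.isOpen hC hCV W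
    (fun z hz => ⟨(hW z hz).1.isOpen, (hW z hz).2⟩)
  set m : ℝ≥0∞ := (Fintype.card t : ℝ≥0∞) with hm
  have hmt : m ≠ ⊤ := ENNReal.natCast_ne_top _
  set ε' : ℝ≥0∞ := ε / (m * m + 1) with hε'
  have hmm : m * m + 1 ≠ ⊤ := ENNReal.add_ne_top.2 ⟨ENNReal.mul_ne_top hmt hmt, ENNReal.one_ne_top⟩
  have hε'0 : ε' ≠ 0 := ENNReal.div_ne_zero.2 ⟨hε, hmm⟩
  have hε'm : m * (m * ε') ≤ ε := by
    calc m * (m * ε') = m * m * ε' := by ring
      _ ≤ (m * m + 1) * (ε / (m * m + 1)) := by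
          gcongr
          exact le_self_add
      _ ≤ ε := ENNReal.mul_div_le
  have hloc := fun a : t => approx_local (hW a (htV a a.2)).1 (hχ a) (hχs a) b (A.indicator g)
    (fun j k => A.indicator (s j k)) hC hCV hbC
    (fun q hq => Set.indicator_of_notMem (by exact hq) _)
    (fun j k q hq => Set.indicator_of_notMem (by exact hq) _) hb (hg.indicator hAm)
    (fun j k => (hs j k).indicator hAm)
    (fun κ hκ => by
      rw [hgw κ hκ]
      congr 1
      refine integral_congr_ae ?_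
      filter_upwards [hge] with q hq
      rw [hq])
    (fun κ hκ j k => by
      rw [hsw κ hκ j k]
      congr 1
      refine integral_congr_ae ?_
      filter_upwards [hse j k] with q hq
      simp only [hq]) hε'0
  choose β hβt hβC hβb hβg hβs using hloc
  choose C' hC' hC'V hβ0 using hβC
  -- sums of squares
  have hsq : ∀ f : t → (Fin n → ℂ) × ℕ → ℂ, (∀ a, AEStronglyMeasurable (f a) S.μ) →
      (∀ a, ∫⁻ q, ENNReal.ofReal (‖f a q‖ ^ 2) ∂S.μ ≤ ε') →
      ∫⁻ q, ENNReal.ofReal (‖∑ a, f a q‖ ^ 2) ∂S.μ ≤ ε := by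
    intro f hf hfe
    calc ∫⁻ q, ENNReal.ofReal (‖∑ a, f a q‖ ^ 2) ∂S.μ
        ≤ ∫⁻ q, m * ∑ a, ENNReal.ofReal (‖f a q‖ ^ 2) ∂S.μ := by
          refine lintegral_mono fun q => ?_
          have h1 : ‖∑ a, f a q‖ ^ 2 ≤ Fintype.card t * ∑ a, ‖f a q‖ ^ 2 := by
            calc ‖∑ a, f a q‖ ^ 2 ≤ (∑ a, ‖f a q‖) ^ 2 :=
                  pow_le_pow_left₀ (norm_nonneg _) (norm_sum_le _ _) 2
              _ ≤ Fintype.card t * ∑ a, ‖f a q‖ ^ 2 := by
                  have := sq_sum_le_card_mul_sum_sq (s := (Finset.univ : Finset t))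
                    (f := fun a => ‖f a q‖)
                  simpa using this
          refine (ENNReal.ofReal_le_ofReal h1).trans (le_of_eq ?_)
          rw [ENNReal.ofReal_mul (Nat.cast_nonneg _), ENNReal.ofReal_natCast,
            ENNReal.ofReal_sum_of_nonneg fun a _ => by positivity]
      _ = m * ∑ a, ∫⁻ q, ENNReal.ofReal (‖f a q‖ ^ 2) ∂S.μ := by
          rw [lintegral_const_mul' _ _ hmt, lintegral_finsetSum']
          exact fun a _ => ((hf a).norm.aemeasurable.pow_const 2).ennreal_ofReal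
      _ ≤ m * ∑ _a : t, ε' := by
          gcongr with a _
          exact hfe a
      _ = m * (m * ε') := by
          rw [Finset.sum_const, nsmul_eq_mul, Finset.card_univ]
      _ ≤ ε := hε'm
  have hχC : ∀ z ∈ C, ∑ a, χ a z = 1 ∧ (∀ j, ∑ a, dz j (χ a) z = 0) ∧
      ∀ j, ∑ a, dzb j (χ a) z = 0 := by
    intro z hz
    have h1 : (fun z => ∑ a, χ a z) =ᶠ[𝓝 z] fun _ => 1 :=
      hχ1.filter_mono (nhds_le_nhdsSet hz)
    have hd : ∀ a ∈ (Finset.univ : Finset t), DifferentiableAt ℝ (χ a) z :=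
      fun a _ => ((hχ a).differentiable (by norm_num)) z
    refine ⟨h1.self_of_nhds, fun j => ?_, fun j => ?_⟩
    · rw [← dz_sum Finset.univ hd, dz_congr h1, dz_const]
    · rw [← dzb_sum Finset.univ hd, dzb_congr h1, dzb_const]
  have hcd : ∀ {φ : (Fin n → ℂ) → ℂ}, Continuous φ →
      AEStronglyMeasurable (fun q : (Fin n → ℂ) × ℕ => φ q.1) S.μ := fun hφ =>
    (hφ.measurable.comp measurable_fst).aestronglyMeasurable
  have hgm : AEStronglyMeasurable (A.indicator g) S.μ := (hg.indicator hAm).1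
  have hsm : ∀ j k, AEStronglyMeasurable (A.indicator (s j k)) S.μ :=
    fun j k => ((hs j k).indicator hAm).1
  have hβD : ∀ j, S.CD 2 (fun q => ∑ a, β a j q) := fun j => CD.sum _ fun a _ => (hβt a j).1
  refine ⟨fun j q => ∑ a, β a j q, fun j => ?_, ?_, fun j => ?_, ?_, fun j k => ?_⟩
  · refine ⟨hβD j, ⋃ a, C' a, isCompact_iUnion hC', Set.iUnion_subset hC'V, fun q hq => ?_⟩
    exact Finset.sum_eq_zero fun a _ => hβ0 a j q fun h => hq (Set.mem_iUnion.2 ⟨a, h⟩)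
  · refine ⟨⋃ a, C' a, isCompact_iUnion hC', Set.iUnion_subset hC'V, fun j q hq => ?_⟩
    exact Finset.sum_eq_zero fun a _ => hβ0 a j q fun h => hq (Set.mem_iUnion.2 ⟨a, h⟩)
  · refine le_trans (le_of_eq ?_) (hsq (fun a q => β a j q - χ a q.1 * b j q) (fun a => ?_)
      (fun a => hβb a j))
    · refine lintegral_congr fun q => ?_
      congr 3
      rw [Finset.sum_sub_distrib, ← Finset.sum_mul]
      by_cases hqC : q.1 ∈ C
      · rw [(hχC _ hqC).1, one_mul]
      · rw [hbC j q hqC, mul_zero]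
    · exact (aestronglyMeasurable_of_CD ((hβt a j).1.mono (Nat.zero_le 2))).sub
        ((hcd (hχ a).continuous).mul (hb j).1)
  · refine le_trans (le_of_eq ?_) (hsq (fun a q => ∑ j, S.D j (β a j) q -
      (χ a q.1 * A.indicator g q + ∑ j, dz j (χ a) q.1 * b j q)) (fun a => ?_) hβg)
    · refine lintegral_congr_ae ?_
      filter_upwards [ae_mem_M (S := S), hge] with q hq hgq
      congr 3
      have h1 : ∑ j, S.D j (fun q => ∑ a, β a j q) q = ∑ a, ∑ j, S.D j (β a j) q := by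
        rw [Finset.sum_comm]
        exact Finset.sum_congr rfl fun j _ =>
          D_sum _ (fun a _ => (hβt a j).1.mono one_le_two) hq
      rw [h1, Finset.sum_sub_distrib, Finset.sum_add_distrib, ← Finset.sum_mul, ← hgq]
      congr 1
      have h2 : ∑ a, ∑ j, dz j (χ a) q.1 * b j q = 0 := by
        rw [Finset.sum_comm]
        refine Finset.sum_eq_zero fun j _ => ?_
        rw [← Finset.sum_mul]
        by_cases hqC : q.1 ∈ C
        · rw [(hχC _ hqC).2.1 j, zero_mul]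
        · rw [hbC j q hqC, mul_zero]
      rw [h2, add_zero]
      by_cases hqC : q.1 ∈ C
      · rw [(hχC _ hqC).1, one_mul]
      · rw [Set.indicator_of_notMem (by exact hqC), mul_zero]
    · refine AEStronglyMeasurable.sub ?_ (((hcd (hχ a).continuous).mul hgm).add ?_)
      · exact aestronglyMeasurable_of_CD (CD.sum _ fun j _ =>
          CD.D (m := 0) ((hβt a j).1.mono one_le_two))
      · exact Finset.aestronglyMeasurable_fun_sum _ fun j _ =>
          (hcd (hdc_cont_dz (hχ a) j)).mul (hb j).1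
  · refine le_trans (le_of_eq ?_) (hsq (fun a q => S.Db j (β a k) q - S.Db k (β a j) q -
      (χ a q.1 * A.indicator (s j k) q + (dzb j (χ a) q.1 * b k q - dzb k (χ a) q.1 * b j q)))
      (fun a => ?_) (fun a => hβs a j k))
    · refine lintegral_congr_ae ?_
      filter_upwards [ae_mem_M (S := S), hse j k] with q hq hsq'
      congr 3
      rw [Db_sum _ (fun a _ => (hβt a k).1.mono one_le_two) hq,
        Db_sum _ (fun a _ => (hβt a j).1.mono one_le_two) hq,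
        Finset.sum_sub_distrib, Finset.sum_sub_distrib, Finset.sum_add_distrib,
        Finset.sum_sub_distrib, ← Finset.sum_mul, ← Finset.sum_mul, ← Finset.sum_mul, ← hsq']
      congr 1
      by_cases hqC : q.1 ∈ C
      · rw [(hχC _ hqC).1, (hχC _ hqC).2.2 j, (hχC _ hqC).2.2 k]
        ring
      · rw [Set.indicator_of_notMem (by exact hqC), hbC j q hqC, hbC k q hqC]
        ring
    · refine AEStronglyMeasurable.sub ?_ (((hcd (hχ a).continuous).mul (hsm j k)).add ?_)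
      · exact (aestronglyMeasurable_of_CD (CD.Db (m := 0) ((hβt a k).1.mono one_le_two))).sub
          (aestronglyMeasurable_of_CD (CD.Db (m := 0) ((hβt a j).1.mono one_le_two)))
      · exact ((hcd (hdc_cont_dzb (hχ a) j)).mul (hb k).1).sub
          ((hcd (hdc_cont_dzb (hχ a) k)).mul (hb j).1)

end Sheets

end Vale.Agent.P300.L2
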