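import Vale.Agent.P300.H435.L2.Wirt

set_option linter.all false


open MeasureTheory Filter Topology
open scoped ENNReal NNReal ComplexConjugate Convolution

namespace Vale.Agent.P300.L2

variable {n : ℕ}

/-- Continuity of translations in `L²`. -/
theorem moll_translate {g : (Fin n → ℂ) → ℂ} (hg : MemLp g 2 volume) {ε : ℝ≥0∞} (hε : ε ≠ 0) :
    ∃ δ > 0, ∀ t : Fin n → ℂ, ‖t‖ < δ → eLpNorm (fun x => g (x - t) - g x) 2 volume ≤ ε := by
  let G : C((Fin n → ℂ) × (Fin n → ℂ), (Fin n → ℂ)) := ⟨fun a => a.2 - a.1, by fun_prop⟩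
  have hmp : ∀ t : Fin n → ℂ, MeasurePreserving (G.curry t) volume volume :=
    fun t => measurePreserving_sub_right volume t
  have hc : Continuous (fun t : Fin n → ℂ =>
      Lp.compMeasurePreserving (G.curry t) (hmp t) (hg.toLp g)) :=
    Continuous.compMeasurePreservingLp continuous_const G.curry.continuous hmp (by simp)
  have h0 := (hc.tendsto 0).eventually (Metric.eball_mem_nhds _ (pos_iff_ne_zero.2 hε))
  rw [Metric.eventually_nhds_iff] at h0
  obtain ⟨δ, hδ, h⟩ := h0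
  refine ⟨δ, hδ, fun t ht => ?_⟩
  have h1 := h (y := t) (by simpa using ht)
  rw [Lp.toLp_compMeasurePreserving hg (hmp t),
    Lp.toLp_compMeasurePreserving hg (hmp 0), Lp.edist_toLp_toLp] at h1
  refine le_trans (le_of_eq ?_) h1.le
  congr 1
  funext x
  simp [G]

/-- Cauchy-Schwarz with a weight. -/
theorem moll_cs {α : Type*} [MeasurableSpace α] {μ : Measure α} {a b : α → ℝ≥0∞}
    (ha : Measurable a) (hb : AEMeasurable b μ) (h1 : ∫⁻ x, a x ∂μ = 1) :
    (∫⁻ x, a x * b x ∂μ) ^ 2 ≤ ∫⁻ x, a x * b x ^ 2 ∂μ := by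
  have hfin : ∀ᵐ x ∂μ, a x < ∞ := ae_lt_top ha (by simp [h1])
  have hbν : AEMeasurable b (μ.withDensity a) :=
    hb.mono_ac (withDensity_absolutelyContinuous _ _)
  have key := ENNReal.lintegral_mul_le_Lp_mul_Lq (μ.withDensity a)
    (Real.HolderConjugate.two_two) (f := fun _ => (1 : ℝ≥0∞)) (g := b) aemeasurable_const hbν
  have e1 : ∫⁻ x, b x ∂(μ.withDensity a) = ∫⁻ x, a x * b x ∂μ := by
    rw [lintegral_withDensity_eq_lintegral_mul₀ ha.aemeasurable hb]; rfl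
  have e2 : ∫⁻ x, b x ^ (2 : ℝ) ∂(μ.withDensity a) = ∫⁻ x, a x * b x ^ 2 ∂μ := by
    rw [lintegral_withDensity_eq_lintegral_mul₀ ha.aemeasurable (hb.pow_const _)]
    simp
  have e3 : (μ.withDensity a) Set.univ = 1 := by
    rw [withDensity_apply _ MeasurableSet.univ]; simpa using h1
  simp only [Pi.mul_apply, one_mul, ENNReal.one_rpow, lintegral_one, e3, one_div] at key
  rw [e1, e2] at key
  calc (∫⁻ x, a x * b x ∂μ) ^ 2 ≤ ((∫⁻ x, a x * b x ^ 2 ∂μ) ^ (2⁻¹ : ℝ)) ^ 2 := by gcongr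
    _ = _ := by
      rw [← ENNReal.rpow_natCast, ← ENNReal.rpow_mul]; norm_num

/-- Jensen's inequality for convolutions. -/
theorem moll_jensen {ρ : (Fin n → ℂ) → ℝ} (hρc : Continuous ρ) (hρ0 : ∀ t, 0 ≤ ρ t)
    (hρs : HasCompactSupport ρ) (hρ1 : ∫ t, ρ t = 1) {g : (Fin n → ℂ) → ℂ}
    (hg : MemLp g 2 volume) {ε : ℝ≥0∞}
    (h : ∀ t, ρ t ≠ 0 → eLpNorm (fun x => g (x - t) - g x) 2 volume ≤ ε) :
    eLpNorm (fun x => (ρ ⋆[ContinuousLinearMap.lsmul ℝ ℝ, volume] g) x - g x) 2 volume ≤ ε := by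
  have hgl : LocallyIntegrable g volume := hg.locallyIntegrable (by norm_num)
  have hce : ConvolutionExists ρ g (ContinuousLinearMap.lsmul ℝ ℝ) volume :=
    hρs.convolutionExists_left _ hρc hgl
  have hρi : Integrable ρ volume := hρc.integrable_of_hasCompactSupport hρs
  have hρe : ∫⁻ t, ‖ρ t‖ₑ = 1 := by
    have := ofReal_integral_eq_lintegral_ofReal hρi (ae_of_all _ hρ0)
    rw [hρ1, ENNReal.ofReal_one] at this
    rw [this]
    refine lintegral_congr fun t => ?_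
    rw [Real.enorm_eq_ofReal (hρ0 t)]
  -- pointwise bound
  have hpt : ∀ x, ‖(ρ ⋆[ContinuousLinearMap.lsmul ℝ ℝ, volume] g) x - g x‖ₑ ≤
      ∫⁻ t, ‖ρ t‖ₑ * ‖g (x - t) - g x‖ₑ := by
    intro x
    have e1 : (ρ ⋆[ContinuousLinearMap.lsmul ℝ ℝ, volume] g) x - g x =
        ∫ t, ρ t • (g (x - t) - g x) := by
      have e2 : g x = ∫ t, ρ t • g x := by
        rw [integral_smul_const, hρ1, one_smul]
      conv_lhs => rw [e2]
      rw [convolution_def, ← integral_sub]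
      · refine integral_congr_ae (ae_of_all _ fun t => ?_)
        simp [smul_sub]
      · exact hce x
      · exact hρi.smul_const _
    rw [e1]
    refine (enorm_integral_le_lintegral_enorm _).trans (le_of_eq ?_)
    refine lintegral_congr fun t => ?_
    rw [enorm_smul]
  have hm : AEStronglyMeasurable (fun p : (Fin n → ℂ) × (Fin n → ℂ) => g (p.1 - p.2) - g p.1)
      (volume.prod volume) :=
    (hg.1.comp_quasiMeasurePreserving
      (quasiMeasurePreserving_sub_of_right_invariant volume volume)).sub hg.1.comp_fst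
  have hm2 : AEMeasurable (Function.uncurry fun (x t : Fin n → ℂ) =>
      ‖ρ t‖ₑ * ‖g (x - t) - g x‖ₑ ^ 2) (volume.prod volume) := by
    refine AEMeasurable.mul ?_ (hm.enorm.pow_const 2)
    exact (hρc.measurable.enorm.comp measurable_snd).aemeasurable
  have hsq : ∀ F : (Fin n → ℂ) → ℂ, eLpNorm F 2 volume ^ 2 = ∫⁻ x, ‖F x‖ₑ ^ 2 := by
    intro F
    have := eLpNorm_nnreal_pow_eq_lintegral (μ := (volume : Measure (Fin n → ℂ))) (f := F)
      (p := 2) (by norm_num)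
    simpa using this
  have hmt : ∀ᵐ x : Fin n → ℂ, AEMeasurable (fun t => ‖g (x - t) - g x‖ₑ) volume := by
    filter_upwards [hm.prodMk_left] with x hx using hx.enorm
  have main : eLpNorm (fun x => (ρ ⋆[ContinuousLinearMap.lsmul ℝ ℝ, volume] g) x - g x) 2
      volume ^ 2 ≤ ε ^ 2 := by
    rw [hsq]
    calc ∫⁻ x, ‖(ρ ⋆[ContinuousLinearMap.lsmul ℝ ℝ, volume] g) x - g x‖ₑ ^ 2
        ≤ ∫⁻ x, ∫⁻ t, ‖ρ t‖ₑ * ‖g (x - t) - g x‖ₑ ^ 2 := by
          refine lintegral_mono_ae ?_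
          filter_upwards [hmt] with x hx
          exact (pow_le_pow_left' (hpt x) 2).trans (moll_cs hρc.measurable.enorm hx hρe)
      _ = ∫⁻ t, ∫⁻ x, ‖ρ t‖ₑ * ‖g (x - t) - g x‖ₑ ^ 2 := lintegral_lintegral_swap hm2
      _ ≤ ∫⁻ t, ‖ρ t‖ₑ * ε ^ 2 := by
          refine lintegral_mono fun t => ?_
          simp only
          rw [lintegral_const_mul' _ _ enorm_ne_top, ← hsq (fun x => g (x - t) - g x)]
          by_cases ht : ρ t = 0
          · simp [ht]
          · gcongr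
            exact h t ht
      _ = ε ^ 2 := by
          rw [lintegral_mul_const _ hρc.measurable.enorm, hρe, one_mul]
  exact (ENNReal.pow_le_pow_left_iff (by norm_num)).1 main

/-- The mollification. -/
noncomputable def moll (ρ : (Fin n → ℂ) → ℝ) (g : (Fin n → ℂ) → ℂ) : (Fin n → ℂ) → ℂ :=
  ρ ⋆[ContinuousLinearMap.lsmul ℝ ℝ, volume] g

theorem moll_apply (ρ : (Fin n → ℂ) → ℝ) (g : (Fin n → ℂ) → ℂ) (x : Fin n → ℂ) :
    moll ρ g x = ∫ t, (ρ (x - t) : ℂ) * g t := by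
  rw [moll, convolution_lsmul_swap]
  refine integral_congr_ae (ae_of_all _ fun t => ?_)
  simp

theorem moll_fderiv {ρ : (Fin n → ℂ) → ℝ} (hρc : ContDiff ℝ 2 ρ)
    (hρs : HasCompactSupport ρ) {g : (Fin n → ℂ) → ℂ} (hg : LocallyIntegrable g volume)
    (x v : Fin n → ℂ) :
    fderiv ℝ (moll ρ g) x v = ∫ t, (fderiv ℝ ρ (x - t) v : ℂ) * g t := by
  have h1 : moll ρ g = g ⋆[(ContinuousLinearMap.lsmul ℝ ℝ).flip, volume] ρ :=
    (convolution_flip _).symm
  have h2 := (hρs.hasFDerivAt_convolution_right (ContinuousLinearMap.lsmul ℝ ℝ).flip hg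
    (hρc.of_le (by norm_num)) x).fderiv
  rw [h1, h2, convolution_precompR_apply _ hg (hρs.fderiv ℝ)
    (hρc.continuous_fderiv (by norm_num))]
  refine integral_congr_ae (ae_of_all _ fun t => ?_)
  simp

theorem moll_integrable {ρ : (Fin n → ℂ) → ℝ} (hρc : Continuous ρ)
    (hρs : HasCompactSupport ρ) {g : (Fin n → ℂ) → ℂ} (hg : LocallyIntegrable g volume)
    (x : Fin n → ℂ) : Integrable (fun t => (ρ (x - t) : ℂ) * g t) volume := by
  have := hρs.convolutionExists_right (ContinuousLinearMap.lsmul ℝ ℝ).flip hg hρc x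
  refine Integrable.congr this (ae_of_all _ fun t => ?_)
  simp

theorem moll_refl {ρ : (Fin n → ℂ) → ℝ} (hρc : ContDiff ℝ 2 ρ) (x t v : Fin n → ℂ) :
    fderiv ℝ (fun s => (ρ (x - s) : ℂ)) t v = - (fderiv ℝ ρ (x - t) v : ℂ) := by
  have h1 : HasFDerivAt (fun s : Fin n → ℂ => x - s)
      (-(ContinuousLinearMap.id ℝ (Fin n → ℂ))) t := by
    simpa using (hasFDerivAt_const x t).sub (hasFDerivAt_id (𝕜 := ℝ) t)
  have h2 : HasFDerivAt ρ (fderiv ℝ ρ (x - t)) (x - t) :=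
    ((hρc.differentiable (by norm_num)) _).hasFDerivAt
  have h3 := (Complex.ofRealCLM.hasFDerivAt (x := ρ (x - t))).comp t (h2.comp t h1)
  have h4 : fderiv ℝ (fun s => (ρ (x - s) : ℂ)) t = _ := h3.fderiv
  rw [h4]
  simp

theorem moll_dz {ρ : (Fin n → ℂ) → ℝ} (hρc : ContDiff ℝ 2 ρ)
    (hρs : HasCompactSupport ρ) {g : (Fin n → ℂ) → ℂ} (hg : LocallyIntegrable g volume)
    (x : Fin n → ℂ) (j : Fin n) :
    dz j (moll ρ g) x = - ∫ t, g t * dz j (fun s => (ρ (x - s) : ℂ)) t := by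
  have hi : ∀ v : Fin n → ℂ, Integrable (fun t => (fderiv ℝ ρ (x - t) v : ℂ) * g t) volume :=
    fun v => moll_integrable (ρ := fun y => fderiv ℝ ρ y v)
      ((hρc.continuous_fderiv (by norm_num)).clm_apply continuous_const)
      (hρs.fderiv_apply (𝕜 := ℝ) v) hg x
  unfold dz
  simp_rw [moll_fderiv hρc hρs hg, moll_refl hρc]
  rw [← integral_const_mul, ← integral_sub (hi _) ((hi _).const_mul _), ← integral_neg,
    ← integral_div]
  refine integral_congr_ae (ae_of_all _ fun t => ?_)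
  simp only
  ring

theorem moll_dzb {ρ : (Fin n → ℂ) → ℝ} (hρc : ContDiff ℝ 2 ρ)
    (hρs : HasCompactSupport ρ) {g : (Fin n → ℂ) → ℂ} (hg : LocallyIntegrable g volume)
    (x : Fin n → ℂ) (j : Fin n) :
    dzb j (moll ρ g) x = - ∫ t, g t * dzb j (fun s => (ρ (x - s) : ℂ)) t := by
  have hi : ∀ v : Fin n → ℂ, Integrable (fun t => (fderiv ℝ ρ (x - t) v : ℂ) * g t) volume :=
    fun v => moll_integrable (ρ := fun y => fderiv ℝ ρ y v)
      ((hρc.continuous_fderiv (by norm_num)).clm_apply continuous_const)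
      (hρs.fderiv_apply (𝕜 := ℝ) v) hg x
  unfold dzb
  simp_rw [moll_fderiv hρc hρs hg, moll_refl hρc]
  rw [← integral_const_mul, ← integral_add (hi _) ((hi _).const_mul _), ← integral_neg,
    ← integral_div]
  refine integral_congr_ae (ae_of_all _ fun t => ?_)
  simp only
  ring

theorem moll_support {ρ : (Fin n → ℂ) → ℝ} {δ : ℝ} (hρ : ∀ t, ρ t ≠ 0 → ‖t‖ < δ)
    {g : (Fin n → ℂ) → ℂ} {C : Set (Fin n → ℂ)} (hg : ∀ z, z ∉ C → g z = 0)
    (x : Fin n → ℂ) (hx : x ∉ Metric.cthickening δ C) : moll ρ g x = 0 := by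
  rw [moll_apply]
  rw [integral_eq_zero_of_ae]
  refine ae_of_all _ fun t => ?_
  simp only [Pi.zero_apply, mul_eq_zero, Complex.ofReal_eq_zero]
  by_contra h
  push Not at h
  have h1 := hρ _ h.1
  have h2 : t ∈ C := by
    by_contra h3
    exact h.2 (hg t h3)
  refine hx (Metric.mem_cthickening_of_dist_le x t δ C h2 ?_)
  rw [dist_eq_norm]
  exact h1.le

/-- Simultaneous mollification of finitely many compactly supported functions in `L²(ℂⁿ)`.
`f` is indexed by `ι`, `A t` and `B t` (`t ∈ T`) are the coefficients of the first order operators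
`∑ A t i j ∂_j f_i` and `∑ B t i j ∂̄_j f_i` for which `G t` resp. `H t` is the weak value. -/
theorem exists_mollification {ι T : Type} [Fintype ι] [Fintype T]
    (f : ι → (Fin n → ℂ) → ℂ) (hf : ∀ i, MemLp (f i) 2 volume)
    {C W : Set (Fin n → ℂ)} (hC : IsCompact C) (hW : IsOpen W) (hCW : C ⊆ W)
    (hfC : ∀ i, ∀ z, z ∉ C → f i z = 0)
    (A : T → ι → Fin n → ℂ) (B : T → ι → Fin n → ℂ) (G H : T → (Fin n → ℂ) → ℂ)
    (hG : ∀ t, MemLp (G t) 2 volume) (hH : ∀ t, MemLp (H t) 2 volume)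
    (hGw : ∀ t, ∀ κ : (Fin n → ℂ) → ℂ, ContDiff ℝ 2 κ → HasCompactSupport κ →
      ∑ i, ∑ j, A t i j * ∫ z, f i z * dz j κ z = - ∫ z, G t z * κ z)
    (hHw : ∀ t, ∀ κ : (Fin n → ℂ) → ℂ, ContDiff ℝ 2 κ → HasCompactSupport κ →
      ∑ i, ∑ j, B t i j * ∫ z, f i z * dzb j κ z = - ∫ z, H t z * κ z)
    {ε : ℝ≥0∞} (hε : ε ≠ 0) :
    ∃ F : ι → (Fin n → ℂ) → ℂ, (∀ i, ContDiff ℝ 2 (F i)) ∧
      (∃ C' : Set (Fin n → ℂ), IsCompact C' ∧ C' ⊆ W ∧ ∀ i, ∀ z, z ∉ C' → F i z = 0) ∧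
      (∀ i, eLpNorm (fun z => F i z - f i z) 2 volume ≤ ε) ∧
      (∀ t, eLpNorm (fun z => ∑ i, ∑ j, A t i j * dz j (F i) z - G t z) 2 volume ≤ ε) ∧
      ∀ t, eLpNorm (fun z => ∑ i, ∑ j, B t i j * dzb j (F i) z - H t z) 2 volume ≤ ε := by
  classical
  obtain ⟨δ₀, hδ₀, hδW⟩ := hC.exists_cthickening_subset_open hW hCW
  choose d1 hd1 hd1' using fun i => moll_translate (hf i) hε
  choose d2 hd2 hd2' using fun t => moll_translate (hG t) hε
  choose d3 hd3 hd3' using fun t => moll_translate (hH t) hε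
  obtain ⟨δ, hδ, hδ0, hδ1, hδ2, hδ3⟩ : ∃ δ > 0, δ ≤ δ₀ ∧ (∀ i, δ ≤ d1 i) ∧ (∀ t, δ ≤ d2 t) ∧
      ∀ t, δ ≤ d3 t := by
    have ev : ∀ᶠ δ : ℝ in 𝓝[>] 0, 0 < δ ∧ δ ≤ δ₀ ∧ (∀ i, δ ≤ d1 i) ∧ (∀ t, δ ≤ d2 t) ∧
        ∀ t, δ ≤ d3 t := by
      have hh : ∀ {c : ℝ}, 0 < c → ∀ᶠ δ : ℝ in 𝓝[>] 0, δ ≤ c := fun {c} hc =>
        (nhdsWithin_le_nhds : 𝓝[>] (0 : ℝ) ≤ 𝓝 0) (eventually_le_nhds hc)
      exact (eventually_mem_of_tendsto_nhdsWithin tendsto_id).and
        ((hh hδ₀).and ((eventually_all.2 fun i => hh (hd1 i)).and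
          ((eventually_all.2 fun t => hh (hd2 t)).and (eventually_all.2 fun t => hh (hd3 t)))))
    obtain ⟨δ, h⟩ := ev.exists
    exact ⟨δ, h.1, h.2⟩
  let φ : ContDiffBump (0 : Fin n → ℂ) := ⟨δ / 2, δ, by positivity, by linarith⟩
  let ρ : (Fin n → ℂ) → ℝ := φ.normed volume
  have hρc : ContDiff ℝ 2 ρ := φ.contDiff_normed (n := 2)
  have hρs : HasCompactSupport ρ := φ.hasCompactSupport_normed
  have hρ0 : ∀ t, 0 ≤ ρ t := φ.nonneg_normed
  have hρ1 : ∫ t, ρ t = 1 := φ.integral_normed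
  have hρδ : ∀ t, ρ t ≠ 0 → ‖t‖ < δ := by
    intro t ht
    have : t ∈ Function.support (φ.normed volume) := ht
    rw [φ.support_normed_eq] at this
    simpa using this
  have hκc : ∀ x : Fin n → ℂ, ContDiff ℝ 2 (fun s => (ρ (x - s) : ℂ)) := fun x =>
    Complex.ofRealCLM.contDiff.comp (hρc.comp (contDiff_const.sub contDiff_id))
  have hκs : ∀ x : Fin n → ℂ, HasCompactSupport (fun s => (ρ (x - s) : ℂ)) := by
    intro x
    have h1 : HasCompactSupport (fun s => ρ (x - s)) :=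
      hρs.comp_homeomorph (Homeomorph.subLeft x)
    exact h1.comp_left (g := fun r : ℝ => (r : ℂ)) (by simp)
  have hfl : ∀ i, LocallyIntegrable (f i) volume := fun i => (hf i).locallyIntegrable (by norm_num)
  refine ⟨fun i => moll ρ (f i), fun i => ?_, ⟨Metric.cthickening δ C, hC.cthickening, ?_, ?_⟩,
    fun i => ?_, fun t => ?_, fun t => ?_⟩
  · exact hρs.contDiff_convolution_left _ hρc (hfl i)
  · exact (Metric.cthickening_mono hδ0 C).trans hδW
  · exact fun i z hz => moll_support hρδ (hfC i) z hz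
  · exact moll_jensen hρc.continuous hρ0 hρs hρ1 (hf i) fun s hs =>
      hd1' i s ((hρδ s hs).trans_le (hδ1 i))
  · have e : ∀ z, ∑ i, ∑ j, A t i j * dz j (moll ρ (f i)) z = moll ρ (G t) z := by
      intro z
      simp_rw [moll_dz hρc hρs (hfl _), mul_neg, Finset.sum_neg_distrib]
      rw [hGw t _ (hκc z) (hκs z), neg_neg, moll_apply]
      simp_rw [mul_comm]
    simp_rw [e]
    exact moll_jensen hρc.continuous hρ0 hρs hρ1 (hG t) fun s hs =>
      hd2' t s ((hρδ s hs).trans_le (hδ2 t))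
  · have e : ∀ z, ∑ i, ∑ j, B t i j * dzb j (moll ρ (f i)) z = moll ρ (H t) z := by
      intro z
      simp_rw [moll_dzb hρc hρs (hfl _), mul_neg, Finset.sum_neg_distrib]
      rw [hHw t _ (hκc z) (hκs z), neg_neg, moll_apply]
      simp_rw [mul_comm]
    simp_rw [e]
    exact moll_jensen hρc.continuous hρ0 hρs hρ1 (hH t) fun s hs =>
      hd3' t s ((hρδ s hs).trans_le (hδ3 t))

end Vale.Agent.P300.L2
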