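import Vale.Agent.P300.H435.L2.Meas
import Vale.Agent.P300.H435.L2.Moll

set_option linter.all false


open MeasureTheory Filter Topology
open scoped ENNReal NNReal ComplexConjugate

namespace Vale.Agent.P300.L2

theorem hdc_cut {n : ℕ} {V C : Set (Fin n → ℂ)} (hV : IsOpen V) (hC : IsCompact C) (hCV : C ⊆ V) :
    ∃ (K : Set (Fin n → ℂ)) (χ : (Fin n → ℂ) → ℂ), IsCompact K ∧ C ⊆ interior K ∧ K ⊆ V ∧
      ContDiff ℝ 2 χ ∧ (∀ᶠ z in 𝓝ˢ C, χ z = 1) ∧ ∀ z ∉ K, χ z = 0 := by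
  obtain ⟨K, hK, hCK, hKV⟩ := exists_compact_between hC hV hCV
  obtain ⟨χ, h1, h0, -⟩ := exists_contMDiffMap_one_nhds_of_subset_interior
    (modelWithCornersSelf ℝ (Fin n → ℂ)) (n := 2) hC.isClosed hCK
  have hχ : ContDiff ℝ 2 χ := χ.contMDiff.contDiff
  refine ⟨K, fun z => (χ z : ℂ), hK, hCK, hKV, Complex.ofRealCLM.contDiff.comp hχ, ?_, ?_⟩
  · filter_upwards [h1] with z hz
    simp [hz]
  · intro z hz
    simp [h0 z hz]

theorem hdc_eLpNorm_sq {α : Type*} [MeasurableSpace α] (f : α → ℂ) (μ : Measure α) :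
    eLpNorm f 2 μ ^ 2 = ∫⁻ x, ENNReal.ofReal (‖f x‖ ^ 2) ∂μ := by
  have h := eLpNorm_nnreal_pow_eq_lintegral (f := f) (μ := μ) (p := 2) (by norm_num)
  have h2 : ((2 : ℝ≥0) : ℝ≥0∞) = 2 := by norm_num
  have h3 : (((2 : ℝ≥0) : ℝ)) = ((2 : ℕ) : ℝ) := by norm_num
  rw [h2, h3] at h
  simp only [ENNReal.rpow_natCast] at h
  rw [h]
  refine lintegral_congr fun x => ?_
  rw [← ofReal_norm, ENNReal.ofReal_pow (norm_nonneg _)]

theorem hdc_eps {L ε : ℝ≥0∞} (hL : L ≠ ⊤) (hε : ε ≠ 0) :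
    ∃ δ : ℝ≥0∞, δ ≠ 0 ∧ L * δ ^ 2 ≤ ε := by
  have hL1 : L + 1 ≠ ⊤ := ENNReal.add_ne_top.2 ⟨hL, ENNReal.one_ne_top⟩
  refine ⟨min 1 (ε / (L + 1)), ?_, ?_⟩
  · have h1 : 0 < ε / (L + 1) := pos_iff_ne_zero.2 (ENNReal.div_ne_zero.2 ⟨hε, hL1⟩)
    exact (lt_min one_pos h1).ne'
  · set δ := min 1 (ε / (L + 1))
    have h1 : δ ≤ 1 := min_le_left _ _
    have h2 : δ ≤ ε / (L + 1) := min_le_right _ _
    calc L * δ ^ 2 ≤ L * δ := by
          gcongr
          calc δ ^ 2 = δ * δ := sq δ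
            _ ≤ δ * 1 := by gcongr
            _ = δ := mul_one _
      _ ≤ (L + 1) * (ε / (L + 1)) := by
          gcongr
          exact le_self_add
      _ ≤ ε := ENNReal.mul_div_le

namespace Sheets

variable {n N : ℕ} {S : Sheets n N}

/-- Dual families of holomorphic functions on `M` (they exist for trivial covers). -/
structure Dual (S : Sheets n N) (e c : Fin N → (Fin n → ℂ) × ℕ → ℂ) : Prop where
  he : ∀ i, S.Holo (e i)
  hc : ∀ i, S.Holo (c i)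
  hd : ∀ z ∈ S.V, ∀ w ∈ S.fib z, ∀ w' ∈ S.fib z,
      ∑ i : Fin N, c i (z, w') * e i (z, w) = if w = w' then 1 else 0

theorem hdc_meas_fst {K : Set (Fin n → ℂ)} (hK : IsCompact K) :
    MeasurableSet {q : (Fin n → ℂ) × ℕ | q.1 ∈ K} :=
  measurable_fst hK.measurableSet

theorem hdc_integrable {X Y : (Fin n → ℂ) × ℕ → ℂ} (hX : MemLp X 2 S.μ) (hY : S.CD 0 Y)
    {K : Set (Fin n → ℂ)} (hK : IsCompact K) (hKV : K ⊆ S.V)
    (hXK : ∀ q : (Fin n → ℂ) × ℕ, q.1 ∉ K → X q = 0) :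
    Integrable (fun q => X q * Y q) S.μ := by
  obtain ⟨B, hB⟩ := exists_bound hY hK hKV
  have hfin : IsFiniteMeasure (S.μ.restrict {q | q.1 ∈ K}) :=
    ⟨by rw [Measure.restrict_apply_univ]; exact μ_lt_top hK hKV⟩
  have h1 : MemLp Y 2 (S.μ.restrict {q | q.1 ∈ K}) := by
    refine MemLp.of_bound (aestronglyMeasurable_of_CD hY).restrict B ?_
    filter_upwards [ae_restrict_of_ae (ae_mem_M (S := S)),
      ae_restrict_mem (hdc_meas_fst hK)] with q hq1 hq2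
    exact hB q hq1 hq2
  have h2 : MemLp ({q : (Fin n → ℂ) × ℕ | q.1 ∈ K}.indicator Y) 2 S.μ :=
    (memLp_indicator_iff_restrict (hdc_meas_fst hK)).2 h1
  have h3 := hX.integrable_mul h2
  refine h3.congr (Eventually.of_forall fun q => ?_)
  by_cases hq : q.1 ∈ K
  · simp [Set.indicator, hq]
  · simp [hXK q hq]

theorem hdc_fsum_zero {X : (Fin n → ℂ) × ℕ → ℂ} {K : Set (Fin n → ℂ)}
    (hXK : ∀ q : (Fin n → ℂ) × ℕ, q.1 ∉ K → X q = 0) {z : Fin n → ℂ} (hz : z ∉ K) :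
    S.fsum X z = 0 := by
  unfold fsum
  exact Finset.sum_eq_zero fun w _ => hXK (z, w) hz

theorem hdc_fsum_meas {X : (Fin n → ℂ) × ℕ → ℂ} (hX : Integrable X S.μ) {K : Set (Fin n → ℂ)}
    (hKV : K ⊆ S.V) (hXK : ∀ q : (Fin n → ℂ) × ℕ, q.1 ∉ K → X q = 0) :
    Integrable (S.fsum X) volume := by
  have h1 := integrable_fsum hX
  rw [← integrableOn_univ]
  refine h1.of_forall_sdiff_eq_zero MeasurableSet.univ fun z hz => ?_
  exact hdc_fsum_zero hXK fun h => hz.2 (hKV h)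

theorem hdc_fsum_memLp {X Y : (Fin n → ℂ) × ℕ → ℂ} (hX : MemLp X 2 S.μ) (hY : S.CD 0 Y)
    {K : Set (Fin n → ℂ)} (hK : IsCompact K) (hKV : K ⊆ S.V)
    (hXK : ∀ q : (Fin n → ℂ) × ℕ, q.1 ∉ K → X q = 0) :
    MemLp (S.fsum fun q => X q * Y q) 2 volume := by
  obtain ⟨B, hB⟩ := exists_bound hY hK hKV
  have hint := hdc_integrable hX hY hK hKV hXK
  have hZK : ∀ q : (Fin n → ℂ) × ℕ, q.1 ∉ K → (fun q => X q * Y q) q = 0 := by
    intro q hq
    simp [hXK q hq]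
  have hm := (hdc_fsum_meas hint hKV hZK).aestronglyMeasurable
  refine ⟨hm, ?_⟩
  have hX2 : ∫⁻ q, ENNReal.ofReal (‖X q‖ ^ 2) ∂S.μ < ⊤ := by
    rw [← hdc_eLpNorm_sq]
    exact ENNReal.pow_lt_top hX.2
  have hmX : AEMeasurable (fun q => ENNReal.ofReal (‖X q‖ ^ 2)) S.μ :=
    (hX.1.norm.aemeasurable.pow_const 2).ennreal_ofReal
  have key : ∫⁻ z, ENNReal.ofReal (‖S.fsum (fun q => X q * Y q) z‖ ^ 2) < ⊤ := by
    have h0 : ∀ z, z ∉ S.V → ENNReal.ofReal (‖S.fsum (fun q => X q * Y q) z‖ ^ 2) = 0 := by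
      intro z hz
      rw [hdc_fsum_zero hZK fun h => hz (hKV h)]
      simp
    have h1 : ∫⁻ z, ENNReal.ofReal (‖S.fsum (fun q => X q * Y q) z‖ ^ 2) =
        ∫⁻ z in S.V, ENNReal.ofReal (‖S.fsum (fun q => X q * Y q) z‖ ^ 2) := by
      rw [← lintegral_indicator S.isOpen.measurableSet]
      refine lintegral_congr fun z => ?_
      by_cases hz : z ∈ S.V
      · simp [Set.indicator, hz]
      · rw [Set.indicator_of_notMem hz, h0 z hz]
    rw [h1]
    refine lt_of_le_of_lt (b := ∫⁻ z in S.V, ENNReal.ofReal (N * B ^ 2) *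
      ∑ w ∈ S.fib z, ENNReal.ofReal (‖X (z, w)‖ ^ 2)) ?_ ?_
    · refine setLIntegral_mono' S.isOpen.measurableSet fun z hz => ?_
      rw [← ENNReal.ofReal_sum_of_nonneg (fun w _ => by positivity),
        ← ENNReal.ofReal_mul (by positivity)]
      refine ENNReal.ofReal_le_ofReal ?_
      have h2 : ‖S.fsum (fun q => X q * Y q) z‖ ≤ ∑ w ∈ S.fib z, ‖X (z, w)‖ * ‖Y (z, w)‖ := by
        unfold fsum
        refine (norm_sum_le _ _).trans (le_of_eq ?_)
        exact Finset.sum_congr rfl fun w _ => norm_mul _ _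
      have h3 : (∑ w ∈ S.fib z, ‖X (z, w)‖ * ‖Y (z, w)‖) ^ 2 ≤
          (∑ w ∈ S.fib z, ‖X (z, w)‖ ^ 2) * ∑ w ∈ S.fib z, ‖Y (z, w)‖ ^ 2 :=
        Finset.sum_mul_sq_le_sq_mul_sq _ _ _
      by_cases hzK : z ∈ K
      · have h4 : ∑ w ∈ S.fib z, ‖Y (z, w)‖ ^ 2 ≤ N * B ^ 2 := by
          calc ∑ w ∈ S.fib z, ‖Y (z, w)‖ ^ 2 ≤ ∑ w ∈ S.fib z, B ^ 2 := by
                refine Finset.sum_le_sum fun w hw => ?_
                exact pow_le_pow_left₀ (norm_nonneg _) (hB (z, w) ⟨hz, hw⟩ hzK) 2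
            _ = N * B ^ 2 := by rw [Finset.sum_const, card_fib hz, nsmul_eq_mul]
        calc ‖S.fsum (fun q => X q * Y q) z‖ ^ 2 ≤ _ := pow_le_pow_left₀ (norm_nonneg _) h2 2
          _ ≤ _ := h3
          _ ≤ (∑ w ∈ S.fib z, ‖X (z, w)‖ ^ 2) * (N * B ^ 2) := by gcongr
          _ = _ := mul_comm _ _
      · rw [hdc_fsum_zero hZK hzK, norm_zero, zero_pow two_ne_zero]
        (clear * -; positivity)
    · rw [lintegral_const_mul' _ _ ENNReal.ofReal_ne_top, ← lintegral_μ' hmX]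
      exact ENNReal.mul_lt_top ENNReal.ofReal_lt_top hX2
  rw [← hdc_eLpNorm_sq] at key
  by_contra hcon
  rw [not_lt, top_le_iff] at hcon
  rw [hcon] at key
  simp at key

theorem hdc_est {m : Type} [Fintype m] {X : (Fin n → ℂ) × ℕ → ℂ}
    (hX : AEStronglyMeasurable X S.μ) {K : Set (Fin n → ℂ)} {B : ℝ}
    {R : m → (Fin n → ℂ) → ℂ} {Y : m → (Fin n → ℂ) × ℕ → ℂ}
    (hR : ∀ i, AEStronglyMeasurable (R i) volume)
    (hB : ∀ i, ∀ q ∈ S.M, q.1 ∈ K → ‖Y i q‖ ≤ B)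
    (h0 : ∀ q ∈ S.M, q.1 ∉ K → X q = 0)
    (h1 : ∀ q ∈ S.M, q.1 ∈ K → X q = ∑ i, R i q.1 * Y i q) {δ : ℝ≥0∞}
    (hδ : ∀ i, eLpNorm (R i) 2 volume ≤ δ) :
    ∫⁻ q, ENNReal.ofReal (‖X q‖ ^ 2) ∂S.μ ≤
      (ENNReal.ofReal (N * (Fintype.card m * B ^ 2)) * Fintype.card m) * δ ^ 2 := by
  have hmX : AEMeasurable (fun q => ENNReal.ofReal (‖X q‖ ^ 2)) S.μ :=
    (hX.norm.aemeasurable.pow_const 2).ennreal_ofReal
  rw [lintegral_μ' hmX]
  calc ∫⁻ z in S.V, ∑ w ∈ S.fib z, ENNReal.ofReal (‖X (z, w)‖ ^ 2)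
      ≤ ∫⁻ z in S.V, ENNReal.ofReal (N * (Fintype.card m * B ^ 2)) *
          ∑ i, ENNReal.ofReal (‖R i z‖ ^ 2) := by
        refine setLIntegral_mono' S.isOpen.measurableSet fun z hz => ?_
        have hpt : ∀ w ∈ S.fib z, ENNReal.ofReal (‖X (z, w)‖ ^ 2) ≤
            ENNReal.ofReal (Fintype.card m * B ^ 2) * ∑ i, ENNReal.ofReal (‖R i z‖ ^ 2) := by
          intro w hw
          rw [← ENNReal.ofReal_sum_of_nonneg (fun w _ => by positivity),
            ← ENNReal.ofReal_mul (by (clear * -; positivity))]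
          refine ENNReal.ofReal_le_ofReal ?_
          by_cases hzK : z ∈ K
          · rw [h1 (z, w) ⟨hz, hw⟩ hzK]
            have h2 : ‖∑ i, R i z * Y i (z, w)‖ ≤ ∑ i, ‖R i z‖ * ‖Y i (z, w)‖ := by
              refine (norm_sum_le _ _).trans (le_of_eq ?_)
              exact Finset.sum_congr rfl fun w _ => norm_mul _ _
            have h3 : (∑ i, ‖R i z‖ * ‖Y i (z, w)‖) ^ 2 ≤
                (∑ i, ‖R i z‖ ^ 2) * ∑ i, ‖Y i (z, w)‖ ^ 2 :=
              Finset.sum_mul_sq_le_sq_mul_sq _ _ _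
            have h4 : ∑ i, ‖Y i (z, w)‖ ^ 2 ≤ Fintype.card m * B ^ 2 := by
              calc ∑ i, ‖Y i (z, w)‖ ^ 2 ≤ ∑ _i : m, B ^ 2 := by
                    refine Finset.sum_le_sum fun i _ => ?_
                    exact pow_le_pow_left₀ (norm_nonneg _) (hB i (z, w) ⟨hz, hw⟩ hzK) 2
                _ = Fintype.card m * B ^ 2 := by
                    rw [Finset.sum_const, nsmul_eq_mul, Finset.card_univ]
            calc ‖∑ i, R i z * Y i (z, w)‖ ^ 2 ≤ _ := pow_le_pow_left₀ (norm_nonneg _) h2 2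
              _ ≤ _ := h3
              _ ≤ (∑ i, ‖R i z‖ ^ 2) * (Fintype.card m * B ^ 2) := by gcongr
              _ = _ := mul_comm _ _
          · rw [h0 (z, w) ⟨hz, hw⟩ hzK, norm_zero, zero_pow two_ne_zero]
            (clear * -; positivity)
        calc ∑ w ∈ S.fib z, ENNReal.ofReal (‖X (z, w)‖ ^ 2)
            ≤ ∑ w ∈ S.fib z, ENNReal.ofReal (Fintype.card m * B ^ 2) *
              ∑ i, ENNReal.ofReal (‖R i z‖ ^ 2) := Finset.sum_le_sum hpt
          _ = _ := by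
              rw [Finset.sum_const, card_fib hz, nsmul_eq_mul, ← mul_assoc,
                ENNReal.ofReal_mul (Nat.cast_nonneg N), ENNReal.ofReal_natCast]
    _ ≤ ENNReal.ofReal (N * (Fintype.card m * B ^ 2)) * ∑ _i : m, δ ^ 2 := by
        rw [lintegral_const_mul' _ _ ENNReal.ofReal_ne_top]
        gcongr
        calc ∫⁻ z in S.V, ∑ i, ENNReal.ofReal (‖R i z‖ ^ 2)
            ≤ ∫⁻ z, ∑ i, ENNReal.ofReal (‖R i z‖ ^ 2) := setLIntegral_le_lintegral _ _
          _ = ∑ i, ∫⁻ z, ENNReal.ofReal (‖R i z‖ ^ 2) := by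
              rw [lintegral_finsetSum']
              exact fun i _ => ((hR i).norm.aemeasurable.pow_const 2).ennreal_ofReal
          _ ≤ ∑ _i : m, δ ^ 2 := by
              refine Finset.sum_le_sum fun i _ => ?_
              rw [← hdc_eLpNorm_sq]
              exact pow_le_pow_left' (hδ i) 2
    _ = _ := by
        rw [Finset.sum_const, nsmul_eq_mul, Finset.card_univ, mul_assoc]

/-- Reconstruction from the moments. -/
theorem hdc_recon {e c : Fin N → (Fin n → ℂ) × ℕ → ℂ} (hdu : S.Dual e c)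
    (X : (Fin n → ℂ) × ℕ → ℂ) {q : (Fin n → ℂ) × ℕ} (hq : q ∈ S.M) :
    X q = ∑ i : Fin N, S.fsum (fun q => X q * c i q) q.1 * e i q := by
  have hd := hdu.hd
  obtain ⟨z, w⟩ := q
  obtain ⟨hz, hw⟩ := hq
  simp only at hz hw ⊢
  unfold fsum
  simp only [Finset.sum_mul]
  rw [Finset.sum_comm]
  have h1 : ∀ w' ∈ S.fib z, ∑ i : Fin N, X (z, w') * c i (z, w') * e i (z, w) =
      if w = w' then X (z, w') else 0 := by
    intro w' hw'
    have h2 := hd z hz w hw w' hw'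
    calc ∑ i : Fin N, X (z, w') * c i (z, w') * e i (z, w)
        = X (z, w') * ∑ i : Fin N, c i (z, w') * e i (z, w) := by
          rw [Finset.mul_sum]
          exact Finset.sum_congr rfl fun i _ => mul_assoc _ _ _
      _ = _ := by rw [h2]; split_ifs <;> simp
  rw [Finset.sum_congr rfl h1, Finset.sum_ite_eq, if_pos hw]

/-- The derivative of the duality relation. -/
theorem hdc_delta {e c : Fin N → (Fin n → ℂ) × ℕ → ℂ} (hdu : S.Dual e c)
    {z : Fin n → ℂ} {w w' : ℕ} (hz : z ∈ S.V) (hw : w ∈ S.fib z) (hw' : w' ∈ S.fib z) (j : Fin n) :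
    ∑ i : Fin N, (S.D j (c i) (z, w') * e i (z, w) +
      c i (z, w') * S.D j (e i) (z, w)) = 0 := by
  have hc := hdu.hc
  have hd := hdu.hd
  obtain ⟨σ, W, hσ, hzW, hσz⟩ := exists_section (S := S) (q := (z, w)) ⟨hz, hw⟩
  obtain ⟨σ', W', hσ', hzW', hσz'⟩ := exists_section (S := S) (q := (z, w')) ⟨hz, hw'⟩
  simp only at hzW hσz hzW' hσz'
  subst hσz hσz'
  have hd1 : ∀ i : Fin N, DifferentiableAt ℝ (fun ζ => c i (ζ, σ' ζ)) z := fun i =>
    ((hc i W' σ' hσ').differentiableAt (hσ'.isOpen.mem_nhds hzW')).restrictScalars ℝ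
  have hd2 : ∀ i : Fin N, DifferentiableAt ℝ (fun ζ => e i (ζ, σ ζ)) z := fun i =>
    ((hdu.he i W σ hσ).differentiableAt (hσ.isOpen.mem_nhds hzW)).restrictScalars ℝ
  have h1 : ∀ i : Fin N, S.D j (c i) (z, σ' z) * e i (z, σ z) +
      c i (z, σ' z) * S.D j (e i) (z, σ z) =
      dz j (fun ζ => c i (ζ, σ' ζ) * e i (ζ, σ ζ)) z := by
    intro i
    rw [dz_mul (hd1 i) (hd2 i), D_apply hσ' hzW', D_apply hσ hzW]
  have hd3 : ∀ i ∈ (Finset.univ : Finset (Fin N)),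
      DifferentiableAt ℝ (fun ζ => c i (ζ, σ' ζ) * e i (ζ, σ ζ)) z :=
    fun i _ => (hd1 i).mul (hd2 i)
  rw [Finset.sum_congr rfl fun i _ => h1 i, ← dz_sum Finset.univ hd3]
  by_cases hww : σ z = σ' z
  · have hg := hσ.germ hσ' hzW hzW' hww
    rw [dz_congr (g := fun _ => 1) ?_, dz_const]
    filter_upwards [hg, hσ.isOpen.mem_nhds hzW, hσ'.isOpen.mem_nhds hzW'] with ζ h1 h2 h3
    rw [hd ζ (hσ.subset h2) _ (hσ.mem ζ h2) _ (hσ'.mem ζ h3), if_pos h1]
  · have hne : ∀ᶠ ζ in 𝓝 z, σ ζ ≠ σ' ζ := hσ.germ_ne hσ' hzW hzW' hww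
    rw [dz_congr (g := fun _ => 0) ?_, dz_const]
    filter_upwards [hne, hσ.isOpen.mem_nhds hzW, hσ'.isOpen.mem_nhds hzW'] with ζ h1 h2 h3
    rw [hd ζ (hσ.subset h2) _ (hσ.mem ζ h2) _ (hσ'.mem ζ h3), if_neg h1]

/-- Integration over the fibers against a function of `z`. -/
theorem hdc_int {X Y : (Fin n → ℂ) × ℕ → ℂ} (hX : MemLp X 2 S.μ) (hY : S.CD 0 Y)
    {K : Set (Fin n → ℂ)} (hK : IsCompact K) (hKV : K ⊆ S.V)
    (hXK : ∀ q : (Fin n → ℂ) × ℕ, q.1 ∉ K → X q = 0) {φ : (Fin n → ℂ) → ℂ}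
    (hφ : ContinuousOn φ S.V) :
    Integrable (fun q => X q * Y q * φ q.1) S.μ ∧
    Integrable (fun z => S.fsum (fun q => X q * Y q) z * φ z) volume ∧
    ∫ q, X q * Y q * φ q.1 ∂S.μ = ∫ z, S.fsum (fun q => X q * Y q) z * φ z := by
  have hφ' : S.CD 0 (fun q => φ q.1) := CD.fst (by
    rw [Nat.cast_zero, contDiffOn_zero]
    exact hφ)
  have h1 : Integrable (fun q => X q * Y q * φ q.1) S.μ := by
    have := hdc_integrable hX (hY.mul hφ') hK hKV hXK
    simpa only [mul_assoc] using this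
  have hZK : ∀ q : (Fin n → ℂ) × ℕ, q.1 ∉ K → (fun q => X q * Y q * φ q.1) q = 0 := by
    intro q hq
    simp [hXK q hq]
  have h2 := hdc_fsum_meas h1 hKV hZK
  have h3 : S.fsum (fun q => X q * Y q * φ q.1) =
      fun z => S.fsum (fun q => X q * Y q) z * φ z := by
    funext z
    unfold fsum
    rw [Finset.sum_mul]
  refine ⟨h1, h3 ▸ h2, ?_⟩
  rw [integral_μ h1, ← h3]
  refine setIntegral_eq_integral_of_forall_compl_eq_zero fun z hz => ?_
  exact hdc_fsum_zero hZK fun h => hz (hKV h)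

/-- A function which is orthogonal to all test functions supported off `C` vanishes off `C`. -/
theorem hdc_vanish {e c : Fin N → (Fin n → ℂ) × ℕ → ℂ} (hdu : S.Dual e c)
    {X : (Fin n → ℂ) × ℕ → ℂ} (hX : MemLp X 2 S.μ) {C : Set (Fin n → ℂ)}
    (hC : IsClosed C)
    (h : ∀ (φ : (Fin n → ℂ) → ℂ) (Y : (Fin n → ℂ) × ℕ → ℂ), ContDiff ℝ 2 φ →
      HasCompactSupport φ → tsupport φ ⊆ S.V → Disjoint (tsupport φ) C → S.Holo Y →
      ∫ q, X q * (Y q * φ q.1) ∂S.μ = 0) :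
    ∀ᵐ q ∂S.μ, q.1 ∉ C → X q = 0 := by
  have hc := hdu.hc
  have hU : IsOpen (S.V \ C) := S.isOpen.sdiff hC
  have key : ∀ i, ∀ᵐ z, z ∈ S.V \ C → S.fsum (fun q => X q * c i q) z = 0 := by
    intro i
    refine hU.ae_eq_zero_of_integral_contDiff_smul_eq_zero ?_ ?_
    · rw [locallyIntegrableOn_iff hU.isLocallyClosed]
      intro K hK1 hK
      have hKV : K ⊆ S.V := hK1.trans Set.sdiff_subset
      set X' : (Fin n → ℂ) × ℕ → ℂ := {q : (Fin n → ℂ) × ℕ | q.1 ∈ K}.indicator X with hX'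
      have hX'K : ∀ q : (Fin n → ℂ) × ℕ, q.1 ∉ K → X' q = 0 := fun q hq =>
        Set.indicator_of_notMem (by exact hq) _
      have hX'm : MemLp X' 2 S.μ := hX.indicator (hdc_meas_fst hK)
      have h1 := (hdc_int hX'm ((hc i).CD 0) hK hKV hX'K (φ := fun _ => 1)
        continuousOn_const).2.1
      simp only [mul_one] at h1
      refine (h1.integrableOn (s := K)).congr_fun (fun z hz => ?_) hK.measurableSet
      have hXe : ∀ w, X' (z, w) = X (z, w) := fun w => Set.indicator_of_mem (by exact hz) _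
      unfold fsum
      refine Finset.sum_congr rfl fun w _ => ?_
      simp only [hXe]
    · intro φ hφ hφc hφU
      have hφ2 : ContDiff ℝ 2 (fun z => (φ z : ℂ)) :=
        Complex.ofRealCLM.contDiff.comp (by exact_mod_cast contDiff_infty.1 hφ 2)
      have hsupp : tsupport (fun z => (φ z : ℂ)) ⊆ tsupport φ := by
        refine closure_mono fun z hz hz0 => hz ?_
        simp [hz0]
      have hcs : HasCompactSupport (fun z => (φ z : ℂ)) :=
        hφc.of_isClosed_subset (isClosed_tsupport _) hsupp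
      have h1 := h (fun z => (φ z : ℂ)) (c i) hφ2 hcs ((hsupp.trans hφU).trans Set.sdiff_subset)
        (Set.disjoint_left.2 fun z hz hzC => (hφU (hsupp hz)).2 hzC) (hc i)
      set K := tsupport φ with hK
      have hKc : IsCompact K := hφc
      have hKV : K ⊆ S.V := hφU.trans Set.sdiff_subset
      set X' : (Fin n → ℂ) × ℕ → ℂ := {q : (Fin n → ℂ) × ℕ | q.1 ∈ K}.indicator X with hX'
      have hX'K : ∀ q : (Fin n → ℂ) × ℕ, q.1 ∉ K → X' q = 0 := fun q hq =>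
        Set.indicator_of_notMem (by exact hq) _
      have hX'm : MemLp X' 2 S.μ := hX.indicator (hdc_meas_fst hKc)
      have h2 := (hdc_int hX'm ((hc i).CD 0) hKc hKV hX'K (φ := fun z => (φ z : ℂ))
        hφ2.continuous.continuousOn).2.2
      have h3 : ∀ q : (Fin n → ℂ) × ℕ, X q * (c i q * (φ q.1 : ℂ)) =
          X' q * c i q * (φ q.1 : ℂ) := by
        intro q
        by_cases hq : q.1 ∈ K
        · rw [hX', Set.indicator_of_mem (by exact hq), mul_assoc]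
        · rw [image_eq_zero_of_notMem_tsupport hq]
          simp
      simp only [h3] at h1
      rw [h1] at h2
      rw [h2]
      refine integral_congr_ae (Eventually.of_forall fun z => ?_)
      simp only [Complex.real_smul]
      by_cases hz : z ∈ K
      · have hXe : ∀ w, X' (z, w) = X (z, w) := fun w => Set.indicator_of_mem (by exact hz) _
        have : S.fsum (fun q => X' q * c i q) z = S.fsum (fun q => X q * c i q) z := by
          unfold fsum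
          refine Finset.sum_congr rfl fun w _ => ?_
          simp only [hXe]
        rw [this, mul_comm]
      · rw [image_eq_zero_of_notMem_tsupport hz]
        simp
  rw [ae_μ_iff]
  filter_upwards [ae_restrict_of_ae (ae_all_iff.2 key), ae_restrict_mem S.isOpen.measurableSet]
    with z hz hzV w hw hzC
  rw [hdc_recon hdu X (q := (z, w)) ⟨hzV, hw⟩]
  refine Finset.sum_eq_zero fun i _ => ?_
  simp only
  rw [hz i ⟨hzV, hzC⟩, zero_mul]

theorem hdc_isTest {φ : (Fin n → ℂ) → ℂ} {Y : (Fin n → ℂ) × ℕ → ℂ} (hφ : ContDiff ℝ 2 φ)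
    {K : Set (Fin n → ℂ)} (hK : IsCompact K) (hKV : K ⊆ S.V) (hφK : ∀ z ∉ K, φ z = 0)
    (hY : S.Holo Y) : S.IsTest (fun q => Y q * φ q.1) :=
  ⟨(hY.CD 2).mul (CD.fst (by exact_mod_cast hφ.contDiffOn)), K, hK, hKV,
    fun q hq => by simp [hφK q.1 hq]⟩

theorem hdc_D {φ : (Fin n → ℂ) → ℂ} {Y : (Fin n → ℂ) × ℕ → ℂ} (hφ : ContDiff ℝ 2 φ)
    (hY : S.Holo Y) {q : (Fin n → ℂ) × ℕ} (hq : q ∈ S.M) (j : Fin n) :
    S.D j (fun q => Y q * φ q.1) q = S.D j Y q * φ q.1 + Y q * dz j φ q.1 := by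
  have h1 : S.CD 1 (fun q => φ q.1) :=
    CD.fst (by exact_mod_cast (hφ.of_le one_le_two).contDiffOn)
  rw [D_mul (hY.CD 1) h1 hq, D_fst]

theorem hdc_Db {φ : (Fin n → ℂ) → ℂ} {Y : (Fin n → ℂ) × ℕ → ℂ} (hφ : ContDiff ℝ 2 φ)
    (hY : S.Holo Y) {q : (Fin n → ℂ) × ℕ} (hq : q ∈ S.M) (j : Fin n) :
    S.Db j (fun q => Y q * φ q.1) q = Y q * dzb j φ q.1 := by
  have h1 : S.CD 1 (fun q => φ q.1) :=
    CD.fst (by exact_mod_cast (hφ.of_le one_le_two).contDiffOn)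
  rw [Db_mul (hY.CD 1) h1 hq, Db_fst, hY.Db hq, zero_mul, zero_add]

theorem hdc_cont_dz {κ : (Fin n → ℂ) → ℂ} (hκ : ContDiff ℝ 2 κ) (j : Fin n) :
    Continuous (dz j κ) := by
  have h := contDiffOn_dz (j := j) isOpen_univ (m := 1) (f := κ) (by exact_mod_cast hκ.contDiffOn)
  exact continuousOn_univ.1 h.continuousOn

theorem hdc_cont_dzb {κ : (Fin n → ℂ) → ℂ} (hκ : ContDiff ℝ 2 κ) (j : Fin n) :
    Continuous (dzb j κ) := by
  have h := contDiffOn_dzb (j := j) isOpen_univ (m := 1) (f := κ) (by exact_mod_cast hκ.contDiffOn)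
  exact continuousOn_univ.1 h.continuousOn

/-- Weak equation for the moments, `∂`. -/
theorem hdc_weak_D {b : Fin n → (Fin n → ℂ) × ℕ → ℂ} {g : (Fin n → ℂ) × ℕ → ℂ}
    {C : Set (Fin n → ℂ)} (hC : IsCompact C)
    (hCV : C ⊆ S.V) (hbC : ∀ j, ∀ q : (Fin n → ℂ) × ℕ, q.1 ∉ C → b j q = 0)
    (hgC : ∀ q : (Fin n → ℂ) × ℕ, q.1 ∉ C → g q = 0)
    (hb : ∀ j, MemLp (b j) 2 S.μ) (hg : MemLp g 2 S.μ)
    (hgw : ∀ κ, S.IsTest κ → ∫ q, ∑ j, b j q * S.D j κ q ∂S.μ = - ∫ q, g q * κ q ∂S.μ)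
    {Y : (Fin n → ℂ) × ℕ → ℂ} (hY : S.Holo Y) {κ : (Fin n → ℂ) → ℂ} (hκ : ContDiff ℝ 2 κ) :
    ∑ j, ∫ z, S.fsum (fun q => b j q * Y q) z * dz j κ z =
      - ∫ z, (S.fsum (fun q => g q * Y q) z + ∑ j, S.fsum (fun q => b j q * S.D j Y q) z) *
        κ z := by
  obtain ⟨K, χ, hK, hCK, hKV, hχ, hχ1, hχ0⟩ := hdc_cut S.isOpen hC hCV
  have hφ : ContDiff ℝ 2 (fun z => χ z * κ z) := hχ.mul hκ
  have h1 := hgw _ (hdc_isTest hφ hK hKV (fun z hz => by simp [hχ0 z hz]) hY)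
  have hev : ∀ z ∈ C, (fun z => χ z * κ z) =ᶠ[𝓝 z] κ := by
    intro z hz
    filter_upwards [hχ1.filter_mono (nhds_le_nhdsSet hz)] with ζ hζ
    rw [hζ, one_mul]
  have hL : ∀ j, S.CD 0 (S.D j Y) := fun j => hY.D.CD 0
  have i1 := fun j => hdc_int (hb j) (hL j) hC hCV (hbC j) (φ := κ) hκ.continuous.continuousOn
  have i2 := fun j => hdc_int (hb j) (hY.CD 0) hC hCV (hbC j) (φ := dz j κ)
    (hdc_cont_dz hκ j).continuousOn
  have i3 := hdc_int hg (hY.CD 0) hC hCV hgC (φ := κ) hκ.continuous.continuousOn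
  have e1 : ∫ q, ∑ j, b j q * S.D j (fun q => Y q * (fun z => χ z * κ z) q.1) q ∂S.μ =
      ∫ q, ∑ j, (b j q * S.D j Y q * κ q.1 + b j q * Y q * dz j κ q.1) ∂S.μ := by
    refine integral_congr_ae ?_
    filter_upwards [ae_mem_M (S := S)] with q hq
    refine Finset.sum_congr rfl fun j _ => ?_
    rw [hdc_D hφ hY hq]
    by_cases hqC : q.1 ∈ C
    · have h2 : χ q.1 * κ q.1 = κ q.1 := (hev q.1 hqC).self_of_nhds
      rw [dz_congr (hev q.1 hqC)]
      simp only [h2]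
      ring
    · simp [hbC j q hqC]
  have e2 : ∫ q, g q * (fun q => Y q * (fun z => χ z * κ z) q.1) q ∂S.μ =
      ∫ q, g q * Y q * κ q.1 ∂S.μ := by
    refine integral_congr_ae (Eventually.of_forall fun q => ?_)
    simp only
    by_cases hqC : q.1 ∈ C
    · have := (hev q.1 hqC).self_of_nhds
      simp only at this
      rw [this]
      ring
    · simp [hgC q hqC]
  have e0 : ∀ j ∈ (Finset.univ : Finset (Fin n)),
      Integrable (fun q => b j q * S.D j Y q * κ q.1 + b j q * Y q * dz j κ q.1) S.μ :=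
    fun j _ => (i1 j).1.add (i2 j).1
  rw [e1, e2, integral_finsetSum _ e0] at h1
  have e3 : ∀ j, ∫ q, (b j q * S.D j Y q * κ q.1 + b j q * Y q * dz j κ q.1) ∂S.μ =
      (∫ z, S.fsum (fun q => b j q * S.D j Y q) z * κ z) +
        ∫ z, S.fsum (fun q => b j q * Y q) z * dz j κ z := by
    intro j
    rw [integral_add (i1 j).1 (i2 j).1, (i1 j).2.2, (i2 j).2.2]
  rw [Finset.sum_congr rfl fun j _ => e3 j, Finset.sum_add_distrib, i3.2.2] at h1
  have e4 : ∫ z, (S.fsum (fun q => g q * Y q) z + ∑ j, S.fsum (fun q => b j q * S.D j Y q) z) *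
        κ z = (∫ z, S.fsum (fun q => g q * Y q) z * κ z) +
        ∑ j, ∫ z, S.fsum (fun q => b j q * S.D j Y q) z * κ z := by
    simp only [add_mul, Finset.sum_mul]
    rw [integral_add i3.2.1 (integrable_finsetSum _ fun j _ => (i1 j).2.1),
      integral_finsetSum _ fun j _ => (i1 j).2.1]
  rw [e4]
  linear_combination h1

/-- Weak equation for the moments, `∂̄`. -/
theorem hdc_weak_Db {b b' : (Fin n → ℂ) × ℕ → ℂ} {g : (Fin n → ℂ) × ℕ → ℂ}
    {C : Set (Fin n → ℂ)} (hC : IsCompact C) (hCV : C ⊆ S.V)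
    (hbC : ∀ q : (Fin n → ℂ) × ℕ, q.1 ∉ C → b q = 0)
    (hbC' : ∀ q : (Fin n → ℂ) × ℕ, q.1 ∉ C → b' q = 0)
    (hgC : ∀ q : (Fin n → ℂ) × ℕ, q.1 ∉ C → g q = 0)
    (hb : MemLp b 2 S.μ) (hb' : MemLp b' 2 S.μ) (hg : MemLp g 2 S.μ) {j k : Fin n}
    (hgw : ∀ κ, S.IsTest κ → ∫ q, (b' q * S.Db j κ q - b q * S.Db k κ q) ∂S.μ =
      - ∫ q, g q * κ q ∂S.μ)
    {Y : (Fin n → ℂ) × ℕ → ℂ} (hY : S.Holo Y) {κ : (Fin n → ℂ) → ℂ} (hκ : ContDiff ℝ 2 κ) :
    (∫ z, S.fsum (fun q => b' q * Y q) z * dzb j κ z) -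
      ∫ z, S.fsum (fun q => b q * Y q) z * dzb k κ z =
      - ∫ z, S.fsum (fun q => g q * Y q) z * κ z := by
  obtain ⟨K, χ, hK, hCK, hKV, hχ, hχ1, hχ0⟩ := hdc_cut S.isOpen hC hCV
  have hφ : ContDiff ℝ 2 (fun z => χ z * κ z) := hχ.mul hκ
  have h1 := hgw _ (hdc_isTest hφ hK hKV (fun z hz => by simp [hχ0 z hz]) hY)
  have hev : ∀ z ∈ C, (fun z => χ z * κ z) =ᶠ[𝓝 z] κ := by
    intro z hz
    filter_upwards [hχ1.filter_mono (nhds_le_nhdsSet hz)] with ζ hζ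
    rw [hζ, one_mul]
  have i1 := hdc_int hb' (hY.CD 0) hC hCV hbC' (φ := dzb j κ) (hdc_cont_dzb hκ j).continuousOn
  have i2 := hdc_int hb (hY.CD 0) hC hCV hbC (φ := dzb k κ) (hdc_cont_dzb hκ k).continuousOn
  have i3 := hdc_int hg (hY.CD 0) hC hCV hgC (φ := κ) hκ.continuous.continuousOn
  have e1 : ∫ q, (b' q * S.Db j (fun q => Y q * (fun z => χ z * κ z) q.1) q -
      b q * S.Db k (fun q => Y q * (fun z => χ z * κ z) q.1) q) ∂S.μ =
      ∫ q, (b' q * Y q * dzb j κ q.1 - b q * Y q * dzb k κ q.1) ∂S.μ := by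
    refine integral_congr_ae ?_
    filter_upwards [ae_mem_M (S := S)] with q hq
    rw [hdc_Db hφ hY hq, hdc_Db hφ hY hq]
    by_cases hqC : q.1 ∈ C
    · rw [dzb_congr (hev q.1 hqC), dzb_congr (hev q.1 hqC)]
      ring
    · simp [hbC q hqC, hbC' q hqC]
  have e2 : ∫ q, g q * (fun q => Y q * (fun z => χ z * κ z) q.1) q ∂S.μ =
      ∫ q, g q * Y q * κ q.1 ∂S.μ := by
    refine integral_congr_ae (Eventually.of_forall fun q => ?_)
    simp only
    by_cases hqC : q.1 ∈ C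
    · have := (hev q.1 hqC).self_of_nhds
      simp only at this
      rw [this]
      ring
    · simp [hgC q hqC]
  rw [e1, e2, integral_sub i1.1 i2.1, i1.2.2, i2.2.2, i3.2.2] at h1
  exact h1

theorem hdc_sumA (E : Fin n × Fin N → Fin n → ℂ) (i : Fin N) :
    ∑ p : Fin n × Fin N, ∑ j, (if p.2 = i ∧ p.1 = j then (1 : ℂ) else 0) * E p j =
      ∑ j, E (j, i) j := by
  rw [Fintype.sum_prod_type]
  refine Finset.sum_congr rfl fun a _ => ?_
  have h1 : ∀ b : Fin N, ∑ j, (if b = i ∧ a = j then (1 : ℂ) else 0) * E (a, b) j =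
      if b = i then E (a, b) a else 0 := by
    intro b
    by_cases hb : b = i
    · simp [hb]
    · simp [hb]
  simp only [h1]
  rw [Finset.sum_ite_eq' Finset.univ i, if_pos (Finset.mem_univ i)]

theorem hdc_sumB (E : Fin n × Fin N → Fin n → ℂ) (j k : Fin n) (i : Fin N) :
    ∑ p : Fin n × Fin N, ∑ l, (if p.2 = i then ((if p.1 = k ∧ l = j then (1 : ℂ) else 0) -
      (if p.1 = j ∧ l = k then (1 : ℂ) else 0)) else 0) * E p l = E (k, i) j - E (j, i) k := by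
  have h1 : ∀ p : Fin n × Fin N, ∑ l, (if p.2 = i then ((if p.1 = k ∧ l = j then (1 : ℂ) else 0) -
      (if p.1 = j ∧ l = k then (1 : ℂ) else 0)) else 0) * E p l =
      (if p = (k, i) then E p j else 0) - (if p = (j, i) then E p k else 0) := by
    rintro ⟨a, b⟩
    by_cases hb : b = i
    · by_cases hk : a = k <;> by_cases hj : a = j <;>
        simp [hb, hk, hj, Prod.ext_iff, sub_mul, Finset.sum_sub_distrib] <;>
        simp_all
    · simp [hb, Prod.ext_iff]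
  simp only [h1, Finset.sum_sub_distrib]
  rw [Finset.sum_ite_eq' Finset.univ (k, i), Finset.sum_ite_eq' Finset.univ (j, i),
    if_pos (Finset.mem_univ _), if_pos (Finset.mem_univ _)]

theorem hdc_zero {e c : Fin N → (Fin n → ℂ) × ℕ → ℂ} (hdu : S.Dual e c)
    (X : (Fin n → ℂ) × ℕ → ℂ) {q : (Fin n → ℂ) × ℕ} (hq : q ∈ S.M) (j : Fin n) :
    ∑ i : Fin N, (S.fsum (fun q => X q * S.D j (c i) q) q.1 * e i q +
      S.fsum (fun q => X q * c i q) q.1 * S.D j (e i) q) = 0 := by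
  have hc := hdu.hc
  have hd := hdu.hd
  obtain ⟨z, w⟩ := q
  obtain ⟨hz, hw⟩ := hq
  simp only at hz hw ⊢
  unfold fsum
  have h1 : ∀ i : Fin N, (∑ w' ∈ S.fib z, X (z, w') * S.D j (c i) (z, w')) * e i (z, w) +
      (∑ w' ∈ S.fib z, X (z, w') * c i (z, w')) * S.D j (e i) (z, w) =
      ∑ w' ∈ S.fib z, X (z, w') * (S.D j (c i) (z, w') * e i (z, w) +
        c i (z, w') * S.D j (e i) (z, w)) := by
    intro i
    rw [Finset.sum_mul, Finset.sum_mul, ← Finset.sum_add_distrib]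
    exact Finset.sum_congr rfl fun w' _ => by ring
  rw [Finset.sum_congr rfl fun i _ => h1 i, Finset.sum_comm]
  refine Finset.sum_eq_zero fun w' hw' => ?_
  rw [← Finset.mul_sum, hdc_delta hdu hz hw hw' j, mul_zero]

theorem hdc_dz_zero {F : (Fin n → ℂ) → ℂ} {C : Set (Fin n → ℂ)} (hC : IsCompact C)
    (hF : ∀ z, z ∉ C → F z = 0) {z : Fin n → ℂ} (hz : z ∉ C) (j : Fin n) : dz j F z = 0 := by
  rw [dz_congr (g := fun _ => 0) ?_, dz_const]
  filter_upwards [hC.isClosed.isOpen_compl.mem_nhds hz] with ζ hζ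
  exact hF ζ hζ

theorem hdc_dzb_zero {F : (Fin n → ℂ) → ℂ} {C : Set (Fin n → ℂ)} (hC : IsCompact C)
    (hF : ∀ z, z ∉ C → F z = 0) {z : Fin n → ℂ} (hz : z ∉ C) (j : Fin n) : dzb j F z = 0 := by
  rw [dzb_congr (g := fun _ => 0) ?_, dzb_const]
  filter_upwards [hC.isClosed.isOpen_compl.mem_nhds hz] with ζ hζ
  exact hF ζ hζ

/-- The case where `g` and `s` vanish off `C`. -/
theorem hdc_core {e c : Fin N → (Fin n → ℂ) × ℕ → ℂ} (hdu : S.Dual e c) (b : Fin n → (Fin n → ℂ) × ℕ → ℂ) (g : (Fin n → ℂ) × ℕ → ℂ)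
    (s : Fin n → Fin n → (Fin n → ℂ) × ℕ → ℂ) {C : Set (Fin n → ℂ)} (hC : IsCompact C)
    (hCV : C ⊆ S.V) (hbC : ∀ j, ∀ q : (Fin n → ℂ) × ℕ, q.1 ∉ C → b j q = 0)
    (hgC : ∀ q : (Fin n → ℂ) × ℕ, q.1 ∉ C → g q = 0)
    (hsC : ∀ j k, ∀ q : (Fin n → ℂ) × ℕ, q.1 ∉ C → s j k q = 0)
    (hb : ∀ j, MemLp (b j) 2 S.μ) (hg : MemLp g 2 S.μ) (hs : ∀ j k, MemLp (s j k) 2 S.μ)
    (hgw : ∀ κ, S.IsTest κ → ∫ q, ∑ j, b j q * S.D j κ q ∂S.μ = - ∫ q, g q * κ q ∂S.μ)
    (hsw : ∀ κ, S.IsTest κ → ∀ j k, ∫ q, (b k q * S.Db j κ q - b j q * S.Db k κ q) ∂S.μ =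
      - ∫ q, s j k q * κ q ∂S.μ) {ε : ℝ≥0∞} (hε : ε ≠ 0) :
    ∃ β : Fin n → (Fin n → ℂ) × ℕ → ℂ, (∀ j, S.IsTest (β j)) ∧
      (∃ C' : Set (Fin n → ℂ), IsCompact C' ∧ C' ⊆ S.V ∧
        ∀ j, ∀ q : (Fin n → ℂ) × ℕ, q.1 ∉ C' → β j q = 0) ∧
      (∀ j, ∫⁻ q, ENNReal.ofReal (‖β j q - b j q‖ ^ 2) ∂S.μ ≤ ε) ∧
      ∫⁻ q, ENNReal.ofReal (‖∑ j, S.D j (β j) q - g q‖ ^ 2) ∂S.μ ≤ ε ∧
      ∀ j k, ∫⁻ q, ENNReal.ofReal (‖S.Db j (β k) q - S.Db k (β j) q - s j k q‖ ^ 2) ∂S.μ ≤ ε := by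
  have hc := hdu.hc
  have he := hdu.he
  obtain ⟨K, hK, hCK, hKV⟩ := exists_compact_between hC S.isOpen hCV
  -- the moments
  set f : Fin n × Fin N → (Fin n → ℂ) → ℂ := fun p => S.fsum (fun q => b p.1 q * c p.2 q) with hf'
  set Gm : Fin N → (Fin n → ℂ) → ℂ := fun i z => S.fsum (fun q => g q * c i q) z +
    ∑ j, S.fsum (fun q => b j q * S.D j (c i) q) z with hGm'
  set Hm : Fin n × Fin n × Fin N → (Fin n → ℂ) → ℂ :=
    fun t => S.fsum (fun q => s t.1 t.2.1 q * c t.2.2 q) with hHm'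
  have hf : ∀ p, MemLp (f p) 2 volume := fun p =>
    hdc_fsum_memLp (hb p.1) ((hc p.2).CD 0) hC hCV (hbC p.1)
  have hGm : ∀ i, MemLp (Gm i) 2 volume := by
    intro i
    refine (hdc_fsum_memLp hg ((hc i).CD 0) hC hCV hgC).add ?_
    exact memLp_finsetSum _ fun j _ => hdc_fsum_memLp (hb j) ((hc i).D.CD 0) hC hCV (hbC j)
  have hHm : ∀ t, MemLp (Hm t) 2 volume := fun t =>
    hdc_fsum_memLp (hs t.1 t.2.1) ((hc t.2.2).CD 0) hC hCV (hsC t.1 t.2.1)
  have hfC : ∀ p, ∀ z, z ∉ C → f p z = 0 := by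
    intro p z hz
    refine hdc_fsum_zero (K := C) (fun q hq => ?_) hz
    simp [hbC p.1 q hq]
  -- the functions which depend only on the cover
  set YY : Fin N ⊕ (Fin n × Fin N) → (Fin n → ℂ) × ℕ → ℂ :=
    Sum.elim (fun i q => e i q) (fun p => S.D p.1 (e p.2)) with hYY
  have hYc : ∀ t, S.CD 0 (YY t) := by
    rintro (i | p)
    · exact (he i).CD 0
    · exact (he p.2).D.CD 0
  choose Bf hBf using fun t => exists_bound (hYc t) hK hKV
  set B : ℝ := ∑ t, |Bf t| with hBdef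
  have hB : ∀ t, ∀ q ∈ S.M, q.1 ∈ K → ‖YY t q‖ ≤ B := by
    intro t q hq hqK
    refine (hBf t q hq hqK).trans ((le_abs_self _).trans ?_)
    exact Finset.single_le_sum (f := fun t => |Bf t|) (fun _ _ => abs_nonneg _)
      (Finset.mem_univ t)
  set L1 : ℝ≥0∞ := ENNReal.ofReal (N * (Fintype.card (Fin N) * B ^ 2)) *
    (Fintype.card (Fin N) : ℝ≥0∞) with hL1
  set L2 : ℝ≥0∞ := ENNReal.ofReal (N * (Fintype.card (Fin N ⊕ (Fin n × Fin N)) * B ^ 2)) *
    (Fintype.card (Fin N ⊕ (Fin n × Fin N)) : ℝ≥0∞) with hL2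
  have hL1t : L1 ≠ ⊤ := ENNReal.mul_ne_top ENNReal.ofReal_ne_top (ENNReal.natCast_ne_top _)
  have hL2t : L2 ≠ ⊤ := ENNReal.mul_ne_top ENNReal.ofReal_ne_top (ENNReal.natCast_ne_top _)
  obtain ⟨δ, hδ0, hδ⟩ := hdc_eps (ENNReal.add_ne_top.2 ⟨hL1t, hL2t⟩) hε
  have hδ1 : L1 * δ ^ 2 ≤ ε := le_trans (by gcongr; exact le_self_add) hδ
  have hδ2 : L2 * δ ^ 2 ≤ ε := le_trans (by gcongr; exact le_add_self) hδ
  -- the mollification
  obtain ⟨F, hF2, ⟨C', hC', hC'W, hFC'⟩, hFf, hFG, hFH⟩ := exists_mollification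
    (ι := Fin n × Fin N) (T := Fin N ⊕ (Fin n × Fin n × Fin N)) f hf hC isOpen_interior hCK hfC
    (fun t p j => Sum.elim (fun i => if p.2 = i ∧ p.1 = j then (1 : ℂ) else 0) (fun _ => 0) t)
    (fun t p l => Sum.elim (fun _ => 0) (fun t => if p.2 = t.2.2 then
      ((if p.1 = t.2.1 ∧ l = t.1 then (1 : ℂ) else 0) -
      (if p.1 = t.1 ∧ l = t.2.1 then (1 : ℂ) else 0)) else 0) t)
    (fun t => Sum.elim Gm (fun _ _ => 0) t) (fun t => Sum.elim (fun _ _ => 0) Hm t)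
    (by
      rintro (i | t)
      · exact hGm i
      · exact MemLp.zero)
    (by
      rintro (i | t)
      · exact MemLp.zero
      · exact hHm t)
    (by
      rintro (i | t) κ hκ -
      · simp only [Sum.elim_inl]
        rw [hdc_sumA (fun p j => ∫ z, f p z * dz j κ z) i]
        exact hdc_weak_D hC hCV hbC hgC hb hg hgw (hc i) hκ
      · simp)
    (by
      rintro (i | ⟨j, k, i⟩) κ hκ -
      · simp
      · simp only [Sum.elim_inr]
        rw [hdc_sumB (fun p j => ∫ z, f p z * dzb j κ z) j k i]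
        exact hdc_weak_Db hC hCV (hbC j) (hbC k) (hsC j k) (hb j) (hb k) (hs j k)
          (fun κ hκ => hsw κ hκ j k) (hc i) hκ)
    hδ0
  have hC'K : C' ⊆ K := hC'W.trans interior_subset
  have hCK' : C ⊆ K := hCK.trans interior_subset
  have hC'V : C' ⊆ S.V := hC'K.trans hKV
  have hFt : ∀ p, ∀ i : Fin N, S.IsTest (fun q => e i q * F p q.1) := fun p i =>
    hdc_isTest (hF2 p) hC' hC'V (hFC' p) (he i)
  have hβC : ∀ j, S.CD 2 (fun q => ∑ i : Fin N, e i q * F (j, i) q.1) := fun j =>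
    CD.sum _ fun i _ => (hFt (j, i) i).1
  have hβ0 : ∀ j, ∀ q : (Fin n → ℂ) × ℕ, q.1 ∉ C' →
      ∑ i : Fin N, e i q * F (j, i) q.1 = 0 := by
    intro j q hq
    exact Finset.sum_eq_zero fun i _ => by rw [hFC' _ _ hq, mul_zero]
  have hDβ : ∀ j l, ∀ q ∈ S.M, S.D l (fun q => ∑ i : Fin N, e i q * F (j, i) q.1) q =
      ∑ i : Fin N, (S.D l (e i) q * F (j, i) q.1 +
        e i q * dz l (F (j, i)) q.1) := by
    intro j l q hq
    rw [D_sum _ (fun i _ => (hFt (j, i) i).1.mono one_le_two) hq]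
    exact Finset.sum_congr rfl fun i _ => hdc_D (hF2 _) (he _) hq l
  have hDbβ : ∀ j l, ∀ q ∈ S.M, S.Db l (fun q => ∑ i : Fin N, e i q * F (j, i) q.1) q =
      ∑ i : Fin N, e i q * dzb l (F (j, i)) q.1 := by
    intro j l q hq
    rw [Db_sum _ (fun i _ => (hFt (j, i) i).1.mono one_le_two) hq]
    exact Finset.sum_congr rfl fun i _ => hdc_Db (hF2 _) (he _) hq l
  refine ⟨fun j q => ∑ i : Fin N, e i q * F (j, i) q.1, ?_, ?_, ?_, ?_, ?_⟩
  · exact fun j => ⟨hβC j, C', hC', hC'V, hβ0 j⟩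
  · exact ⟨C', hC', hC'V, hβ0⟩
  · -- the forms
    intro j
    refine le_trans (hdc_est (m := Fin N) (K := K) (B := B) (R := fun i z => F (j, i) z - f (j, i) z)
      (Y := fun i q => e i q) ?_ ?_ ?_ ?_ ?_ (δ := δ) ?_) hδ1
    · exact (aestronglyMeasurable_of_CD ((hβC j).mono (Nat.zero_le 2))).sub (hb j).1
    · exact fun i => (hF2 _).continuous.aestronglyMeasurable.sub (hf _).1
    · exact fun i => hB (Sum.inl i)
    · intro q _ hqK
      show ∑ i : Fin N, e i q * F (j, i) q.1 - b j q = 0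
      rw [hβ0 j q fun h => hqK (hC'K h), hbC j q fun h => hqK (hCK' h), sub_zero]
    · intro q hq _
      have h1 := hdc_recon hdu (b j) hq
      rw [h1, ← Finset.sum_sub_distrib]
      refine Finset.sum_congr rfl fun i _ => ?_
      simp only [hf']
      ring
    · exact fun i => hFf (j, i)
  · -- the divergence
    refine le_trans (hdc_est (m := Fin N ⊕ (Fin n × Fin N)) (K := K) (B := B)
      (R := Sum.elim (fun i z => ∑ j, dz j (F (j, i)) z - Gm i z) (fun p z => F p z - f p z))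
      (Y := YY) ?_ ?_ hB ?_ ?_ (δ := δ) ?_) hδ2
    · refine AEStronglyMeasurable.sub ?_ hg.1
      refine aestronglyMeasurable_of_CD (CD.sum _ fun j _ => ?_)
      exact CD.D ((hβC j).mono one_le_two)
    · rintro (i | p)
      · refine AEStronglyMeasurable.sub ?_ (hGm i).1
        exact (continuous_finsetSum _ fun j _ => hdc_cont_dz (hF2 _) j).aestronglyMeasurable
      · exact (hF2 _).continuous.aestronglyMeasurable.sub (hf _).1
    · intro q hq hqK
      have hqC' : q.1 ∉ C' := fun h => hqK (hC'K h)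
      rw [hgC q fun h => hqK (hCK' h), sub_zero]
      refine Finset.sum_eq_zero fun j _ => ?_
      rw [hDβ j j q hq]
      refine Finset.sum_eq_zero fun i _ => ?_
      rw [hFC' _ _ hqC', hdc_dz_zero hC' (hFC' _) hqC', mul_zero, mul_zero, add_zero]
    · intro q hq _
      have h1 := hdc_recon hdu g hq
      have h2 : ∑ j, ∑ i : Fin N, (S.fsum (fun q => b j q * S.D j (c i) q) q.1 * e i q +
          S.fsum (fun q => b j q * c i q) q.1 * S.D j (e i) q) = 0 :=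
        Finset.sum_eq_zero fun j _ => hdc_zero hdu (b j) hq j
      rw [Finset.sum_congr rfl fun j _ => hDβ j j q hq, Fintype.sum_sum_type,
        Fintype.sum_prod_type]
      simp only [Sum.elim_inl, Sum.elim_inr, hYY, hf', hGm']
      simp only [Finset.sum_add_distrib, sub_mul, add_mul, Finset.sum_sub_distrib,
        Finset.sum_mul] at h2 ⊢
      rw [h1]
      rw [Finset.sum_comm (f := fun (i : Fin N) (j : Fin n) => dz j (F (j, i)) q.1 * e i q),
        Finset.sum_comm (f := fun (i : Fin N) (j : Fin n) =>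
          S.fsum (fun q => b j q * S.D j (c i) q) q.1 * e i q)]
      have h3 : ∑ j, ∑ i : Fin N, S.D j (e i) q * F (j, i) q.1 =
          ∑ j, ∑ i : Fin N, F (j, i) q.1 * S.D j (e i) q :=
        Finset.sum_congr rfl fun j _ => Finset.sum_congr rfl fun i _ => mul_comm _ _
      have h4 : ∑ j, ∑ i : Fin N, e i q * dz j (F (j, i)) q.1 =
          ∑ j, ∑ i : Fin N, dz j (F (j, i)) q.1 * e i q :=
        Finset.sum_congr rfl fun j _ => Finset.sum_congr rfl fun i _ => mul_comm _ _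
      rw [h3, h4]
      linear_combination h2
    · rintro (i | p)
      · have h1 := hFG (Sum.inl i)
        simp only [Sum.elim_inl] at h1 ⊢
        refine le_trans (le_of_eq ?_) h1
        congr 1
        funext z
        rw [hdc_sumA (fun p j => dz j (F p) z) i]
      · exact hFf p
  · -- the curl
    intro j k
    refine le_trans (hdc_est (m := Fin N) (K := K) (B := B)
      (R := fun i z => dzb j (F (k, i)) z - dzb k (F (j, i)) z - Hm (j, k, i) z)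
      (Y := fun i q => e i q) ?_ ?_ ?_ ?_ ?_ (δ := δ) ?_) hδ1
    · refine AEStronglyMeasurable.sub ?_ (hs j k).1
      refine AEStronglyMeasurable.sub ?_ ?_
      · exact aestronglyMeasurable_of_CD (CD.Db ((hβC k).mono one_le_two))
      · exact aestronglyMeasurable_of_CD (CD.Db ((hβC j).mono one_le_two))
    · intro i
      refine AEStronglyMeasurable.sub ?_ (hHm _).1
      exact ((hdc_cont_dzb (hF2 _) j).sub (hdc_cont_dzb (hF2 _) k)).aestronglyMeasurable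
    · exact fun i => hB (Sum.inl i)
    · intro q hq hqK
      have hqC' : q.1 ∉ C' := fun h => hqK (hC'K h)
      rw [hsC j k q fun h => hqK (hCK' h), sub_zero, hDbβ k j q hq, hDbβ j k q hq,
        ← Finset.sum_sub_distrib]
      refine Finset.sum_eq_zero fun i _ => ?_
      rw [hdc_dzb_zero hC' (hFC' _) hqC', hdc_dzb_zero hC' (hFC' _) hqC', mul_zero, sub_zero]
    · intro q hq _
      have h1 := hdc_recon hdu (s j k) hq
      rw [h1, hDbβ k j q hq, hDbβ j k q hq, ← Finset.sum_sub_distrib, ← Finset.sum_sub_distrib]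
      refine Finset.sum_congr rfl fun i _ => ?_
      simp only [hHm']
      ring
    · intro i
      have h1 := hFH (Sum.inr (j, k, i))
      simp only [Sum.elim_inr] at h1
      refine le_trans (le_of_eq ?_) h1
      congr 1
      funext z
      rw [hdc_sumB (fun p j => dzb j (F p) z) j k i]

/-- Approximation for forms supported over a compact set. Here `g` is the weak value of
`∑ D_j b_j` and `s j k` is the weak value of `D̄_j b_k - D̄_k b_j`. -/
theorem exists_test_approx_dual {e c : Fin N → (Fin n → ℂ) × ℕ → ℂ} (hdu : S.Dual e c) (b : Fin n → (Fin n → ℂ) × ℕ → ℂ) (g : (Fin n → ℂ) × ℕ → ℂ)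
    (s : Fin n → Fin n → (Fin n → ℂ) × ℕ → ℂ) {C : Set (Fin n → ℂ)} (hC : IsCompact C)
    (hCV : C ⊆ S.V) (hbC : ∀ j, ∀ q : (Fin n → ℂ) × ℕ, q.1 ∉ C → b j q = 0)
    (hb : ∀ j, MemLp (b j) 2 S.μ) (hg : MemLp g 2 S.μ) (hs : ∀ j k, MemLp (s j k) 2 S.μ)
    (hgw : ∀ κ, S.IsTest κ → ∫ q, ∑ j, b j q * S.D j κ q ∂S.μ = - ∫ q, g q * κ q ∂S.μ)
    (hsw : ∀ κ, S.IsTest κ → ∀ j k, ∫ q, (b k q * S.Db j κ q - b j q * S.Db k κ q) ∂S.μ =
      - ∫ q, s j k q * κ q ∂S.μ) {ε : ℝ≥0∞} (hε : ε ≠ 0) :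
    ∃ β : Fin n → (Fin n → ℂ) × ℕ → ℂ, (∀ j, S.IsTest (β j)) ∧
      (∃ C' : Set (Fin n → ℂ), IsCompact C' ∧ C' ⊆ S.V ∧
        ∀ j, ∀ q : (Fin n → ℂ) × ℕ, q.1 ∉ C' → β j q = 0) ∧
      (∀ j, ∫⁻ q, ENNReal.ofReal (‖β j q - b j q‖ ^ 2) ∂S.μ ≤ ε) ∧
      ∫⁻ q, ENNReal.ofReal (‖∑ j, S.D j (β j) q - g q‖ ^ 2) ∂S.μ ≤ ε ∧
      ∀ j k, ∫⁻ q, ENNReal.ofReal (‖S.Db j (β k) q - S.Db k (β j) q - s j k q‖ ^ 2) ∂S.μ ≤ ε := by
  have hnear : ∀ {φ : (Fin n → ℂ) → ℂ}, Disjoint (tsupport φ) C → ∀ z ∈ C,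
      φ =ᶠ[𝓝 z] fun _ => 0 := by
    intro φ hφ z hz
    have hzφ : z ∉ tsupport φ := fun h => Set.disjoint_left.1 hφ h hz
    filter_upwards [(isClosed_tsupport φ).isOpen_compl.mem_nhds hzφ] with ζ hζ
    exact image_eq_zero_of_notMem_tsupport hζ
  have hgz : ∀ᵐ q ∂S.μ, q.1 ∉ C → g q = 0 := by
    refine hdc_vanish hdu hg hC.isClosed fun φ Y hφ hφc hφV hφC hY => ?_
    have h1 := hgw _ (hdc_isTest hφ hφc hφV
      (fun z hz => image_eq_zero_of_notMem_tsupport hz) hY)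
    have h2 : ∫ q, ∑ j, b j q * S.D j (fun q => Y q * φ q.1) q ∂S.μ = 0 := by
      rw [← integral_zero ((Fin n → ℂ) × ℕ) ℂ (μ := S.μ)]
      refine integral_congr_ae ?_
      filter_upwards [ae_mem_M (S := S)] with q hq
      refine Finset.sum_eq_zero fun j _ => ?_
      by_cases hqC : q.1 ∈ C
      · have h3 := hnear hφC q.1 hqC
        rw [hdc_D hφ hY hq, dz_congr h3, dz_const, h3.self_of_nhds]
        simp
      · rw [hbC j q hqC, zero_mul]
    rw [h2] at h1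
    exact neg_eq_zero.1 h1.symm
  have hsz : ∀ j k, ∀ᵐ q ∂S.μ, q.1 ∉ C → s j k q = 0 := by
    intro j k
    refine hdc_vanish hdu (hs j k) hC.isClosed fun φ Y hφ hφc hφV hφC hY => ?_
    have h1 := hsw _ (hdc_isTest hφ hφc hφV
      (fun z hz => image_eq_zero_of_notMem_tsupport hz) hY) j k
    have h2 : ∫ q, (b k q * S.Db j (fun q => Y q * φ q.1) q -
        b j q * S.Db k (fun q => Y q * φ q.1) q) ∂S.μ = 0 := by
      rw [← integral_zero ((Fin n → ℂ) × ℕ) ℂ (μ := S.μ)]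
      refine integral_congr_ae ?_
      filter_upwards [ae_mem_M (S := S)] with q hq
      by_cases hqC : q.1 ∈ C
      · have h3 := hnear hφC q.1 hqC
        rw [hdc_Db hφ hY hq, hdc_Db hφ hY hq, dzb_congr h3, dzb_congr h3, dzb_const, dzb_const]
        simp
      · rw [hbC j q hqC, hbC k q hqC, zero_mul, zero_mul, sub_zero]
    rw [h2] at h1
    exact neg_eq_zero.1 h1.symm
  set A : Set ((Fin n → ℂ) × ℕ) := {q | q.1 ∈ C} with hA
  have hAm : MeasurableSet A := hdc_meas_fst hC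
  have hge : A.indicator g =ᵐ[S.μ] g := by
    filter_upwards [hgz] with q hq
    by_cases hqC : q.1 ∈ C
    · exact Set.indicator_of_mem (by exact hqC) _
    · rw [Set.indicator_of_notMem (by exact hqC), hq hqC]
  have hse : ∀ j k, A.indicator (s j k) =ᵐ[S.μ] s j k := by
    intro j k
    filter_upwards [hsz j k] with q hq
    by_cases hqC : q.1 ∈ C
    · exact Set.indicator_of_mem (by exact hqC) _
    · rw [Set.indicator_of_notMem (by exact hqC), hq hqC]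
  obtain ⟨β, h1, h2, h3, h4, h5⟩ := hdc_core hdu b (A.indicator g) (fun j k => A.indicator (s j k)) hC
    hCV hbC (fun q hq => Set.indicator_of_notMem (by exact hq) _)
    (fun j k q hq => Set.indicator_of_notMem (by exact hq) _) hb (hg.indicator hAm)
    (fun j k => (hs j k).indicator hAm)
    (fun κ hκ => by
      rw [hgw κ hκ]
      congr 1
      refine integral_congr_ae ?_
      filter_upwards [hge] with q hq
      rw [hq])
    (fun κ hκ j k => by
      rw [hsw κ hκ j k]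
      congr 1
      refine integral_congr_ae ?_
      filter_upwards [hse j k] with q hq
      simp only [hq]) hε
  refine ⟨β, h1, h2, h3, ?_, ?_⟩
  · refine le_trans (le_of_eq ?_) h4
    refine lintegral_congr_ae ?_
    filter_upwards [hge] with q hq
    rw [hq]
  · intro j k
    refine le_trans (le_of_eq ?_) (h5 j k)
    refine lintegral_congr_ae ?_
    filter_upwards [hse j k] with q hq
    simp only [hq]

end Sheets

end Vale.Agent.P300.L2
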