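import Vale.Agent.P300.H435.L2.Sing
import Vale.Agent.P300.H435.L2.Weyl

set_option linter.all false

/-! P300, block L2C: Weyl's lemma for `∂̄` on the total space of an abstract cover, and holomorphic
functions with weighted `L²` estimates. -/

open MeasureTheory Filter Topology Metric
open scoped ENNReal NNReal ContDiff ComplexConjugate

namespace Vale.Agent.P300.L2

namespace Sheets

variable {n N : ℕ} {S : Sheets n N}

theorem memLp_indicator {τ : (Fin n → ℂ) × ℕ → ℂ} (hm : AEStronglyMeasurable τ S.μ)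
    {K : Set (Fin n → ℂ)} (hK : IsCompact K)
    (h2 : ∫⁻ q in {q : (Fin n → ℂ) × ℕ | q.1 ∈ K}, ‖τ q‖ₑ ^ 2 ∂S.μ < ⊤) :
    MemLp ({q : (Fin n → ℂ) × ℕ | q.1 ∈ K}.indicator τ) 2 S.μ := by
  have hKm : MeasurableSet {q : (Fin n → ℂ) × ℕ | q.1 ∈ K} := hdc_meas_fst hK
  rw [memLp_indicator_iff_restrict hKm, memLp_two_iff_integrable_sq_norm hm.restrict]
  refine ⟨(hm.restrict.norm.pow 2), ?_⟩
  rw [HasFiniteIntegral]
  refine lt_of_le_of_lt (lintegral_mono fun q => ?_) h2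
  rw [enorm_pow, enorm_norm]

/-- **Weyl's lemma on `M`** (A4). -/
theorem weylM_dual {e c : Fin N → (Fin n → ℂ) × ℕ → ℂ} (hdu : S.Dual e c)
    {τ : (Fin n → ℂ) × ℕ → ℂ} (hm : AEStronglyMeasurable τ S.μ)
    (h2 : ∀ K : Set (Fin n → ℂ), IsCompact K → K ⊆ S.V →
      ∫⁻ q in {q : (Fin n → ℂ) × ℕ | q.1 ∈ K}, ‖τ q‖ₑ ^ 2 ∂S.μ < ⊤)
    (hw : ∀ κ : (Fin n → ℂ) × ℕ → ℂ, S.IsTest κ → ∀ j, ∫ q, τ q * S.Db j κ q ∂S.μ = 0) :
    ∃ F : (Fin n → ℂ) × ℕ → ℂ, S.Holo F ∧ τ =ᵐ[S.μ] F := by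
  have hc := hdu.hc
  -- the moments are weakly holomorphic
  have key : ∀ i, ∃ f : (Fin n → ℂ) → ℂ, DifferentiableOn ℂ f S.V ∧
      S.fsum (fun q => τ q * c i q) =ᵐ[volume.restrict S.V] f := by
    intro i
    apply weyl_local S.isOpen
    · rw [locallyIntegrableOn_iff S.isOpen.isLocallyClosed]
      intro K hKV hK
      set X' : (Fin n → ℂ) × ℕ → ℂ := {q : (Fin n → ℂ) × ℕ | q.1 ∈ K}.indicator τ with hX'
      have hX'K : ∀ q : (Fin n → ℂ) × ℕ, q.1 ∉ K → X' q = 0 := fun q hq =>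
        Set.indicator_of_notMem (by exact hq) _
      have hX'm : MemLp X' 2 S.μ := memLp_indicator hm hK (h2 K hK hKV)
      have h1 := (hdc_int hX'm ((hc i).CD 0) hK hKV hX'K (φ := fun _ => 1)
        continuousOn_const).2.1
      simp only [mul_one] at h1
      refine (h1.integrableOn (s := K)).congr_fun (fun z hz => ?_) hK.measurableSet
      have hXe : ∀ w, X' (z, w) = τ (z, w) := fun w => Set.indicator_of_mem (by exact hz) _
      unfold fsum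
      refine Finset.sum_congr rfl fun w _ => ?_
      simp only [hXe]
    · intro κ hκ hκc hκV j
      have hκ2 : ContDiff ℝ 2 κ := contDiff_infty.1 hκ 2
      set K := tsupport κ with hK
      have hKc : IsCompact K := hκc
      have hκK : ∀ z ∉ K, κ z = 0 := fun z hz => image_eq_zero_of_notMem_tsupport hz
      have htest : S.IsTest (fun q => c i q * κ q.1) := hdc_isTest hκ2 hKc hκV hκK (hc i)
      have h1 := hw _ htest j
      set X' : (Fin n → ℂ) × ℕ → ℂ := {q : (Fin n → ℂ) × ℕ | q.1 ∈ K}.indicator τ with hX'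
      have hX'K : ∀ q : (Fin n → ℂ) × ℕ, q.1 ∉ K → X' q = 0 := fun q hq =>
        Set.indicator_of_notMem (by exact hq) _
      have hX'm : MemLp X' 2 S.μ := memLp_indicator hm hKc (h2 K hKc hκV)
      have h3 := (hdc_int hX'm ((hc i).CD 0) hKc hκV hX'K (φ := dzb j κ)
        (hdc_cont_dzb hκ2 j).continuousOn).2.2
      have h4 : ∫ q, τ q * S.Db j (fun q => c i q * κ q.1) q ∂S.μ =
          ∫ q, X' q * c i q * dzb j κ q.1 ∂S.μ := by
        apply integral_congr_ae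
        filter_upwards [ae_mem_M] with q hq
        rw [hdc_Db hκ2 (hc i) hq]
        by_cases hqK : q.1 ∈ K
        · rw [hX', Set.indicator_of_mem (by exact hqK), mul_assoc]
        · rw [dzb_eq_zero_of_notMem j hqK]
          simp
      rw [← h1, h4, h3]
      apply integral_congr_ae
      filter_upwards with z
      by_cases hz : z ∈ K
      · have hXe : ∀ w, X' (z, w) = τ (z, w) := fun w => Set.indicator_of_mem (by exact hz) _
        have : S.fsum (fun q => X' q * c i q) z = S.fsum (fun q => τ q * c i q) z := by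
          unfold fsum
          refine Finset.sum_congr rfl fun w _ => ?_
          simp only [hXe]
        rw [this]
      · rw [dzb_eq_zero_of_notMem j hz, mul_zero, mul_zero]
  choose f hf hfe using key
  refine ⟨fun q => ∑ i : Fin N, f i q.1 * e i q, ?_, ?_⟩
  · intro W s hs
    apply DifferentiableOn.fun_sum
    intro i _
    exact ((hf i).mono hs.subset).mul (hdu.he i W s hs)
  · rw [Filter.EventuallyEq, ae_μ_iff]
    filter_upwards [ae_all_iff.2 hfe, ae_restrict_mem S.isOpen.measurableSet] with z hz hzV w hw'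
    rw [hdc_recon hdu τ (q := (z, w)) ⟨hzV, hw'⟩]
    refine Finset.sum_congr rfl fun i _ => ?_
    simp only
    rw [hz i]


/-- Functions which are continuous along the sheets and agree a.e. over an open set agree there. -/
theorem eq_of_ae {F G : (Fin n → ℂ) × ℕ → ℂ} {O : Set (Fin n → ℂ)} (hO : IsOpen O) (hOV : O ⊆ S.V)
    (hF : (S.res O hO hOV).CD 0 F) (hG : (S.res O hO hOV).CD 0 G)
    (h : ∀ᵐ q ∂(S.res O hO hOV).μ, F q = G q) {q : (Fin n → ℂ) × ℕ} (hq : q ∈ S.M)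
    (hqO : q.1 ∈ O) : F q = G q := by
  obtain ⟨σ, W, hσ, hz, hσq⟩ := exists_section (S := S.res O hO hOV) (q := q) ⟨hqO, hq.2⟩
  have h1 : ∀ᵐ z ∂(volume : Measure (Fin n → ℂ)), z ∈ W → F (z, σ z) = G (z, σ z) := by
    have h2 := ae_μ_iff.1 h
    rw [ae_restrict_iff' (S.res O hO hOV).isOpen.measurableSet] at h2
    filter_upwards [h2] with z h3 hzW
    exact h3 (hσ.subset hzW) (σ z) (hσ.mem z hzW)
  have h2 := eqOn_of_ae hσ.isOpen (hF W σ hσ).continuousOn (hG W σ hσ).continuousOn h1 hz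
  have h3 : q = (q.1, σ q.1) := Prod.ext rfl hσq.symm
  rw [h3]
  exact h2

/-- **Weyl's lemma on `M`**. -/
theorem weylM {τ : (Fin n → ℂ) × ℕ → ℂ} (hm : AEStronglyMeasurable τ S.μ)
    (h2 : ∀ K : Set (Fin n → ℂ), IsCompact K → K ⊆ S.V →
      ∫⁻ q in {q : (Fin n → ℂ) × ℕ | q.1 ∈ K}, ‖τ q‖ₑ ^ 2 ∂S.μ < ⊤)
    (hw : ∀ κ : (Fin n → ℂ) × ℕ → ℂ, S.IsTest κ → ∀ j, ∫ q, τ q * S.Db j κ q ∂S.μ = 0) :
    ∃ F : (Fin n → ℂ) × ℕ → ℂ, S.Holo F ∧ τ =ᵐ[S.μ] F := by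
  classical
  -- local representatives
  have key : ∀ (W : Set (Fin n → ℂ)) (σ : Fin N → (Fin n → ℂ) → ℕ) (hW : S.SmTriv W σ),
      ∃ F : (Fin n → ℂ) × ℕ → ℂ, (S.res W hW.isOpen hW.subset).Holo F ∧
        ∀ᵐ q ∂(S.res W hW.isOpen hW.subset).μ, τ q = F q := by
    intro W σ hW
    obtain ⟨e, c, hdu⟩ := exists_dual_triv (S := S) (W₀ := W) (hW₀ := hW.isOpen)
      (hWV := hW.subset) hW
    have hμ := res_μ (S := S) (W₀ := W) (hW₀ := hW.isOpen) (hWV := hW.subset)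
    refine weylM_dual hdu ?_ ?_ ?_
    · rw [hμ]
      exact hm.restrict
    · intro K hK hKW
      have hKm : MeasurableSet {q : (Fin n → ℂ) × ℕ | q.1 ∈ K} := hdc_meas_fst hK
      rw [hμ, Measure.restrict_restrict hKm]
      exact (lintegral_mono' (Measure.restrict_mono Set.inter_subset_left le_rfl)
        le_rfl).trans_lt (h2 K hK (hKW.trans hW.subset))
    · intro κ hκ j
      obtain ⟨Cκ, hCκ, hCκW, hκ0⟩ := hκ.2
      rw [← hw κ (res_isTest hκ) j, ← res_integral (S := S) (W₀ := W) (hW₀ := hW.isOpen)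
        (hWV := hW.subset)]
      · refine integral_congr_ae ?_
        filter_upwards [ae_mem_M (S := S.res W hW.isOpen hW.subset)] with q hq
        rw [res_Db hq]
      · intro q hq
        rw [Db_zero_off hCκ.isClosed hκ0 (fun h => hq (hCκW h)), mul_zero]
  have hch : ∀ z : Fin n → ℂ, ∃ (W : Set (Fin n → ℂ)) (σ : Fin N → (Fin n → ℂ) → ℕ),
      z ∈ S.V → S.SmTriv W σ ∧ z ∈ W := by
    intro z
    by_cases hz : z ∈ S.V
    · obtain ⟨W, s, h⟩ := sm_loc hz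
      exact ⟨W, s, fun _ => h⟩
    · exact ⟨∅, fun _ _ => 0, fun h => absurd h hz⟩
  choose W σ hW using hch
  have key2 : ∀ z : Fin n → ℂ, ∃ F : (Fin n → ℂ) × ℕ → ℂ, ∀ hz : z ∈ S.V,
      (S.res (W z) (hW z hz).1.isOpen (hW z hz).1.subset).Holo F ∧
        ∀ᵐ q ∂(S.res (W z) (hW z hz).1.isOpen (hW z hz).1.subset).μ, τ q = F q := by
    intro z
    by_cases hz : z ∈ S.V
    · obtain ⟨F, hF⟩ := key (W z) (σ z) (hW z hz).1
      exact ⟨F, fun _ => hF⟩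
    · exact ⟨fun _ => 0, fun h => absurd h hz⟩
  choose f hf using key2
  -- compatibility
  have hcomp : ∀ z₁ (h₁ : z₁ ∈ S.V) z₂ (h₂ : z₂ ∈ S.V) (q : (Fin n → ℂ) × ℕ), q ∈ S.M →
      q.1 ∈ W z₁ → q.1 ∈ W z₂ → f z₁ q = f z₂ q := by
    intro z₁ h₁ z₂ h₂ q hq hq1 hq2
    have hO : IsOpen (W z₁ ∩ W z₂) := (hW z₁ h₁).1.isOpen.inter (hW z₂ h₂).1.isOpen
    have hOV : W z₁ ∩ W z₂ ⊆ S.V := Set.inter_subset_left.trans (hW z₁ h₁).1.subset
    refine eq_of_ae hO hOV ?_ ?_ ?_ hq ⟨hq1, hq2⟩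
    · intro W' s hs
      exact ((hf z₁ h₁).1.CD 0) W' s ⟨hs.1, hs.2.trans Set.inter_subset_left⟩
    · intro W' s hs
      exact ((hf z₂ h₂).1.CD 0) W' s ⟨hs.1, hs.2.trans Set.inter_subset_right⟩
    · have e1 := (hf z₁ h₁).2
      have e2 := (hf z₂ h₂).2
      rw [res_μ] at e1 e2 ⊢
      have m1 : S.μ.restrict {q : (Fin n → ℂ) × ℕ | q.1 ∈ W z₁ ∩ W z₂} ≤
          S.μ.restrict {q : (Fin n → ℂ) × ℕ | q.1 ∈ W z₁} :=
        Measure.restrict_mono (fun q hq => hq.1) le_rfl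
      have m2 : S.μ.restrict {q : (Fin n → ℂ) × ℕ | q.1 ∈ W z₁ ∩ W z₂} ≤
          S.μ.restrict {q : (Fin n → ℂ) × ℕ | q.1 ∈ W z₂} :=
        Measure.restrict_mono (fun q hq => hq.2) le_rfl
      filter_upwards [Measure.absolutelyContinuous_of_le m1 |>.ae_le e1,
        Measure.absolutelyContinuous_of_le m2 |>.ae_le e2] with q h3 h4
      rw [← h3, h4]
  refine ⟨fun q => f q.1 q, ?_, ?_⟩
  · intro W' s hs z hz
    have hzV := hs.subset hz
    have hzW := (hW z hzV).2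
    have hO : IsOpen (W' ∩ W z) := hs.isOpen.inter (hW z hzV).1.isOpen
    have h3 := (hf z hzV).1 (W' ∩ W z) s ⟨hs.mono hO Set.inter_subset_left,
      Set.inter_subset_right⟩
    have h4 : DifferentiableAt ℂ (fun y => f z (y, s y)) z :=
      h3.differentiableAt (hO.mem_nhds ⟨hz, hzW⟩)
    refine (h4.congr_of_eventuallyEq ?_).differentiableWithinAt
    filter_upwards [hO.mem_nhds ⟨hz, hzW⟩] with y hy
    have hyV := hs.subset hy.1
    exact hcomp y hyV z hzV (y, s y) (hs.mem_M hy.1) (hW y hyV).2 hy.2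
  · -- countable cover
    obtain ⟨t, htV, htc, htU⟩ := TopologicalSpace.countable_cover_nhdsWithin (f := W) (s := S.V)
      (fun z hz => mem_nhdsWithin_of_mem_nhds ((hW z hz).1.isOpen.mem_nhds (hW z hz).2))
    have h3 : ∀ᵐ q ∂S.μ, ∀ z ∈ t, q.1 ∈ W z → τ q = f z q := by
      rw [ae_ball_iff htc]
      intro z hz
      have hzV := htV hz
      have e1 := (hf z hzV).2
      rw [res_μ] at e1
      have hWm : MeasurableSet {q : (Fin n → ℂ) × ℕ | q.1 ∈ W z} :=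
        measurable_fst (hW z hzV).1.isOpen.measurableSet
      exact (ae_restrict_iff' hWm).1 e1
    filter_upwards [h3, ae_mem_M (S := S)] with q hq hqM
    obtain ⟨z, hz, hqz⟩ := Set.mem_iUnion₂.1 (htU hqM.1)
    rw [hq z hz hqz]
    exact hcomp z (htV hz) q.1 hqM.1 q hqM hqz (hW q.1 hqM.1).2

theorem lintegral_sq_lt_top_of_CD {X : (Fin n → ℂ) × ℕ → ℂ} (hX : S.CD 0 X)
    {K : Set (Fin n → ℂ)} (hK : IsCompact K) (hKV : K ⊆ S.V) :
    ∫⁻ q in {q : (Fin n → ℂ) × ℕ | q.1 ∈ K}, ‖X q‖ₑ ^ 2 ∂S.μ < ⊤ := by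
  obtain ⟨B, hB⟩ := exists_bound hX hK hKV
  have hB' : ∀ᵐ q ∂(S.μ.restrict {q : (Fin n → ℂ) × ℕ | q.1 ∈ K}),
      ‖X q‖ₑ ^ 2 ≤ ENNReal.ofReal |B| ^ 2 := by
    filter_upwards [ae_restrict_of_ae (ae_mem_M (S := S)),
      ae_restrict_mem (hdc_meas_fst hK)] with q hq1 hq2
    gcongr
    rw [← ofReal_norm]
    exact ENNReal.ofReal_le_ofReal ((hB q hq1 hq2).trans (le_abs_self _))
  refine (lintegral_mono_ae hB').trans_lt ?_
  rw [setLIntegral_const]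
  exact ENNReal.mul_lt_top (by simp) (μ_lt_top hK hKV)

/-- If `∂̄ u = ∂̄ σ` weakly, with `σ` of class `C¹` and `u` in `L²_loc`, then `σ - u` is a.e. equal
to a holomorphic function. -/
theorem weylM_sub {u σ : (Fin n → ℂ) × ℕ → ℂ} (hσ : S.CD 1 σ) (hm : AEStronglyMeasurable u S.μ)
    (h2 : ∀ K : Set (Fin n → ℂ), IsCompact K → K ⊆ S.V →
      ∫⁻ q in {q : (Fin n → ℂ) × ℕ | q.1 ∈ K}, ‖u q‖ₑ ^ 2 ∂S.μ < ⊤)
    (hw : ∀ κ : (Fin n → ℂ) × ℕ → ℂ, S.IsTest κ → ∀ j,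
      ∫ q, u q * S.Db j κ q ∂S.μ = -∫ q, S.Db j σ q * κ q ∂S.μ) :
    ∃ F : (Fin n → ℂ) × ℕ → ℂ, S.Holo F ∧ (fun q => σ q - u q) =ᵐ[S.μ] F := by
  have hσ0 : S.CD 0 σ := hσ.mono (Nat.zero_le 1)
  apply weylM (τ := fun q => σ q - u q) ((aestronglyMeasurable_of_CD hσ0).sub hm)
  · intro K hK hKV
    have h3 := lintegral_sq_lt_top_of_CD hσ0 hK hKV
    have h4 := h2 K hK hKV
    have h5 : ∀ q, ‖σ q - u q‖ₑ ^ 2 ≤ 4 * ‖σ q‖ₑ ^ 2 + 4 * ‖u q‖ₑ ^ 2 := by
      intro q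
      have h6 : ‖σ q - u q‖ ^ 2 ≤ 4 * ‖σ q‖ ^ 2 + 4 * ‖u q‖ ^ 2 := by
        have h7 := norm_sub_le (σ q) (u q)
        nlinarith [norm_nonneg (σ q - u q), norm_nonneg (σ q), norm_nonneg (u q),
          sq_nonneg (‖σ q‖ - ‖u q‖)]
      calc ‖σ q - u q‖ₑ ^ 2 = ENNReal.ofReal (‖σ q - u q‖ ^ 2) := by
            rw [← ofReal_norm, ENNReal.ofReal_pow (norm_nonneg _)]
        _ ≤ ENNReal.ofReal (4 * ‖σ q‖ ^ 2 + 4 * ‖u q‖ ^ 2) := ENNReal.ofReal_le_ofReal h6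
        _ = 4 * ‖σ q‖ₑ ^ 2 + 4 * ‖u q‖ₑ ^ 2 := by
            rw [ENNReal.ofReal_add (by positivity) (by positivity),
              ENNReal.ofReal_mul (by norm_num), ENNReal.ofReal_mul (by norm_num),
              ENNReal.ofReal_pow (norm_nonneg _), ENNReal.ofReal_pow (norm_nonneg _),
              ofReal_norm, ofReal_norm]
            norm_num
    refine (lintegral_mono h5).trans_lt ?_
    rw [lintegral_add_left' (((aestronglyMeasurable_of_CD hσ0).restrict.enorm.pow_const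
      2).const_mul 4), lintegral_const_mul' _ _ (by norm_num),
      lintegral_const_mul' _ _ (by norm_num)]
    exact ENNReal.add_lt_top.2 ⟨ENNReal.mul_lt_top (by norm_num) h3,
      ENNReal.mul_lt_top (by norm_num) h4⟩
  · intro κ hκ j
    obtain ⟨K, hK, hKV, hK0⟩ := hκ.2
    have hDb0 : S.CD 0 (S.Db j κ) := CD.Db (m := 0) (hκ.1.mono (by norm_num))
    have hDbK : ∀ q : (Fin n → ℂ) × ℕ, q.1 ∉ K → S.Db j κ q = 0 := by
      intro q hq
      have h1 : (fun z => κ (z, S.sec q z)) =ᶠ[𝓝 q.1] fun _ => 0 := by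
        filter_upwards [hK.isClosed.isOpen_compl.mem_nhds hq] with z hz
        exact hK0 _ hz
      show dzb j (fun z => κ (z, S.sec q z)) q.1 = 0
      rw [dzb_congr h1, dzb_const]
    have i1 : Integrable (fun q => σ q * S.Db j κ q) S.μ :=
      integrable_of_supp (hσ0.mul hDb0) ⟨K, hK, hKV, fun q hq => by simp [hDbK q hq]⟩
    have i2 : Integrable (fun q => u q * S.Db j κ q) S.μ := by
      set X' : (Fin n → ℂ) × ℕ → ℂ := {q : (Fin n → ℂ) × ℕ | q.1 ∈ K}.indicator u with hX'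
      have hX'K : ∀ q : (Fin n → ℂ) × ℕ, q.1 ∉ K → X' q = 0 := fun q hq =>
        Set.indicator_of_notMem (by exact hq) _
      refine (hdc_integrable (memLp_indicator hm hK (h2 K hK hKV)) hDb0 hK hKV hX'K).congr
        (Eventually.of_forall fun q => ?_)
      by_cases hq : q.1 ∈ K
      · have : X' q = u q := Set.indicator_of_mem (by exact hq) _
        show X' q * S.Db j κ q = u q * S.Db j κ q
        rw [this]
      · simp only [hDbK q hq, mul_zero]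
    have h3 : ∫ q, (σ q - u q) * S.Db j κ q ∂S.μ =
        ∫ q, σ q * S.Db j κ q ∂S.μ - ∫ q, u q * S.Db j κ q ∂S.μ := by
      rw [← integral_sub i1 i2]
      apply integral_congr_ae
      filter_upwards with q
      ring
    rw [h3, integral_mul_Db hσ (hκ.1.mono (by norm_num)) hκ.2, hw κ hκ j, sub_self]


/-- Hörmander + Weyl with decreasing weights: holomorphic functions close to a given smooth
function. -/
theorem holo_sing {p : (Fin n → ℂ) → ℝ} {C : ℝ} {k0 : ℕ} (hp : Exh S.V p C k0)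
    {Φ : ℕ → (Fin n → ℂ) × ℕ → ℝ} (hΦ : ∀ m, S.CD 2 (fun q => (Φ m q : ℂ)))
    (hanti : ∀ m, ∀ q ∈ S.M, Φ (m + 1) q ≤ Φ m q)
    (hΦb : ∀ m, ∃ c : ℝ, ∀ q ∈ S.M, c ≤ Φ m q)
    (hlevi : ∀ m, ∀ q ∈ S.M, ∀ β : Fin n → ℂ, 0 ≤ S.levi (Φ m) β q)
    {s : (Fin n → ℂ) × ℕ → ℂ} (hs : S.CD 2 s)
    (hsb : ∃ (c : ℝ) (k : ℕ), ∀ q ∈ S.M, ∀ j, ‖S.Db j s q‖ ≤ c * (1 + p q.1) ^ k)
    (a : ℕ → (Fin n → ℂ) × ℕ → ℝ) (ha : ∀ m q, 0 ≤ a m q) (ham : ∀ m, AEMeasurable (a m) S.μ)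
    (hab : ∀ m, ∀ q ∈ S.M, ∀ β : Fin n → ℂ,
      ‖∑ j, S.Db j s q * conj (β j)‖ ^ 2 ≤ a m q * S.levi (Φ m) β q)
    {A : ℝ} (hA0 : 0 ≤ A)
    (hA : ∀ m, ∫⁻ q, ENNReal.ofReal (a m q * Real.exp (-Φ m q)) ∂S.μ ≤ ENNReal.ofReal A) :
    ∃ F : (Fin n → ℂ) × ℕ → ℂ, S.Holo F ∧
      ∀ m, ∫⁻ q, ENNReal.ofReal (‖F q - s q‖ ^ 2 * Real.exp (-Φ m q)) ∂S.μ ≤
        ENNReal.ofReal (2 * A) := by
  obtain ⟨u, hu1, hu2, hu3⟩ := hormander_sing hp hΦ hanti hΦb hlevi (fun j => S.Db j s)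
    (fun j => CD.Db (m := 1) hs) (fun q hq j k => Db_Db_comm hs hq) hsb a ha ham hab hA0 hA
  have hloc : ∀ K : Set (Fin n → ℂ), IsCompact K → K ⊆ S.V →
      ∫⁻ q in {q : (Fin n → ℂ) × ℕ | q.1 ∈ K}, ‖u q‖ₑ ^ 2 ∂S.μ < ⊤ := by
    intro K hK hKV
    obtain ⟨B, hB⟩ := exists_bound ((hΦ 0).mono (Nat.zero_le 2)) hK hKV
    have h1 : ∫⁻ q in {q : (Fin n → ℂ) × ℕ | q.1 ∈ K}, ‖u q‖ₑ ^ 2 ∂S.μ ≤
        ∫⁻ q in {q : (Fin n → ℂ) × ℕ | q.1 ∈ K}, ENNReal.ofReal (Real.exp B) *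
          ENNReal.ofReal (‖u q‖ ^ 2 * Real.exp (-Φ 0 q)) ∂S.μ := by
      refine lintegral_mono_ae ?_
      filter_upwards [ae_restrict_of_ae (ae_mem_M (S := S)),
        ae_restrict_mem (hdc_meas_fst hK)] with q hq1 hq2
      have h3 := hB q hq1 hq2
      rw [Complex.norm_real, Real.norm_eq_abs] at h3
      have h4 : Φ 0 q ≤ B := (le_abs_self _).trans h3
      rw [← ENNReal.ofReal_mul (Real.exp_pos _).le, ← ofReal_norm,
        ← ENNReal.ofReal_pow (norm_nonneg _)]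
      refine ENNReal.ofReal_le_ofReal ?_
      have h5 : 1 ≤ Real.exp B * Real.exp (-Φ 0 q) := by
        rw [← Real.exp_add]
        exact Real.one_le_exp (by linarith)
      nlinarith [sq_nonneg ‖u q‖]
    refine h1.trans_lt ?_
    rw [lintegral_const_mul' _ _ ENNReal.ofReal_ne_top]
    refine ENNReal.mul_lt_top ENNReal.ofReal_lt_top ?_
    exact (setLIntegral_le_lintegral _ _).trans_lt ((hu2 0).trans_lt ENNReal.ofReal_lt_top)
  obtain ⟨F, hF, hFe⟩ := weylM_sub (hs.mono one_le_two) hu1 hloc hu3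
  refine ⟨F, hF, fun m => ?_⟩
  refine le_trans (le_of_eq ?_) (hu2 m)
  refine lintegral_congr_ae ?_
  filter_upwards [hFe] with q hq
  have h1 : F q - s q = - u q := by
    rw [← hq]
    ring
  rw [h1, norm_neg]

end Sheets

end Vale.Agent.P300.L2
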