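import Vale.Agent.P300.H435.L2.Proj

set_option linter.all false


open MeasureTheory Filter Topology
open scoped ENNReal NNReal ComplexConjugate

namespace Vale.Agent.P300.L2

/-- Riesz representation, in the form in which it is used. -/
theorem exists_riesz {X H : Type*} [AddCommGroup X] [Module ℂ X] [NormedAddCommGroup H]
    [InnerProductSpace ℂ H] [CompleteSpace H] (L : X →ₗ[ℂ] H) (l : X →ₗ[ℂ] ℂ) {C : ℝ}
    (hC : 0 ≤ C) (h : ∀ x, ‖l x‖ ^ 2 ≤ C * ‖L x‖ ^ 2) :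
    ∃ U : H, ‖U‖ ^ 2 ≤ C ∧ ∀ x, l x = inner ℂ U (L x) := by
  have hker : LinearMap.ker L ≤ LinearMap.ker l := by
    intro x hx
    rw [LinearMap.mem_ker] at hx ⊢
    have := h x
    rw [hx, norm_zero] at this
    have h2 : ‖l x‖ ^ 2 ≤ 0 := by simpa using this
    have h3 : ‖l x‖ = 0 := by
      have := sq_nonneg ‖l x‖
      exact pow_eq_zero_iff (two_ne_zero) |>.1 (le_antisymm h2 this)
    exact norm_eq_zero.1 h3
  let l0 : LinearMap.range L →ₗ[ℂ] ℂ :=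
    ((LinearMap.ker L).liftQ l hker).comp (L.quotKerEquivRange.symm : LinearMap.range L →ₗ[ℂ] _)
  have hl0 : ∀ x (hx : L x ∈ LinearMap.range L), l0 ⟨L x, hx⟩ = l x := by
    intro x hx
    have : L.quotKerEquivRange.symm ⟨L x, hx⟩ = (LinearMap.ker L).mkQ x := by
      rw [LinearEquiv.symm_apply_eq]
      ext
      simp
    simp only [l0, LinearMap.comp_apply, LinearEquiv.coe_coe, this, Submodule.mkQ_apply,
      Submodule.liftQ_apply]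
  have hb : ∀ y : LinearMap.range L, ‖l0 y‖ ≤ Real.sqrt C * ‖y‖ := by
    rintro ⟨y, hy⟩
    obtain ⟨x, rfl⟩ := LinearMap.mem_range.1 hy
    rw [hl0 x hy]
    have h1 := h x
    have h2 : ‖l x‖ ≤ Real.sqrt (C * ‖L x‖ ^ 2) := Real.le_sqrt_of_sq_le h1
    rw [Real.sqrt_mul hC, Real.sqrt_sq (norm_nonneg _)] at h2
    exact h2
  let f : StrongDual ℂ (LinearMap.range L) := l0.mkContinuous (Real.sqrt C) hb
  obtain ⟨g, hg, hgn⟩ := exists_extension_norm_eq (LinearMap.range L) f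
  refine ⟨(InnerProductSpace.toDual ℂ H).symm g, ?_, fun x => ?_⟩
  · rw [LinearIsometryEquiv.norm_map, hgn]
    have : ‖f‖ ≤ Real.sqrt C := LinearMap.mkContinuous_norm_le _ (Real.sqrt_nonneg _) _
    calc ‖f‖ ^ 2 ≤ (Real.sqrt C) ^ 2 := by gcongr
      _ = C := Real.sq_sqrt hC
  · rw [InnerProductSpace.toDual_symm_apply]
    have := hg ⟨L x, LinearMap.mem_range_self L x⟩
    simp only at this
    rw [this]
    exact (hl0 x _).symm

namespace Sheets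

variable {n N : ℕ} {S : Sheets n N}

/-! ### Supports -/

theorem Supp.addH {X Y : (Fin n → ℂ) × ℕ → ℂ} (hX : S.Supp X) (hY : S.Supp Y) :
    S.Supp (fun q => X q + Y q) := by
  obtain ⟨C, hC, hCV, h⟩ := hX
  obtain ⟨C', hC', hCV', h'⟩ := hY
  refine ⟨C ∪ C', hC.union hC', Set.union_subset hCV hCV', fun q hq => ?_⟩
  rw [Set.mem_union, not_or] at hq
  simp [h q hq.1, h' q hq.2]

theorem Supp.of_zeroH {X Y : (Fin n → ℂ) × ℕ → ℂ} (hX : S.Supp X)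
    (h0 : ∀ q, X q = 0 → Y q = 0) : S.Supp Y := by
  obtain ⟨C, hC, hCV, h⟩ := hX
  exact ⟨C, hC, hCV, fun q hq => h0 q (h q hq)⟩

theorem Supp.DH {X : (Fin n → ℂ) × ℕ → ℂ} (hX : S.Supp X) (j : Fin n) : S.Supp (S.D j X) := by
  obtain ⟨C, hC, hCV, h⟩ := hX
  refine ⟨C, hC, hCV, fun q hq => ?_⟩
  have h1 : (fun z => X (z, S.sec q z)) =ᶠ[𝓝 q.1] fun _ => 0 := by
    filter_upwards [hC.isClosed.isOpen_compl.mem_nhds hq] with z hz
    exact h _ hz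
  show dz j (fun z => X (z, S.sec q z)) q.1 = 0
  rw [dz_congr h1, dz_const]

theorem Supp.sumH {ι : Type*} (t : Finset ι) {X : ι → (Fin n → ℂ) × ℕ → ℂ}
    (hX : ∀ i ∈ t, S.Supp (X i)) : S.Supp (fun q => ∑ i ∈ t, X i q) := by
  classical
  induction t using Finset.induction_on with
  | empty =>
    exact ⟨∅, isCompact_empty, Set.empty_subset _, fun q _ => by simp⟩
  | insert a t ha ih =>
    have h1 := (hX a (Finset.mem_insert_self a t)).addH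
      (ih fun i hi => hX i (Finset.mem_insert_of_mem hi))
    simpa [Finset.sum_insert ha] using h1

theorem integrable_realH {f : (Fin n → ℂ) × ℕ → ℝ} (hf : S.CD 0 (fun q => (f q : ℂ)))
    (hs : S.Supp (fun q => (f q : ℂ))) : Integrable f S.μ := by
  simpa using (integrable_of_supp hf hs).re

theorem IsTest.addH {X Y : (Fin n → ℂ) × ℕ → ℂ} (hX : S.IsTest X) (hY : S.IsTest Y) :
    S.IsTest (fun q => X q + Y q) := ⟨hX.1.add hY.1, hX.2.addH hY.2⟩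

theorem IsTest.smulH {X : (Fin n → ℂ) × ℕ → ℂ} (hX : S.IsTest X) (c : ℂ) :
    S.IsTest (fun q => c * X q) :=
  ⟨(CD.const c).mul hX.1, hX.2.of_zeroH fun q hq => by simp [hq]⟩

theorem IsTest.zeroH : S.IsTest (fun _ => 0) :=
  ⟨CD.const 0, ∅, isCompact_empty, Set.empty_subset _, fun _ _ => rfl⟩

theorem IsTest.conjH {X : (Fin n → ℂ) × ℕ → ℂ} (hX : S.IsTest X) :
    S.IsTest (fun q => conj (X q)) :=
  ⟨hX.1.conj, hX.2.of_zeroH fun q hq => by simp [hq]⟩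

variable (S) in
/-- Tuples of test functions. -/
def TT : Submodule ℂ (Fin n → (Fin n → ℂ) × ℕ → ℂ) where
  carrier := {γ | ∀ j, S.IsTest (γ j)}
  add_mem' := fun ha hb j => (ha j).addH (hb j)
  zero_mem' := fun _ => IsTest.zeroH
  smul_mem' := fun c _ hγ j => (hγ j).smulH c

variable (S) in
/-- Divergence along the sheets. -/
noncomputable def dvH (γ : Fin n → (Fin n → ℂ) × ℕ → ℂ) (q : (Fin n → ℂ) × ℕ) : ℂ :=
  ∑ j, S.D j (γ j) q

theorem dvH_add {γ γ' : Fin n → (Fin n → ℂ) × ℕ → ℂ} (h : ∀ j, S.IsTest (γ j))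
    (h' : ∀ j, S.IsTest (γ' j)) {q : (Fin n → ℂ) × ℕ} (hq : q ∈ S.M) :
    S.dvH (γ + γ') q = S.dvH γ q + S.dvH γ' q := by
  rw [dvH, dvH, dvH, ← Finset.sum_add_distrib]
  refine Finset.sum_congr rfl fun j _ => ?_
  exact D_add ((h j).1.mono (by norm_num)) ((h' j).1.mono (by norm_num)) hq

theorem dvH_smul {γ : Fin n → (Fin n → ℂ) × ℕ → ℂ} (h : ∀ j, S.IsTest (γ j)) (c : ℂ)
    {q : (Fin n → ℂ) × ℕ} (hq : q ∈ S.M) : S.dvH (c • γ) q = c * S.dvH γ q := by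
  rw [dvH, dvH, Finset.mul_sum]
  refine Finset.sum_congr rfl fun j _ => ?_
  have := D_mul (S := S) (j := j) (CD.const c) ((h j).1.mono (m' := 1) (by norm_num)) hq
  have h2 : S.D j (fun _ => c) q = 0 := dz_const c
  rw [h2, zero_mul, zero_add] at this
  exact this

theorem dvH_CD {γ : Fin n → (Fin n → ℂ) × ℕ → ℂ} (h : ∀ j, S.IsTest (γ j)) : S.CD 0 (S.dvH γ) :=
  CD.sum _ fun j _ => ((h j).1.D.mono (m' := 0) (by norm_num))

theorem dvH_supp {γ : Fin n → (Fin n → ℂ) × ℕ → ℂ} (h : ∀ j, S.IsTest (γ j)) :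
    S.Supp (S.dvH γ) := Supp.sumH _ fun j _ => (h j).2.DH j

theorem memLpH {X : (Fin n → ℂ) × ℕ → ℂ} (hX : S.CD 0 X) (hs : S.Supp X) : MemLp X 2 S.μ := by
  rw [memLp_two_iff_integrable_sq_norm (aestronglyMeasurable_of_CD hX)]
  have h1 : S.CD 0 (fun q => ((‖X q‖ ^ 2 : ℝ) : ℂ)) :=
    (hX.mul hX.conj).congr fun q _ => by rw [Complex.mul_conj, Complex.normSq_eq_norm_sq]
  exact integrable_realH h1 (hs.of_zeroH fun q hq => by simp [hq])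

/-- `e ^ {Φ / 2}`. -/
theorem expH_CD {Φ : (Fin n → ℂ) × ℕ → ℝ} (hΦ : S.CD 2 (fun q => (Φ q : ℂ))) (c : ℝ) :
    S.CD 0 (fun q => ((Real.exp (c * Φ q) : ℝ) : ℂ)) :=
  CD.comp_real (φ := fun x => Real.exp (c * x)) (by fun_prop) (hΦ.mono (m' := 0) (by norm_num))

theorem divH_CD {Φ : (Fin n → ℂ) × ℕ → ℝ} (hΦ : S.CD 2 (fun q => (Φ q : ℂ)))
    {γ : Fin n → (Fin n → ℂ) × ℕ → ℂ} (h : ∀ j, S.IsTest (γ j)) :
    S.CD 0 (fun q => ((Real.exp (1 / 2 * Φ q) : ℝ) : ℂ) * S.dvH γ q) :=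
  (expH_CD hΦ _).mul (dvH_CD h)

theorem divH_supp {Φ : (Fin n → ℂ) × ℕ → ℝ}
    {γ : Fin n → (Fin n → ℂ) × ℕ → ℂ} (h : ∀ j, S.IsTest (γ j)) :
    S.Supp (fun q => ((Real.exp (1 / 2 * Φ q) : ℝ) : ℂ) * S.dvH γ q) :=
  (dvH_supp h).of_zeroH fun q hq => by simp [hq]

/-- The operator `γ ↦ e ^ {Φ / 2} ∑ D_j γ_j`. -/
noncomputable def LH {Φ : (Fin n → ℂ) × ℕ → ℝ} (hΦ : S.CD 2 (fun q => (Φ q : ℂ))) :
    TT S →ₗ[ℂ] Lp ℂ 2 S.μ where
  toFun γ := (memLpH (divH_CD hΦ γ.2) (divH_supp γ.2)).toLp _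
  map_add' γ γ' := by
    rw [← MemLp.toLp_add]
    refine MemLp.toLp_congr _ _ ?_
    filter_upwards [ae_mem_M (S := S)] with q hq
    simp only [Pi.add_apply]
    rw [Submodule.coe_add, dvH_add γ.2 γ'.2 hq, mul_add]
  map_smul' c γ := by
    rw [RingHom.id_apply, ← MemLp.toLp_const_smul]
    refine MemLp.toLp_congr _ _ ?_
    filter_upwards [ae_mem_M (S := S)] with q hq
    simp only [Pi.smul_apply, smul_eq_mul]
    rw [Submodule.coe_smul, dvH_smul γ.2 c hq]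
    ring

theorem coe_LH {Φ : (Fin n → ℂ) × ℕ → ℝ} (hΦ : S.CD 2 (fun q => (Φ q : ℂ))) (γ : TT S) :
    LH hΦ γ =ᵐ[S.μ] fun q => ((Real.exp (1 / 2 * Φ q) : ℝ) : ℂ) * S.dvH γ q :=
  MemLp.coeFn_toLp (memLpH (divH_CD hΦ γ.2) (divH_supp γ.2))

theorem norm_sq_Lp (F : Lp ℂ 2 S.μ) : ‖F‖ ^ 2 = ∫ q, ‖F q‖ ^ 2 ∂S.μ := by
  have h1 := inner_self_eq_norm_sq (𝕜 := ℂ) F
  rw [L2.inner_def] at h1
  rw [← h1]
  have h2 : (∫ q, inner ℂ (F q) (F q) ∂S.μ : ℂ) = ((∫ q, ‖F q‖ ^ 2 ∂S.μ : ℝ) : ℂ) := by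
    rw [← integral_complex_ofReal]
    refine integral_congr_ae (Eventually.of_forall fun q => ?_)
    simp only
    rw [inner_self_eq_norm_sq_to_K]
    norm_cast
  rw [h2]
  simp

theorem norm_sq_LH {Φ : (Fin n → ℂ) × ℕ → ℝ} (hΦ : S.CD 2 (fun q => (Φ q : ℂ))) (γ : TT S) :
    ‖LH hΦ γ‖ ^ 2 = ∫ q, ‖S.dvH γ q‖ ^ 2 * Real.exp (Φ q) ∂S.μ := by
  rw [norm_sq_Lp]
  refine integral_congr_ae ?_
  filter_upwards [coe_LH hΦ γ] with q hq
  rw [hq, norm_mul, Complex.norm_real, Real.norm_eq_abs, abs_of_pos (Real.exp_pos _), mul_pow,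
    ← Real.exp_nat_mul]
  rw [mul_comm]
  congr 2
  push_cast
  ring

/-- The pairing with `α`. -/
theorem pairH_CD {α : Fin n → (Fin n → ℂ) × ℕ → ℂ} (hα : ∀ j, S.CD 1 (α j))
    {γ : Fin n → (Fin n → ℂ) × ℕ → ℂ} (h : ∀ j, S.IsTest (γ j)) :
    S.CD 0 (fun q => ∑ j, conj (α j q) * γ j q) :=
  CD.sum _ fun j _ => ((hα j).mono (m' := 0) (by norm_num)).conj.mul
    ((h j).1.mono (m' := 0) (by norm_num))

theorem pairH_supp {α : Fin n → (Fin n → ℂ) × ℕ → ℂ}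
    {γ : Fin n → (Fin n → ℂ) × ℕ → ℂ} (h : ∀ j, S.IsTest (γ j)) :
    S.Supp (fun q => ∑ j, conj (α j q) * γ j q) :=
  Supp.sumH _ fun j _ => (h j).2.of_zeroH fun q hq => by simp [hq]

/-- The functional `γ ↦ ∫ ∑ conj(α_j) γ_j`. -/
noncomputable def lH {α : Fin n → (Fin n → ℂ) × ℕ → ℂ} (hα : ∀ j, S.CD 1 (α j)) :
    TT S →ₗ[ℂ] ℂ where
  toFun γ := ∫ q, ∑ j, conj (α j q) * (γ : Fin n → (Fin n → ℂ) × ℕ → ℂ) j q ∂S.μ
  map_add' γ γ' := by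
    rw [← integral_add (integrable_of_supp (pairH_CD hα γ.2) (pairH_supp γ.2))
      (integrable_of_supp (pairH_CD hα γ'.2) (pairH_supp γ'.2))]
    congr 1
    funext q
    rw [← Finset.sum_add_distrib]
    refine Finset.sum_congr rfl fun j _ => ?_
    rw [Submodule.coe_add, Pi.add_apply, Pi.add_apply, mul_add]
  map_smul' c γ := by
    rw [RingHom.id_apply, smul_eq_mul, ← integral_const_mul]
    congr 1
    funext q
    rw [Finset.mul_sum]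
    refine Finset.sum_congr rfl fun j _ => ?_
    rw [Submodule.coe_smul, Pi.smul_apply, Pi.smul_apply, smul_eq_mul]
    ring

theorem lH_eq {α : Fin n → (Fin n → ℂ) × ℕ → ℂ} (hα : ∀ j, S.CD 1 (α j)) (γ : TT S) :
    lH hα γ = conj (∫ q, ∑ j, α j q * conj ((γ : Fin n → (Fin n → ℂ) × ℕ → ℂ) j q) ∂S.μ) := by
  rw [← integral_conj]
  show ∫ q, ∑ j, conj (α j q) * (γ : Fin n → (Fin n → ℂ) × ℕ → ℂ) j q ∂S.μ = _
  congr 1
  funext q
  rw [map_sum]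
  refine Finset.sum_congr rfl fun j _ => ?_
  rw [map_mul, Complex.conj_conj]

/-! ### The weights -/

/-- `(1 + x) ^ m e ^ {-c (1 + x)}` is bounded by a multiple of `(1 + x) ^ {-r}`. -/
theorem exists_polyExp (m r : ℕ) {c : ℝ} (hc : 0 < c) : ∃ K : ℝ, 0 ≤ K ∧ ∀ x : ℝ, 0 ≤ x →
    (1 + x) ^ m * Real.exp (-(c * (1 + x))) ≤ K * ((1 + x) ^ r)⁻¹ := by
  refine ⟨(m + r).factorial / c ^ (m + r), by positivity, fun x hx => ?_⟩
  have h1 : 0 < 1 + x := by linarith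
  have h2 := Real.pow_div_factorial_le_exp (c * (1 + x)) (by positivity) (m + r)
  rw [Real.exp_neg, ← div_eq_mul_inv, ← div_eq_mul_inv, div_le_div_iff₀ (Real.exp_pos _)
    (by positivity), ← pow_add, div_mul_eq_mul_div, le_div_iff₀ (by positivity)]
  rw [div_le_iff₀ (by positivity), mul_pow] at h2
  linarith only [h2]

/-- Integrability of `(1 + |z|) ^ {- 2 (n + 1)}` over `M`. -/
theorem lintegral_decay (K : ℝ) :
    ∫⁻ q, ENNReal.ofReal (K * ((1 + ‖q.1‖) ^ (2 * (n + 1)))⁻¹) ∂S.μ < ⊤ := by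
  have hm : Measurable fun q : (Fin n → ℂ) × ℕ =>
      ENNReal.ofReal (K * ((1 + ‖q.1‖) ^ (2 * (n + 1)))⁻¹) := by fun_prop
  rw [lintegral_μ hm]
  have hI : Integrable (fun z : Fin n → ℂ => (K * ((1 + ‖z‖) ^ (2 * (n + 1)))⁻¹)) := by
    refine Integrable.const_mul ?_ _
    have h1 : (Module.finrank ℝ (Fin n → ℂ) : ℝ) < (2 * (n + 1) : ℕ) := by
      rw [finrank_real_of_complex, Module.finrank_fin_fun]
      exact_mod_cast (by omega)
    have h2 := integrable_one_add_norm (μ := (volume : Measure (Fin n → ℂ))) h1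
    refine h2.congr (Eventually.of_forall fun z => ?_)
    simp only
    rw [Real.rpow_neg (by positivity), Real.rpow_natCast]
  calc ∫⁻ z in S.V, ∑ w ∈ S.fib z, ENNReal.ofReal (K * ((1 + ‖z‖) ^ (2 * (n + 1)))⁻¹)
      = ∫⁻ z in S.V, (N : ℝ≥0∞) * ENNReal.ofReal (K * ((1 + ‖z‖) ^ (2 * (n + 1)))⁻¹) := by
        refine setLIntegral_congr_fun S.isOpen.measurableSet fun z hz => ?_
        simp only [Finset.sum_const, card_fib hz, nsmul_eq_mul]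
    _ = (N : ℝ≥0∞) * ∫⁻ z in S.V, ENNReal.ofReal (K * ((1 + ‖z‖) ^ (2 * (n + 1)))⁻¹) := by
        rw [lintegral_const_mul]
        fun_prop
    _ < ⊤ := by
        refine ENNReal.mul_lt_top (ENNReal.natCast_lt_top N) ?_
        refine lt_of_le_of_lt (setLIntegral_le_lintegral _ _) hI.lintegral_lt_top

theorem alpha_finite {p : (Fin n → ℂ) → ℝ} {C : ℝ} {k0 : ℕ} (hp : Exh S.V p C k0)
    {Φ ψ χ : (Fin n → ℂ) × ℕ → ℝ} (hΦb : ∃ c : ℝ, ∀ q ∈ S.M, c ≤ Φ q)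
    {α : (Fin n → ℂ) × ℕ → ℂ} (hαb : ∃ (c : ℝ) (k : ℕ), ∀ q ∈ S.M, ‖α q‖ ≤ c * (1 + p q.1) ^ k)
    {c2 : ℝ} (hc2 : 0 < c2) (hχ : ∀ q, χ q = c2 * (1 + p q.1) ^ (k0 + 1))
    (hχψ : ∀ q ∈ S.M, 2 * ψ q ≤ χ q) :
    ∫⁻ q, ENNReal.ofReal (‖α q‖ ^ 2 * Real.exp (-(Φ q + χ q - ψ q))) ∂S.μ < ⊤ := by
  obtain ⟨cΦ, hΦb⟩ := hΦb
  obtain ⟨cα, k, hαb⟩ := hαb
  obtain ⟨K, hK0, hK⟩ := exists_polyExp (2 * k) (n + 1) (c := c2 / 2) (by positivity)
  refine lt_of_le_of_lt (lintegral_mono_ae ?_)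
    (lintegral_decay (S := S) (cα ^ 2 * Real.exp (-cΦ) * K * 2 ^ (n + 1)))
  filter_upwards [ae_mem_M (S := S)] with q hq
  refine ENNReal.ofReal_le_ofReal ?_
  have hqV : q.1 ∈ S.V := hq.1
  have hp1 := hp.norm_sq_le q.1 hqV
  have hp0 : 0 ≤ p q.1 := le_trans (by positivity) hp1
  have h1 : ‖α q‖ ^ 2 ≤ cα ^ 2 * (1 + p q.1) ^ (2 * k) := by
    calc ‖α q‖ ^ 2 ≤ (cα * (1 + p q.1) ^ k) ^ 2 := by
          exact pow_le_pow_left₀ (norm_nonneg _) (hαb q hq) 2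
      _ = cα ^ 2 * (1 + p q.1) ^ (2 * k) := by ring
  have h2 : c2 / 2 * (1 + p q.1) ≤ χ q - ψ q := by
    have h3 := hχψ q hq
    have h4 : (1 + p q.1) ≤ (1 + p q.1) ^ (k0 + 1) := by
      have : (1 : ℝ) ≤ 1 + p q.1 := by linarith
      exact le_self_pow₀ this (by omega)
    have h5 : c2 * (1 + p q.1) ≤ χ q := by
      rw [hχ]
      gcongr
    linarith
  have h3 : Real.exp (-(Φ q + χ q - ψ q)) ≤ Real.exp (-cΦ) * Real.exp (-(c2 / 2 * (1 + p q.1))) := by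
    rw [← Real.exp_add]
    refine Real.exp_le_exp.2 ?_
    have := hΦb q hq
    linarith
  have h4 := hK (p q.1) hp0
  have h5 : ((1 + p q.1) ^ (n + 1))⁻¹ ≤ 2 ^ (n + 1) * ((1 + ‖q.1‖) ^ (2 * (n + 1)))⁻¹ := by
    rw [← div_eq_mul_inv, inv_eq_one_div, div_le_div_iff₀ (by positivity) (by positivity), one_mul,
      pow_mul, ← mul_pow]
    refine pow_le_pow_left₀ (by positivity) ?_ _
    linarith only [sq_nonneg (1 - ‖q.1‖), hp1]
  calc ‖α q‖ ^ 2 * Real.exp (-(Φ q + χ q - ψ q))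
      ≤ (cα ^ 2 * (1 + p q.1) ^ (2 * k)) *
          (Real.exp (-cΦ) * Real.exp (-(c2 / 2 * (1 + p q.1)))) := by gcongr
    _ = cα ^ 2 * Real.exp (-cΦ) * ((1 + p q.1) ^ (2 * k) * Real.exp (-(c2 / 2 * (1 + p q.1)))) := by
        ring
    _ ≤ cα ^ 2 * Real.exp (-cΦ) * (K * ((1 + p q.1) ^ (n + 1))⁻¹) := by gcongr
    _ ≤ cα ^ 2 * Real.exp (-cΦ) * (K * (2 ^ (n + 1) * ((1 + ‖q.1‖) ^ (2 * (n + 1)))⁻¹)) := by gcongr
    _ = cα ^ 2 * Real.exp (-cΦ) * K * 2 ^ (n + 1) * ((1 + ‖q.1‖) ^ (2 * (n + 1)))⁻¹ := by ring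

theorem integrable_expH {u : (Fin n → ℂ) × ℕ → ℝ} (hu : S.CD 2 (fun q => (u q : ℂ)))
    {γ : Fin n → (Fin n → ℂ) × ℕ → ℂ} (h : ∀ j, S.IsTest (γ j)) :
    Integrable (fun q => ‖S.dvH γ q‖ ^ 2 * Real.exp (u q)) S.μ := by
  have h1 : S.CD 0 (fun q => ((‖S.dvH γ q‖ ^ 2 * Real.exp (u q) : ℝ) : ℂ)) := by
    have h2 : S.CD 0 (fun q => ((Real.exp (1 * u q) : ℝ) : ℂ)) := expH_CD hu 1
    refine (((dvH_CD h).mul (dvH_CD h).conj).mul h2).congr fun q _ => ?_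
    rw [Complex.mul_conj, Complex.normSq_eq_norm_sq, one_mul]
    push_cast
    rfl
  exact integrable_realH h1 ((dvH_supp h).of_zeroH fun q hq => by simp [hq])

theorem ψH_CD {p : (Fin n → ℂ) → ℝ} {C : ℝ} {k0 : ℕ} (hp : Exh S.V p C k0) (k1 : ℕ) {τ : ℝ}
    (hτ : 0 < τ) : S.CD 2 (fun q => ((k1 * Real.log (1 + τ * p q.1) : ℝ) : ℂ)) := by
  refine CD.fst (f := fun z => ((k1 * Real.log (1 + τ * p z) : ℝ) : ℂ)) ?_
  have hp2 : ContDiffOn ℝ 2 p S.V := hp.smooth.of_le (by norm_num)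
  refine Complex.ofRealCLM.contDiff.comp_contDiffOn (contDiffOn_const.mul
    ((contDiffOn_const.add (contDiffOn_const.mul hp2)).log fun z hz => ?_))
  have h0 : 0 ≤ p z := le_trans (by positivity) (hp.norm_sq_le z hz)
  positivity

theorem χH_CD {p : (Fin n → ℂ) → ℝ} {C : ℝ} {k0 : ℕ} (hp : Exh S.V p C k0) (c : ℝ) :
    S.CD 2 (fun q => ((c * (1 + p q.1) ^ (k0 + 1) : ℝ) : ℂ)) := by
  refine CD.fst (f := fun z => ((c * (1 + p z) ^ (k0 + 1) : ℝ) : ℂ)) ?_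
  have hp2 : ContDiffOn ℝ 2 p S.V := hp.smooth.of_le (by norm_num)
  exact Complex.ofRealCLM.contDiff.comp_contDiffOn (contDiffOn_const.mul
    ((contDiffOn_const.add hp2).pow _))

/-- The estimate of the pairing. -/
theorem main_est {p : (Fin n → ℂ) → ℝ} {C : ℝ} {k0 : ℕ} (hp : Exh S.V p C k0)
    {Φ : (Fin n → ℂ) × ℕ → ℝ} (hΦ : S.CD 2 (fun q => (Φ q : ℂ)))
    (hΦb : ∃ c : ℝ, ∀ q ∈ S.M, c ≤ Φ q)
    (hlevi : ∀ q ∈ S.M, ∀ β : Fin n → ℂ, 0 ≤ S.levi Φ β q)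
    (α : Fin n → (Fin n → ℂ) × ℕ → ℂ) (hα : ∀ j, S.CD 1 (α j))
    (hcl : ∀ q ∈ S.M, ∀ j k, S.Db j (α k) q = S.Db k (α j) q)
    (hαb : ∃ (c : ℝ) (k : ℕ), ∀ q ∈ S.M, ∀ j, ‖α j q‖ ≤ c * (1 + p q.1) ^ k)
    (a : (Fin n → ℂ) × ℕ → ℝ) (ha : ∀ q, 0 ≤ a q) (ham : AEMeasurable a S.μ)
    (hab : ∀ q ∈ S.M, ∀ β : Fin n → ℂ, ‖∑ j, α j q * conj (β j)‖ ^ 2 ≤ a q * S.levi Φ β q)
    {A : ℝ} (hA0 : 0 ≤ A)
    (hA : ∫⁻ q, ENNReal.ofReal (a q * Real.exp (-Φ q)) ∂S.μ ≤ ENNReal.ofReal A)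
    (γ : Fin n → (Fin n → ℂ) × ℕ → ℂ) (hγ : ∀ j, S.IsTest (γ j)) :
    ‖∫ q, ∑ j, α j q * conj (γ j q) ∂S.μ‖ ^ 2 ≤
      2 * A * ∫ q, ‖S.dvH γ q‖ ^ 2 * Real.exp (Φ q) ∂S.μ := by
  obtain ⟨k1, C2, hC2, hw⟩ := exists_weights hp
  set τ : ℕ → ℝ := fun m => 1 / ((m : ℝ) + 1) with hτdef
  have hτ0 : ∀ m, 0 < τ m := fun m => by positivity
  have hτ1 : ∀ m, τ m ≤ 1 := fun m => by
    rw [hτdef]
    simp only
    rw [div_le_one (by positivity)]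
    have : (0 : ℝ) ≤ m := m.cast_nonneg
    linarith
  have hτlim : Tendsto τ atTop (𝓝 0) := tendsto_one_div_add_atTop_nhds_zero_nat
  have key : ∀ m, ‖∫ q, ∑ j, α j q * conj (γ j q) ∂S.μ‖ ^ 2 ≤
      2 * A * ∫ q, ‖S.dvH γ q‖ ^ 2 * Real.exp (Φ q + C2 * τ m * (1 + p q.1) ^ (k0 + 1) -
        2 * (k1 * Real.log (1 + τ m * p q.1))) ∂S.μ := by
    intro m
    obtain ⟨h1, h2, h3⟩ := hw (τ m) (hτ0 m) (hτ1 m)
    refine twisted_estimate (ψ := fun q => k1 * Real.log (1 + τ m * p q.1))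
      (χ := fun q => C2 * τ m * (1 + p q.1) ^ (k0 + 1)) hΦ (ψH_CD hp k1 (hτ0 m)) (χH_CD hp _) h2
      (fun q hq => h1 q.1 hq.1) hlevi h3 α hα hcl (fun j => ?_) a ha ham hab hA0 hA γ hγ
    obtain ⟨c, k, hc⟩ := hαb
    exact alpha_finite hp hΦb ⟨c, k, fun q hq => hc q hq j⟩ (c2 := C2 * τ m)
      (mul_pos hC2 (hτ0 m)) (fun q => rfl) (fun q hq => h1 q.1 hq.1)
  have lim : Tendsto (fun m => ∫ q, ‖S.dvH γ q‖ ^ 2 *
      Real.exp (Φ q + C2 * τ m * (1 + p q.1) ^ (k0 + 1) -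
        2 * (k1 * Real.log (1 + τ m * p q.1))) ∂S.μ) atTop
      (𝓝 (∫ q, ‖S.dvH γ q‖ ^ 2 * Real.exp (Φ q) ∂S.μ)) := by
    refine tendsto_integral_of_dominated_convergence
      (fun q => ‖S.dvH γ q‖ ^ 2 * Real.exp (Φ q + C2 * (1 + p q.1) ^ (k0 + 1))) (fun m => ?_) ?_
      (fun m => ?_) ?_
    · refine (integrable_expH ?_ hγ).aestronglyMeasurable
      have h1 := (hΦ.add (χH_CD hp (C2 * τ m))).add
        ((CD.const (-2 : ℂ)).mul (ψH_CD hp k1 (hτ0 m)))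
      refine h1.congr fun q _ => ?_
      push_cast
      ring
    · refine integrable_expH ?_ hγ
      refine (hΦ.add (χH_CD hp C2)).congr fun q _ => ?_
      push_cast
      ring
    · filter_upwards [ae_mem_M (S := S)] with q hq
      have hp0 : 0 ≤ p q.1 := le_trans (by positivity) (hp.norm_sq_le q.1 hq.1)
      rw [Real.norm_of_nonneg (by positivity)]
      have hlog : 0 ≤ Real.log (1 + τ m * p q.1) := by
        refine Real.log_nonneg ?_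
        have := mul_nonneg (hτ0 m).le hp0
        linarith
      have h4 : C2 * τ m * (1 + p q.1) ^ (k0 + 1) ≤ C2 * (1 + p q.1) ^ (k0 + 1) := by
        have : C2 * τ m ≤ C2 * 1 := by
          gcongr
          exact hτ1 m
        rw [mul_one] at this
        gcongr
      gcongr
      have h5 : (0 : ℝ) ≤ k1 * Real.log (1 + τ m * p q.1) := by positivity
      linarith
    · filter_upwards [ae_mem_M (S := S)] with q hq
      refine Tendsto.const_mul _ ((Real.continuous_exp.tendsto _).comp ?_)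
      have h6 : Tendsto (fun m => Φ q + C2 * τ m * (1 + p q.1) ^ (k0 + 1) -
          2 * (k1 * Real.log (1 + τ m * p q.1))) atTop
          (𝓝 (Φ q + C2 * 0 * (1 + p q.1) ^ (k0 + 1) - 2 * (k1 * Real.log (1 + 0 * p q.1)))) := by
        refine Tendsto.sub (Tendsto.const_add _ ((hτlim.const_mul _).mul_const _)) ?_
        refine Tendsto.const_mul _ (Tendsto.const_mul _ ?_)
        refine Tendsto.log ((hτlim.mul_const _).const_add _) ?_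
        norm_num
      simpa using h6
  exact ge_of_tendsto' (lim.const_mul _) key

/-- Hörmander's theorem on `M`. -/
theorem hormander {p : (Fin n → ℂ) → ℝ} {C : ℝ} {k0 : ℕ} (hp : Exh S.V p C k0)
    {Φ : (Fin n → ℂ) × ℕ → ℝ} (hΦ : S.CD 2 (fun q => (Φ q : ℂ)))
    (hΦb : ∃ c : ℝ, ∀ q ∈ S.M, c ≤ Φ q)
    (hlevi : ∀ q ∈ S.M, ∀ β : Fin n → ℂ, 0 ≤ S.levi Φ β q)
    (α : Fin n → (Fin n → ℂ) × ℕ → ℂ) (hα : ∀ j, S.CD 1 (α j))
    (hcl : ∀ q ∈ S.M, ∀ j k, S.Db j (α k) q = S.Db k (α j) q)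
    (hαb : ∃ (c : ℝ) (k : ℕ), ∀ q ∈ S.M, ∀ j, ‖α j q‖ ≤ c * (1 + p q.1) ^ k)
    (a : (Fin n → ℂ) × ℕ → ℝ) (ha : ∀ q, 0 ≤ a q) (ham : AEMeasurable a S.μ)
    (hab : ∀ q ∈ S.M, ∀ β : Fin n → ℂ, ‖∑ j, α j q * conj (β j)‖ ^ 2 ≤ a q * S.levi Φ β q)
    {A : ℝ} (hA0 : 0 ≤ A)
    (hA : ∫⁻ q, ENNReal.ofReal (a q * Real.exp (-Φ q)) ∂S.μ ≤ ENNReal.ofReal A) :
    ∃ u : (Fin n → ℂ) × ℕ → ℂ, AEStronglyMeasurable u S.μ ∧
      ∫⁻ q, ENNReal.ofReal (‖u q‖ ^ 2 * Real.exp (-Φ q)) ∂S.μ ≤ ENNReal.ofReal (2 * A) ∧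
      ∀ κ, S.IsTest κ → ∀ j, ∫ q, u q * S.Db j κ q ∂S.μ = - ∫ q, α j q * κ q ∂S.μ := by
  obtain ⟨U, hU, hUl⟩ := exists_riesz (LH hΦ) (lH hα) (C := 2 * A) (by positivity) (by
    intro γ
    rw [lH_eq, RCLike.norm_conj, norm_sq_LH]
    exact main_est hp hΦ hΦb hlevi α hα hcl hαb a ha ham hab hA0 hA γ γ.2)
  have hexp : AEStronglyMeasurable (fun q => ((Real.exp (1 / 2 * Φ q) : ℝ) : ℂ)) S.μ :=
    aestronglyMeasurable_of_CD (expH_CD hΦ _)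
  refine ⟨fun q => -(U q * ((Real.exp (1 / 2 * Φ q) : ℝ) : ℂ)),
    ((Lp.aestronglyMeasurable U).mul hexp).neg, ?_, fun κ hκ j => ?_⟩
  · have h1 : ∀ q, ‖-(U q * ((Real.exp (1 / 2 * Φ q) : ℝ) : ℂ))‖ ^ 2 * Real.exp (-Φ q) =
        ‖U q‖ ^ 2 := by
      intro q
      rw [norm_neg, norm_mul, Complex.norm_real, Real.norm_eq_abs, abs_of_pos (Real.exp_pos _),
        mul_pow, ← Real.exp_nat_mul, mul_assoc, ← Real.exp_add]
      have : ((2 : ℕ) : ℝ) * (1 / 2 * Φ q) + -Φ q = 0 := by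
        push_cast
        ring
      rw [this, Real.exp_zero, mul_one]
    simp_rw [h1]
    have hI : Integrable (fun q => ‖U q‖ ^ 2) S.μ :=
      (memLp_two_iff_integrable_sq_norm (Lp.aestronglyMeasurable U)).1 (Lp.memLp U)
    rw [← ofReal_integral_eq_lintegral_ofReal hI (Eventually.of_forall fun q => by positivity),
      ← norm_sq_Lp]
    exact ENNReal.ofReal_le_ofReal hU
  · set γ : Fin n → (Fin n → ℂ) × ℕ → ℂ := fun i => if i = j then (fun q => conj (κ q)) else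
      (fun _ => 0) with hγdef
    have hγ : ∀ i, S.IsTest (γ i) := by
      intro i
      by_cases h : i = j
      · simp only [hγdef, h, if_true]
        exact hκ.conjH
      · simp only [hγdef, h, if_false]
        exact IsTest.zeroH
    have hγj : γ j = fun q => conj (κ q) := by simp [hγdef]
    have h1 := hUl ⟨γ, hγ⟩
    rw [lH_eq, L2.inner_def] at h1
    have h2 : ∀ q, ∑ i, α i q * conj (γ i q) = α j q * κ q := by
      intro q
      rw [Finset.sum_eq_single j]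
      · rw [hγj, Complex.conj_conj]
      · intro i _ hij
        simp [hγdef, hij]
      · simp
    have h3 : ∀ q, S.dvH γ q = conj (S.Db j κ q) := by
      intro q
      rw [dvH, Finset.sum_eq_single j]
      · rw [hγj, D_conj]
      · intro i _ hij
        have : γ i = fun _ => 0 := by simp [hγdef, hij]
        rw [this]
        exact dz_const 0
      · simp
    have h4 : (∫ q, inner ℂ (U q) ((LH hΦ ⟨γ, hγ⟩ : Lp ℂ 2 S.μ) q) ∂S.μ : ℂ) =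
        conj (∫ q, U q * ((Real.exp (1 / 2 * Φ q) : ℝ) : ℂ) * S.Db j κ q ∂S.μ) := by
      rw [← integral_conj]
      refine integral_congr_ae ?_
      filter_upwards [coe_LH hΦ ⟨γ, hγ⟩] with q hq
      rw [hq, RCLike.inner_apply', h3, map_mul, map_mul, Complex.conj_ofReal]
      ring
    rw [h4] at h1
    have h5 := congrArg (starRingEnd ℂ) h1
    rw [Complex.conj_conj, Complex.conj_conj] at h5
    simp only [h2] at h5
    rw [h5, ← integral_neg]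
    congr 1
    funext q
    ring

end Sheets

end Vale.Agent.P300.L2
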