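import Vale.Agent.P300.H435.L2.Meas

set_option linter.all false


open MeasureTheory Filter Topology
open scoped ENNReal NNReal ComplexConjugate

namespace Vale.Agent.P300.L2

namespace Sheets

variable {n N : ℕ} {S : Sheets n N}

section hb

variable {X Y : (Fin n → ℂ) × ℕ → ℂ} {q : (Fin n → ℂ) × ℕ} {j k : Fin n} {m : ℕ}
  {lam : (Fin n → ℂ) × ℕ → ℝ}

theorem hb_supp_mul (hX : S.Supp X) (Y : (Fin n → ℂ) × ℕ → ℂ) :
    S.Supp (fun q => X q * Y q) := by
  obtain ⟨C, hC, hCV, h⟩ := hX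
  exact ⟨C, hC, hCV, fun q hq => by simp only [h q hq, zero_mul]⟩

theorem hb_supp_mul' (X : (Fin n → ℂ) × ℕ → ℂ) (hY : S.Supp Y) :
    S.Supp (fun q => X q * Y q) := by
  obtain ⟨C, hC, hCV, h⟩ := hY
  exact ⟨C, hC, hCV, fun q hq => by simp only [h q hq, mul_zero]⟩

theorem hb_supp_conj (hX : S.Supp X) : S.Supp (fun q => conj (X q)) := by
  obtain ⟨C, hC, hCV, h⟩ := hX
  exact ⟨C, hC, hCV, fun q hq => by simp only [h q hq, map_zero]⟩

theorem hb_supp_add (hX : S.Supp X) (hY : S.Supp Y) : S.Supp (fun q => X q + Y q) := by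
  obtain ⟨C, hC, hCV, h⟩ := hX
  obtain ⟨C', hC', hCV', h'⟩ := hY
  refine ⟨C ∪ C', hC.union hC', Set.union_subset hCV hCV', fun q hq => ?_⟩
  change X q + Y q = 0
  rw [h q fun hh => hq (Or.inl hh), h' q fun hh => hq (Or.inr hh), add_zero]

theorem hb_supp_sub (hX : S.Supp X) (hY : S.Supp Y) : S.Supp (fun q => X q - Y q) := by
  obtain ⟨C, hC, hCV, h⟩ := hX
  obtain ⟨C', hC', hCV', h'⟩ := hY
  refine ⟨C ∪ C', hC.union hC', Set.union_subset hCV hCV', fun q hq => ?_⟩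
  change X q - Y q = 0
  rw [h q fun hh => hq (Or.inl hh), h' q fun hh => hq (Or.inr hh), sub_zero]

theorem hb_supp_zero : S.Supp (fun _ => 0) :=
  ⟨∅, isCompact_empty, Set.empty_subset _, fun _ _ => rfl⟩

theorem hb_supp_sum {ι : Type*} (t : Finset ι) {X : ι → (Fin n → ℂ) × ℕ → ℂ}
    (hX : ∀ i ∈ t, S.Supp (X i)) : S.Supp (fun q => ∑ i ∈ t, X i q) := by
  classical
  induction t using Finset.induction_on with
  | empty => simpa using hb_supp_zero (S := S)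
  | insert a t ha ih =>
    simp only [Finset.sum_insert ha]
    exact hb_supp_add (hX a (Finset.mem_insert_self _ _))
      (ih fun i hi => hX i (Finset.mem_insert_of_mem hi))

theorem hb_supp_D (hX : S.Supp X) : S.Supp (S.D j X) := by
  obtain ⟨C, hC, hCV, h⟩ := hX
  refine ⟨C, hC, hCV, fun q hq => ?_⟩
  have h1 : (fun z => X (z, S.sec q z)) =ᶠ[𝓝 q.1] fun _ => 0 := by
    filter_upwards [hC.isClosed.isOpen_compl.mem_nhds hq] with z hz
    exact h _ hz
  rw [Sheets.D, dz_congr h1, dz_const]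

theorem hb_supp_Db (hX : S.Supp X) : S.Supp (S.Db j X) := by
  obtain ⟨C, hC, hCV, h⟩ := hX
  refine ⟨C, hC, hCV, fun q hq => ?_⟩
  have h1 : (fun z => X (z, S.sec q z)) =ᶠ[𝓝 q.1] fun _ => 0 := by
    filter_upwards [hC.isClosed.isOpen_compl.mem_nhds hq] with z hz
    exact h _ hz
  rw [Sheets.Db, dzb_congr h1, dzb_const]

theorem hb_CD_neg (hX : S.CD m X) : S.CD m (fun q => -X q) := by
  simpa using (CD.const (S := S) (m := m) (-1 : ℂ)).mul hX

theorem hb_CD_sub (hX : S.CD m X) (hY : S.CD m Y) : S.CD m (fun q => X q - Y q) := by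
  simpa only [sub_eq_add_neg] using hX.add (hb_CD_neg hY)

theorem hb_D_neg (hX : S.CD 1 X) (hq : q ∈ S.M) : S.D j (fun q => -X q) q = -S.D j X q := by
  have h := D_mul (S := S) (j := j) (CD.const (-1 : ℂ)) hX hq
  have h0 : S.D j (fun _ => (-1 : ℂ)) q = 0 := by rw [Sheets.D, dz_const]
  simpa [h0] using h

theorem hb_Db_neg (hX : S.CD 1 X) (hq : q ∈ S.M) : S.Db j (fun q => -X q) q = -S.Db j X q := by
  have h := Db_mul (S := S) (j := j) (CD.const (-1 : ℂ)) hX hq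
  have h0 : S.Db j (fun _ => (-1 : ℂ)) q = 0 := by rw [Sheets.Db, dzb_const]
  simpa [h0] using h

theorem hb_D_sub (hX : S.CD 1 X) (hY : S.CD 1 Y) (hq : q ∈ S.M) :
    S.D j (fun q => X q - Y q) q = S.D j X q - S.D j Y q := by
  simp only [sub_eq_add_neg]
  rw [D_add hX (hb_CD_neg hY) hq, hb_D_neg hY hq]

theorem hb_Db_sub (hX : S.CD 1 X) (hY : S.CD 1 Y) (hq : q ∈ S.M) :
    S.Db j (fun q => X q - Y q) q = S.Db j X q - S.Db j Y q := by
  simp only [sub_eq_add_neg]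
  rw [Db_add hX (hb_CD_neg hY) hq, hb_Db_neg hY hq]

theorem hb_CD_exp (hlam : S.CD m (fun q => (lam q : ℂ))) :
    S.CD m (fun q => ((Real.exp (-lam q) : ℝ) : ℂ)) :=
  CD.comp_real (φ := fun t => Real.exp (-t)) (by fun_prop) hlam

theorem hb_D_exp (hlam : S.CD 1 (fun q => (lam q : ℂ))) (hq : q ∈ S.M) :
    S.D j (fun q => ((Real.exp (-lam q) : ℝ) : ℂ)) q =
      -(S.D j (fun q => (lam q : ℂ)) q * ((Real.exp (-lam q) : ℝ) : ℂ)) := by
  have hd : ∀ t : ℝ, HasDerivAt (fun t => Real.exp (-t)) (-Real.exp (-t)) t := fun t => by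
    simpa using (hasDerivAt_neg t).exp
  have h := D_comp_real (φ := fun t => Real.exp (-t)) (j := j) hlam hq (hd _).differentiableAt
  rw [(hd _).deriv] at h
  rw [h]
  push_cast
  ring

/-- `δ_j X = D_j X - (D_j lam) X`. -/
noncomputable def hb_del (S : Sheets n N) (lam : (Fin n → ℂ) × ℕ → ℝ) (j : Fin n)
    (X : (Fin n → ℂ) × ℕ → ℂ) (q : (Fin n → ℂ) × ℕ) : ℂ :=
  S.D j X q - S.D j (fun q => (lam q : ℂ)) q * X q

theorem hb_CD_del (hlam : S.CD (m + 1) (fun q => (lam q : ℂ))) (hX : S.CD (m + 1) X) :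
    S.CD m (S.hb_del lam j X) :=
  hb_CD_sub hX.D (hlam.D.mul (hX.mono (Nat.le_succ m)))

theorem hb_supp_del (hX : S.Supp X) : S.Supp (S.hb_del lam j X) :=
  hb_supp_sub (hb_supp_D hX) (hb_supp_mul' _ hX)

/-- First rule. -/
theorem hb_adj (hlam : S.CD 2 (fun q => (lam q : ℂ))) (hX : S.CD 1 X) (hs : S.Supp X)
    (hY : S.CD 1 Y) :
    ∫ q, S.hb_del lam j X q * conj (Y q) * ((Real.exp (-lam q) : ℝ) : ℂ) ∂S.μ =
      -∫ q, X q * conj (S.Db j Y q) * ((Real.exp (-lam q) : ℝ) : ℂ) ∂S.μ := by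
  have hlam1 : S.CD 1 (fun q => (lam q : ℂ)) := hlam.mono (by norm_num)
  have hE := hb_CD_exp hlam1
  have h := integral_mul_D (j := j) hY.conj (hX.mul hE) (hb_supp_mul hs _)
  have e1 : ∫ q, conj (Y q) * S.D j (fun q => X q * ((Real.exp (-lam q) : ℝ) : ℂ)) q ∂S.μ =
      ∫ q, S.hb_del lam j X q * conj (Y q) * ((Real.exp (-lam q) : ℝ) : ℂ) ∂S.μ := by
    refine integral_congr_ae (ae_mem_M.mono fun q hq => ?_)
    change conj (Y q) * S.D j (fun q => X q * ((Real.exp (-lam q) : ℝ) : ℂ)) q = _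
    beta_reduce
    rw [D_mul hX hE hq, hb_D_exp hlam1 hq, hb_del]
    ring
  rw [← e1, h]
  congr 1
  refine integral_congr_ae (Eventually.of_forall fun q => ?_)
  change S.D j (fun q => conj (Y q)) q * (X q * ((Real.exp (-lam q) : ℝ) : ℂ)) = _
  rw [D_conj]
  ring

/-- Second rule. -/
theorem hb_adj' (hlam : S.CD 2 (fun q => (lam q : ℂ))) (hX : S.CD 1 X) (hY : S.CD 1 Y)
    (hs : S.Supp Y) :
    ∫ q, X q * conj (S.hb_del lam j Y q) * ((Real.exp (-lam q) : ℝ) : ℂ) ∂S.μ =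
      -∫ q, S.Db j X q * conj (Y q) * ((Real.exp (-lam q) : ℝ) : ℂ) ∂S.μ := by
  have h := congrArg conj (hb_adj (j := j) hlam hY hs hX)
  rw [map_neg, ← integral_conj, ← integral_conj] at h
  have e1 : ∫ q, X q * conj (S.hb_del lam j Y q) * ((Real.exp (-lam q) : ℝ) : ℂ) ∂S.μ =
      ∫ q, conj (S.hb_del lam j Y q * conj (X q) * ((Real.exp (-lam q) : ℝ) : ℂ)) ∂S.μ := by
    refine integral_congr_ae (Eventually.of_forall fun q => ?_)
    simp only [map_mul, Complex.conj_conj, Complex.conj_ofReal]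
    ring
  rw [e1, h]
  congr 1
  refine integral_congr_ae (Eventually.of_forall fun q => ?_)
  simp only [map_mul, Complex.conj_conj, Complex.conj_ofReal]
  ring

/-- Commutator. -/
theorem hb_comm (hlam : S.CD 2 (fun q => (lam q : ℂ))) (hX : S.CD 2 X) (hq : q ∈ S.M) :
    S.Db k (S.hb_del lam j X) q = S.hb_del lam j (S.Db k X) q -
      S.D j (S.Db k (fun q => (lam q : ℂ))) q * X q := by
  have hX1 : S.CD 1 X := hX.mono (by norm_num)
  have h1 : S.CD 1 (S.D j X) := CD.D (m := 1) hX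
  have h2 : S.CD 1 (S.D j (fun q => (lam q : ℂ))) := CD.D (m := 1) hlam
  have e : S.Db k (S.hb_del lam j X) q = S.Db k (fun q => S.D j X q -
      S.D j (fun q => (lam q : ℂ)) q * X q) q := rfl
  rw [e, hb_Db_sub h1 (h2.mul hX1) hq, Db_mul h2 hX1 hq, ← D_Db_comm hX hq,
    ← D_Db_comm hlam hq]
  change _ = (S.D j (S.Db k X) q - S.D j (fun q => (lam q : ℂ)) q * S.Db k X q) - _
  ring

theorem hb_re_sum {F : Fin n → Fin n → (Fin n → ℂ) × ℕ → ℂ}
    (h : ∀ j k, Integrable (F j k) S.μ) :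
    (∑ j, ∑ k, ∫ q, F j k q ∂S.μ).re = ∫ q, (∑ j, ∑ k, F j k q).re ∂S.μ := by
  have h1 : ∀ j, ∑ k, ∫ q, F j k q ∂S.μ = ∫ q, ∑ k, F j k q ∂S.μ := fun j =>
    (integral_finsetSum _ fun k _ => h j k).symm
  have h2 : ∑ j, ∑ k, ∫ q, F j k q ∂S.μ = ∫ q, ∑ j, ∑ k, F j k q ∂S.μ := by
    simp only [h1]
    exact (integral_finsetSum _ fun j _ => integrable_finsetSum _ fun k _ => h j k).symm
  rw [h2]
  exact (integral_re (integrable_finsetSum _ fun j _ => integrable_finsetSum _ fun k _ =>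
    h j k)).symm

theorem hb_cross (hlam : S.CD 2 (fun q => (lam q : ℂ))) (hX : S.IsTest X) (hY : S.IsTest Y) :
    ∫ q, S.hb_del lam j X q * conj (S.hb_del lam k Y q) * ((Real.exp (-lam q) : ℝ) : ℂ) ∂S.μ =
      ∫ q, S.Db k X q * conj (S.Db j Y q) * ((Real.exp (-lam q) : ℝ) : ℂ) ∂S.μ +
      ∫ q, S.D j (S.Db k (fun q => (lam q : ℂ))) q * X q * conj (Y q) *
        ((Real.exp (-lam q) : ℝ) : ℂ) ∂S.μ := by
  have hX1 : S.CD 1 X := hX.1.mono (by norm_num)
  have hY1 : S.CD 1 Y := hY.1.mono (by norm_num)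
  have hX0 : S.CD 0 X := hX.1.mono (by norm_num)
  have hY0 : S.CD 0 Y := hY.1.mono (by norm_num)
  have hdel : S.CD 1 (S.hb_del lam j X) := hb_CD_del (m := 1) hlam hX.1
  have hDbX : S.CD 1 (S.Db k X) := CD.Db (m := 1) hX.1
  have hE0 : S.CD 0 (fun q => ((Real.exp (-lam q) : ℝ) : ℂ)) :=
    hb_CD_exp (hlam.mono (by norm_num))
  have hL0 : S.CD 0 (S.D j (S.Db k (fun q => (lam q : ℂ)))) :=
    CD.D (m := 0) (CD.Db (m := 1) hlam)
  have hlam1 : S.CD 1 (fun q => (lam q : ℂ)) := hlam.mono (by norm_num)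
  rw [hb_adj' hlam hdel hY1 hY.2]
  have e1 : ∫ q, S.Db k (S.hb_del lam j X) q * conj (Y q) *
        ((Real.exp (-lam q) : ℝ) : ℂ) ∂S.μ =
      ∫ q, (S.hb_del lam j (S.Db k X) q * conj (Y q) * ((Real.exp (-lam q) : ℝ) : ℂ) -
        S.D j (S.Db k (fun q => (lam q : ℂ))) q * X q * conj (Y q) *
        ((Real.exp (-lam q) : ℝ) : ℂ)) ∂S.μ := by
    refine integral_congr_ae (ae_mem_M.mono fun q hq => ?_)
    simp only [hb_comm hlam hX.1 hq]
    ring
  have i1 : Integrable (fun q => S.hb_del lam j (S.Db k X) q * conj (Y q) *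
      ((Real.exp (-lam q) : ℝ) : ℂ)) S.μ :=
    integrable_of_supp (((hb_CD_del (m := 0) hlam1 hDbX).mul hY0.conj).mul hE0)
      (hb_supp_mul (hb_supp_mul' _ (hb_supp_conj hY.2)) _)
  have i2 : Integrable (fun q => S.D j (S.Db k (fun q => (lam q : ℂ))) q * X q * conj (Y q) *
      ((Real.exp (-lam q) : ℝ) : ℂ)) S.μ :=
    integrable_of_supp (((hL0.mul hX0).mul hY0.conj).mul hE0)
      (hb_supp_mul (hb_supp_mul' _ (hb_supp_conj hY.2)) _)
  rw [e1, integral_sub i1 i2, hb_adj hlam hDbX (hb_supp_Db hX.2) hY1]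
  ring

theorem hb_integrable_real {f : (Fin n → ℂ) × ℕ → ℝ} (hf : S.CD 0 (fun q => (f q : ℂ)))
    (hs : S.Supp (fun q => (f q : ℂ))) : Integrable f S.μ := by
  have h := (integrable_of_supp hf hs).re
  exact h

/-- algebra for the final step. -/
theorem hb_alg (a : Fin n → Fin n → ℂ) :
    -(1 / 2 : ℝ) * ∑ j, ∑ k, ‖a j k - a k j‖ ^ 2 ≤ (∑ j, ∑ k, a k j * conj (a j k)).re := by
  have h1 : ∀ j k, ‖a j k - a k j‖ ^ 2 =
      ‖a j k‖ ^ 2 + ‖a k j‖ ^ 2 - 2 * (a k j * conj (a j k)).re := by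
    intro j k
    rw [← Complex.normSq_eq_norm_sq, ← Complex.normSq_eq_norm_sq, ← Complex.normSq_eq_norm_sq,
      Complex.normSq_sub]
    have : (a j k * conj (a k j)).re = (a k j * conj (a j k)).re := by
      simp only [Complex.mul_re, Complex.conj_re, Complex.conj_im]
      ring
    rw [this]
  have h2 : ∑ j, ∑ k, ‖a j k - a k j‖ ^ 2 =
      2 * ∑ j, ∑ k, ‖a j k‖ ^ 2 - 2 * (∑ j, ∑ k, a k j * conj (a j k)).re := by
    simp only [h1, Finset.sum_sub_distrib, Finset.sum_add_distrib, ← Finset.mul_sum,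
      Complex.re_sum]
    rw [Finset.sum_comm (f := fun j k => ‖a k j‖ ^ 2)]
    ring
  rw [h2]
  have h3 : 0 ≤ ∑ j, ∑ k, ‖a j k‖ ^ 2 := by (clear * -; positivity)
  linarith

end hb

/-- The basic inequality (Kodaira-Nakano-Hörmander), for the weight `exp (-lam)`. -/
theorem basic_ineq (lam : (Fin n → ℂ) × ℕ → ℝ) (hlam : S.CD 2 (fun q => (lam q : ℂ)))
    (β : Fin n → (Fin n → ℂ) × ℕ → ℂ) (hβ : ∀ j, S.IsTest (β j)) :
    ∫ q, S.levi lam (fun j => β j q) q * Real.exp (-lam q) ∂S.μ ≤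
      ∫ q, ‖∑ j, (S.D j (β j) q - S.D j (fun q => (lam q : ℂ)) q * β j q)‖ ^ 2 *
        Real.exp (-lam q) ∂S.μ +
      (1 / 2) * ∑ j, ∑ k, ∫ q, ‖S.Db j (β k) q - S.Db k (β j) q‖ ^ 2 *
        Real.exp (-lam q) ∂S.μ := by
  have hE0 : S.CD 0 (fun q => ((Real.exp (-lam q) : ℝ) : ℂ)) :=
    hb_CD_exp (hlam.mono (by norm_num))
  have hlam1 : S.CD 1 (fun q => (lam q : ℂ)) := hlam.mono (by norm_num)
  have hβ0 : ∀ j, S.CD 0 (β j) := fun j => (hβ j).1.mono (by norm_num)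
  have hβ1 : ∀ j, S.CD 1 (β j) := fun j => (hβ j).1.mono (by norm_num)
  have hdel : ∀ j, S.CD 0 (S.hb_del lam j (β j)) := fun j => hb_CD_del (m := 0) hlam1 (hβ1 j)
  have hDb : ∀ j k, S.CD 0 (S.Db k (β j)) := fun j k => CD.Db (m := 0) (hβ1 j)
  have hL0 : ∀ j k, S.CD 0 (S.D j (S.Db k (fun q => (lam q : ℂ)))) := fun j k =>
    CD.D (m := 0) (CD.Db (m := 1) hlam)
  -- integrability of the three families
  have i1 : ∀ j k, Integrable (fun q => S.hb_del lam j (β j) q *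
      conj (S.hb_del lam k (β k) q) * ((Real.exp (-lam q) : ℝ) : ℂ)) S.μ := fun j k =>
    integrable_of_supp (((hdel j).mul (hdel k).conj).mul hE0)
      (hb_supp_mul (hb_supp_mul (hb_supp_del (hβ j).2) _) _)
  have i2 : ∀ j k, Integrable (fun q => S.Db k (β j) q * conj (S.Db j (β k) q) *
      ((Real.exp (-lam q) : ℝ) : ℂ)) S.μ := fun j k =>
    integrable_of_supp (((hDb j k).mul (hDb k j).conj).mul hE0)
      (hb_supp_mul (hb_supp_mul (hb_supp_Db (hβ j).2) _) _)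
  have i3 : ∀ j k, Integrable (fun q => S.D j (S.Db k (fun q => (lam q : ℂ))) q * β j q *
      conj (β k q) * ((Real.exp (-lam q) : ℝ) : ℂ)) S.μ := fun j k =>
    integrable_of_supp ((((hL0 j k).mul (hβ0 j)).mul (hβ0 k).conj).mul hE0)
      (hb_supp_mul (hb_supp_mul (hb_supp_mul' _ (hβ j).2) _) _)
  have i4 : ∀ j k, Integrable (fun q => ‖S.Db j (β k) q - S.Db k (β j) q‖ ^ 2 *
      Real.exp (-lam q)) S.μ := by
    intro j k
    have e : (fun q => (((‖S.Db j (β k) q - S.Db k (β j) q‖ ^ 2 * Real.exp (-lam q) : ℝ)) : ℂ)) =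
        fun q => (S.Db j (β k) q - S.Db k (β j) q) * conj (S.Db j (β k) q - S.Db k (β j) q) *
          ((Real.exp (-lam q) : ℝ) : ℂ) := by
      funext q
      rw [Complex.mul_conj, Complex.normSq_eq_norm_sq]
      push_cast
      rfl
    have hsub := hb_CD_sub (hDb k j) (hDb j k)
    refine hb_integrable_real ?_ ?_
    · rw [e]
      exact (hsub.mul hsub.conj).mul hE0
    · rw [e]
      exact hb_supp_mul (hb_supp_mul (hb_supp_sub (hb_supp_Db (hβ k).2) (hb_supp_Db (hβ j).2)) _) _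
  -- the identity
  have key : ∑ j, ∑ k, ∫ q, S.hb_del lam j (β j) q * conj (S.hb_del lam k (β k) q) *
        ((Real.exp (-lam q) : ℝ) : ℂ) ∂S.μ =
      ∑ j, ∑ k, ∫ q, S.Db k (β j) q * conj (S.Db j (β k) q) *
        ((Real.exp (-lam q) : ℝ) : ℂ) ∂S.μ +
      ∑ j, ∑ k, ∫ q, S.D j (S.Db k (fun q => (lam q : ℂ))) q * β j q * conj (β k q) *
        ((Real.exp (-lam q) : ℝ) : ℂ) ∂S.μ := by
    simp only [hb_cross hlam (hβ _) (hβ _), Finset.sum_add_distrib]
  have r1 : (∑ j, ∑ k, ∫ q, S.hb_del lam j (β j) q * conj (S.hb_del lam k (β k) q) *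
        ((Real.exp (-lam q) : ℝ) : ℂ) ∂S.μ).re =
      ∫ q, ‖∑ j, (S.D j (β j) q - S.D j (fun q => (lam q : ℂ)) q * β j q)‖ ^ 2 *
        Real.exp (-lam q) ∂S.μ := by
    rw [hb_re_sum i1]
    refine integral_congr_ae (Eventually.of_forall fun q => ?_)
    have e : ∑ j, ∑ k, S.hb_del lam j (β j) q * conj (S.hb_del lam k (β k) q) *
        ((Real.exp (-lam q) : ℝ) : ℂ) =
        (((‖∑ j, (S.D j (β j) q - S.D j (fun q => (lam q : ℂ)) q * β j q)‖ ^ 2 *
          Real.exp (-lam q) : ℝ)) : ℂ) := by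
      rw [Complex.ofReal_mul, ← Complex.normSq_eq_norm_sq, ← Complex.mul_conj, map_sum,
        Finset.sum_mul_sum, Finset.sum_mul]
      refine Finset.sum_congr rfl fun j _ => ?_
      rw [Finset.sum_mul]
      rfl
    change (∑ j, ∑ k, S.hb_del lam j (β j) q * conj (S.hb_del lam k (β k) q) *
        ((Real.exp (-lam q) : ℝ) : ℂ)).re = _
    rw [e, Complex.ofReal_re]
  have r2 : (∑ j, ∑ k, ∫ q, S.Db k (β j) q * conj (S.Db j (β k) q) *
        ((Real.exp (-lam q) : ℝ) : ℂ) ∂S.μ).re =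
      ∫ q, (∑ j, ∑ k, S.Db k (β j) q * conj (S.Db j (β k) q)).re * Real.exp (-lam q) ∂S.μ := by
    rw [hb_re_sum i2]
    refine integral_congr_ae (Eventually.of_forall fun q => ?_)
    change (∑ j, ∑ k, S.Db k (β j) q * conj (S.Db j (β k) q) *
        ((Real.exp (-lam q) : ℝ) : ℂ)).re = _
    beta_reduce
    rw [← Complex.re_mul_ofReal, Finset.sum_mul]
    congr 1
    exact Finset.sum_congr rfl fun j _ => (Finset.sum_mul _ _ _).symm
  have r3 : (∑ j, ∑ k, ∫ q, S.D j (S.Db k (fun q => (lam q : ℂ))) q * β j q * conj (β k q) *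
        ((Real.exp (-lam q) : ℝ) : ℂ) ∂S.μ).re =
      ∫ q, S.levi lam (fun j => β j q) q * Real.exp (-lam q) ∂S.μ := by
    rw [hb_re_sum i3]
    refine integral_congr_ae (Eventually.of_forall fun q => ?_)
    change (∑ j, ∑ k, S.D j (S.Db k (fun q => (lam q : ℂ))) q * β j q * conj (β k q) *
        ((Real.exp (-lam q) : ℝ) : ℂ)).re = _
    beta_reduce
    rw [levi, ← Complex.re_mul_ofReal, Finset.sum_mul]
    congr 1
    exact Finset.sum_congr rfl fun j _ => (Finset.sum_mul _ _ _).symm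
  have key' := congrArg Complex.re key
  rw [Complex.add_re, r1, r2, r3] at key'
  -- the last inequality
  have i2' : Integrable (fun q => (∑ j, ∑ k, S.Db k (β j) q * conj (S.Db j (β k) q)).re *
      Real.exp (-lam q)) S.μ := by
    have h := (integrable_finsetSum Finset.univ fun j (_ : j ∈ Finset.univ) =>
      integrable_finsetSum Finset.univ fun k (_ : k ∈ Finset.univ) => i2 j k).re
    refine h.congr (Eventually.of_forall fun q => ?_)
    change (∑ j, ∑ k, S.Db k (β j) q * conj (S.Db j (β k) q) *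
        ((Real.exp (-lam q) : ℝ) : ℂ)).re = _
    beta_reduce
    rw [← Complex.re_mul_ofReal, Finset.sum_mul]
    congr 1
    exact Finset.sum_congr rfl fun j _ => (Finset.sum_mul _ _ _).symm
  have i4' : Integrable (fun q => ∑ j, ∑ k, ‖S.Db j (β k) q - S.Db k (β j) q‖ ^ 2 *
      Real.exp (-lam q)) S.μ :=
    integrable_finsetSum _ fun j _ => integrable_finsetSum _ fun k _ => i4 j k
  have e4 : ∑ j, ∑ k, ∫ q, ‖S.Db j (β k) q - S.Db k (β j) q‖ ^ 2 * Real.exp (-lam q) ∂S.μ =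
      ∫ q, ∑ j, ∑ k, ‖S.Db j (β k) q - S.Db k (β j) q‖ ^ 2 * Real.exp (-lam q) ∂S.μ := by
    rw [integral_finsetSum _ fun j _ => integrable_finsetSum _ fun k _ => i4 j k]
    exact Finset.sum_congr rfl fun j _ => (integral_finsetSum _ fun k _ => i4 j k).symm
  have hle : -(1 / 2 : ℝ) * ∫ q, ∑ j, ∑ k, ‖S.Db j (β k) q - S.Db k (β j) q‖ ^ 2 *
      Real.exp (-lam q) ∂S.μ ≤
      ∫ q, (∑ j, ∑ k, S.Db k (β j) q * conj (S.Db j (β k) q)).re * Real.exp (-lam q) ∂S.μ := by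
    rw [← integral_const_mul]
    refine integral_mono (i4'.const_mul _) i2' fun q => ?_
    have h := hb_alg fun j k => S.Db j (β k) q
    change -(1 / 2 : ℝ) * ∑ j, ∑ k, ‖S.Db j (β k) q - S.Db k (β j) q‖ ^ 2 * Real.exp (-lam q) ≤
      (∑ j, ∑ k, S.Db k (β j) q * conj (S.Db j (β k) q)).re * Real.exp (-lam q)
    simp only [← Finset.sum_mul]
    rw [← mul_assoc]
    exact mul_le_mul_of_nonneg_right h (Real.exp_pos _).le
  rw [e4]
  linarith only [hle, key']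

end Sheets

end Vale.Agent.P300.L2
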