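import Vale.Agent.P300.H435.L2.Apriori

set_option linter.all false


open MeasureTheory Filter Topology
open scoped ENNReal NNReal ComplexConjugate

namespace Vale.Agent.P300.L2

section aux

variable {Ω : Type*} [MeasurableSpace Ω] {ν : Measure Ω}

theorem HPair_integrable {f : Ω → ℝ} (hf : AEStronglyMeasurable f ν) (h0 : ∀ x, 0 ≤ f x)
    (h : ∫⁻ x, ENNReal.ofReal (f x) ∂ν < ⊤) : Integrable f ν := by
  refine ⟨hf, ?_⟩
  rwa [hasFiniteIntegral_iff_ofReal (ae_of_all _ h0)]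

theorem HPair_integral_le {f : Ω → ℝ} (hf : AEStronglyMeasurable f ν) (h0 : ∀ x, 0 ≤ f x)
    {c : ℝ} (hc : 0 ≤ c) (h : ∫⁻ x, ENNReal.ofReal (f x) ∂ν ≤ ENNReal.ofReal c) :
    ∫ x, f x ∂ν ≤ c := by
  rw [integral_eq_lintegral_of_nonneg_ae (ae_of_all _ h0) hf]
  exact ENNReal.toReal_le_of_le_ofReal hc h

/-- Products of two weighted square integrable functions. -/
theorem HPair_mul_integrable {X Y : Ω → ℂ} {w : Ω → ℝ} (hX : AEStronglyMeasurable X ν)
    (hY : AEStronglyMeasurable Y ν) (hw : AEStronglyMeasurable w ν) (hw0 : ∀ x, 0 ≤ w x)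
    (hX2 : Integrable (fun x => ‖X x‖ ^ 2 * w x) ν)
    (hY2 : Integrable (fun x => ‖Y x‖ ^ 2 * w x) ν) :
    Integrable (fun x => X x * conj (Y x) * (w x : ℂ)) ν := by
  refine Integrable.mono' ((hX2.add hY2).const_mul (1 / 2)) ?_ (ae_of_all _ fun x => ?_)
  · exact (hX.mul (Complex.continuous_conj.comp_aestronglyMeasurable hY)).mul
      (Complex.continuous_ofReal.comp_aestronglyMeasurable hw)
  · simp only [Pi.add_apply]
    rw [norm_mul, norm_mul, RCLike.norm_conj, Complex.norm_real, Real.norm_of_nonneg (hw0 x)]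
    have h1 : ‖X x‖ * ‖Y x‖ ≤ 1 / 2 * (‖X x‖ ^ 2 + ‖Y x‖ ^ 2) := by
      linarith only [sq_nonneg (‖X x‖ - ‖Y x‖)]
    have h2 := mul_le_mul_of_nonneg_right h1 (hw0 x)
    linarith

/-- The discriminant argument. -/
theorem HPair_discrim {I A G : ℝ} (hI : 0 ≤ I) (hA : 0 ≤ A)
    (h : ∀ t : ℝ, 0 < t → 2 * I ≤ t * A + t⁻¹ * G) (hG : 0 ≤ G) : I ^ 2 ≤ A * G := by
  have key : ∀ t : ℝ, 0 ≤ A * (t * t) + (-(2 * I)) * t + G := by
    intro t
    rcases le_or_gt t 0 with ht | ht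
    · have h1 : 0 ≤ A * (t * t) := mul_nonneg hA (mul_self_nonneg t)
      have h2 : 0 ≤ (-(2 * I)) * t := by linarith only [mul_nonneg (sub_nonneg.2 hI) (sub_nonneg.2 ht)]
      linarith
    · have h1 := mul_le_mul_of_nonneg_left (h t ht) ht.le
      have h2 : t * (t * A + t⁻¹ * G) = A * (t * t) + G := by
        field_simp
      rw [h2] at h1
      linarith
  have h1 := discrim_le_zero key
  rw [discrim] at h1
  linarith only [h1]

end aux

namespace Sheets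

variable {n N : ℕ} {S : Sheets n N}

theorem HPair_supp_mul {X Y : (Fin n → ℂ) × ℕ → ℂ} (hX : S.Supp X) :
    S.Supp (fun q => X q * Y q) := by
  obtain ⟨C, h1, h2, h3⟩ := hX
  exact ⟨C, h1, h2, fun q hq => by beta_reduce; rw [h3 q hq, zero_mul]⟩

theorem HPair_supp_mul' {X Y : (Fin n → ℂ) × ℕ → ℂ} (hX : S.Supp X) :
    S.Supp (fun q => Y q * X q) := by
  obtain ⟨C, h1, h2, h3⟩ := hX
  exact ⟨C, h1, h2, fun q hq => by beta_reduce; rw [h3 q hq, mul_zero]⟩

theorem HPair_supp_conj {X : (Fin n → ℂ) × ℕ → ℂ} (hX : S.Supp X) :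
    S.Supp (fun q => conj (X q)) := by
  obtain ⟨C, h1, h2, h3⟩ := hX
  exact ⟨C, h1, h2, fun q hq => by beta_reduce; rw [h3 q hq, map_zero]⟩

theorem HPair_supp_sum {ι : Type*} (t : Finset ι) {X : ι → (Fin n → ℂ) × ℕ → ℂ}
    (hX : ∀ i ∈ t, S.Supp (X i)) : S.Supp (fun q => ∑ i ∈ t, X i q) := by
  classical
  induction t using Finset.induction_on with
  | empty => exact ⟨∅, isCompact_empty, Set.empty_subset _, fun q _ => by simp⟩
  | insert i t hi ih =>
    obtain ⟨C, h1, h2, h3⟩ := ih fun j hj => hX j (Finset.mem_insert_of_mem hj)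
    obtain ⟨C', h1', h2', h3'⟩ := hX i (Finset.mem_insert_self _ _)
    refine ⟨C ∪ C', h1.union h1', Set.union_subset h2 h2', fun q hq => ?_⟩
    beta_reduce
    rw [Finset.sum_insert hi, h3' q fun h => hq (Or.inr h), zero_add]
    exact h3 q fun h => hq (Or.inl h)

/-- The derivative `D` of a function with support over a compact set (almost everywhere version):
we only need that `D_j X` agrees on `M` with a function supported over a compact set. -/
theorem HPair_D_zero {X : (Fin n → ℂ) × ℕ → ℂ} (j : Fin n) {C : Set (Fin n → ℂ)}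
    (hC : IsClosed C) (h : ∀ q : (Fin n → ℂ) × ℕ, q.1 ∉ C → X q = 0)
    (q : (Fin n → ℂ) × ℕ) (hq : q.1 ∉ C) : S.D j X q = 0 := by
  have h1 : (fun z => X (z, S.sec q z)) =ᶠ[𝓝 q.1] fun _ => 0 := by
    filter_upwards [hC.isOpen_compl.mem_nhds hq] with z hz
    exact h _ hz
  rw [Sheets.D, dz_congr h1, dz_const]

theorem HPair_Db_zero {X : (Fin n → ℂ) × ℕ → ℂ} (j : Fin n) {C : Set (Fin n → ℂ)}
    (hC : IsClosed C) (h : ∀ q : (Fin n → ℂ) × ℕ, q.1 ∉ C → X q = 0)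
    (q : (Fin n → ℂ) × ℕ) (hq : q.1 ∉ C) : S.Db j X q = 0 := by
  have h1 : (fun z => X (z, S.sec q z)) =ᶠ[𝓝 q.1] fun _ => 0 := by
    filter_upwards [hC.isOpen_compl.mem_nhds hq] with z hz
    exact h _ hz
  rw [Sheets.Db, dzb_congr h1, dzb_const]

theorem HPair_supp_D {X : (Fin n → ℂ) × ℕ → ℂ} (hX : S.Supp X) (j : Fin n) :
    S.Supp (S.D j X) := by
  obtain ⟨C, h1, h2, h3⟩ := hX
  exact ⟨C, h1, h2, fun q hq => HPair_D_zero j h1.isClosed h3 q hq⟩

theorem HPair_supp_Db {X : (Fin n → ℂ) × ℕ → ℂ} (hX : S.Supp X) (j : Fin n) :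
    S.Supp (S.Db j X) := by
  obtain ⟨C, h1, h2, h3⟩ := hX
  exact ⟨C, h1, h2, fun q hq => HPair_Db_zero j h1.isClosed h3 q hq⟩

/-- Measurability of real functions which are continuous along the sheets. -/
theorem HPair_meas_real {u : (Fin n → ℂ) × ℕ → ℝ} (hu : S.CD 0 (fun q => (u q : ℂ))) :
    AEStronglyMeasurable u S.μ := by
  have h := (aestronglyMeasurable_of_CD hu).re
  simpa using h

theorem HPair_integrable_sq {X : (Fin n → ℂ) × ℕ → ℂ} {u : (Fin n → ℂ) × ℕ → ℝ}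
    (hX : S.CD 0 X) (hs : S.Supp X) (hu : S.CD 0 (fun q => (u q : ℂ))) :
    Integrable (fun q => ‖X q‖ ^ 2 * u q) S.μ := by
  have h1 : Integrable (fun q => X q * conj (X q) * (u q : ℂ)) S.μ :=
    integrable_of_supp ((hX.mul hX.conj).mul hu) (HPair_supp_mul (HPair_supp_mul hs))
  have h2 := h1.re
  refine h2.congr (ae_of_all _ fun q => ?_)
  simp only [RCLike.re_to_complex]
  rw [Complex.mul_conj, ← Complex.ofReal_mul, Complex.ofReal_re, Complex.normSq_eq_norm_sq]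

/-- The estimate for `(α, β)` when `β` is closed and in the domain of the adjoint. -/
theorem pairing_le {Φ ψ χ : (Fin n → ℂ) × ℕ → ℝ} (hΦ : S.CD 2 (fun q => (Φ q : ℂ)))
    (hψ : S.CD 2 (fun q => (ψ q : ℂ))) (hχ : S.CD 2 (fun q => (χ q : ℂ)))
    (hχψ : ∀ q ∈ S.M, ∀ β : Fin n → ℂ,
      2 * ((∑ j, ‖S.D j (fun q => (ψ q : ℂ)) q‖ ^ 2) * ∑ j, ‖β j‖ ^ 2) ≤ S.levi χ β q)
    (hχψ' : ∀ q ∈ S.M, 2 * ψ q ≤ χ q) (hlevi : ∀ q ∈ S.M, ∀ β : Fin n → ℂ, 0 ≤ S.levi Φ β q)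
    {p : (Fin n → ℂ) → ℝ} (hcut : S.HasCut p ψ)
    (α : Fin n → (Fin n → ℂ) × ℕ → ℂ) (hα : ∀ j, S.CD 1 (α j))
    (hα2 : ∀ j, ∫⁻ q, ENNReal.ofReal (‖α j q‖ ^ 2 * Real.exp (-(Φ q + χ q - ψ q))) ∂S.μ < ⊤)
    (a : (Fin n → ℂ) × ℕ → ℝ) (ha : ∀ q, 0 ≤ a q) (ham : AEMeasurable a S.μ)
    (hab : ∀ q ∈ S.M, ∀ β : Fin n → ℂ, ‖∑ j, α j q * conj (β j)‖ ^ 2 ≤ a q * S.levi Φ β q)
    {A : ℝ} (hA0 : 0 ≤ A)
    (hA : ∫⁻ q, ENNReal.ofReal (a q * Real.exp (-Φ q)) ∂S.μ ≤ ENNReal.ofReal A)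
    (b : Fin n → (Fin n → ℂ) × ℕ → ℂ) (g : (Fin n → ℂ) × ℕ → ℂ)
    (hb : ∀ j, AEStronglyMeasurable (b j) S.μ) (hg : AEStronglyMeasurable g S.μ)
    (hb2 : ∀ j, ∫⁻ q, ENNReal.ofReal (‖b j q‖ ^ 2 * Real.exp (-(Φ q + χ q - ψ q))) ∂S.μ < ⊤)
    (hg2 : ∫⁻ q, ENNReal.ofReal (‖g q‖ ^ 2 * Real.exp (-(Φ q + χ q))) ∂S.μ < ⊤)
    (hgw : ∀ κ, S.IsTest κ →
      ∫ q, (∑ j, b j q * S.D j κ q) * Real.exp (-(Φ q + χ q - ψ q)) ∂S.μ =
        - ∫ q, g q * κ q * Real.exp (-(Φ q + χ q - ψ q)) ∂S.μ)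
    (hsw : ∀ κ, S.IsTest κ → ∀ j k, ∫ q, (b k q * S.Db j κ q - b j q * S.Db k κ q) ∂S.μ = 0) :
    ‖∫ q, (∑ j, α j q * conj (b j q)) * Real.exp (-(Φ q + χ q - ψ q)) ∂S.μ‖ ^ 2 ≤
      2 * A * ∫ q, ‖g q‖ ^ 2 * Real.exp (-(Φ q + χ q)) ∂S.μ := by
  -- regularity of the weights
  have hlam : S.CD 2 (fun q => ((Φ q + χ q : ℝ) : ℂ)) :=
    (hΦ.add hχ).congr fun q _ => by push_cast; ring
  have hφ2 : S.CD 2 (fun q => ((Φ q + χ q - ψ q : ℝ) : ℂ)) :=
    (hlam.add ((CD.const (-1)).mul hψ)).congr fun q _ => by push_cast; ring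
  have hw2 : S.CD 2 (fun q => ((Real.exp (-(Φ q + χ q - ψ q)) : ℝ) : ℂ)) :=
    CD.comp_real (φ := fun x => Real.exp (-x)) (by fun_prop) hφ2
  have hw3 : S.CD 2 (fun q => ((Real.exp (-(Φ q + χ q)) : ℝ) : ℂ)) :=
    CD.comp_real (φ := fun x => Real.exp (-x)) (by fun_prop) hlam
  have hw1 : S.CD 2 (fun q => ((Real.exp (-Φ q) : ℝ) : ℂ)) :=
    CD.comp_real (φ := fun x => Real.exp (-x)) (by fun_prop) hΦ
  have hw2m := HPair_meas_real (hw2.mono (Nat.zero_le 2))
  have hw3m := HPair_meas_real (hw3.mono (Nat.zero_le 2))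
  have hw1m := HPair_meas_real (hw1.mono (Nat.zero_le 2))
  have hαm : ∀ j, AEStronglyMeasurable (α j) S.μ := fun j =>
    aestronglyMeasurable_of_CD ((hα j).mono (Nat.zero_le 1))
  -- integrability
  have hαi : ∀ j, Integrable (fun q => ‖α j q‖ ^ 2 * Real.exp (-(Φ q + χ q - ψ q))) S.μ :=
    fun j => HPair_integrable (((hαm j).norm.pow 2).mul hw2m) (fun q => by positivity) (hα2 j)
  have hbi : ∀ j, Integrable (fun q => ‖b j q‖ ^ 2 * Real.exp (-(Φ q + χ q - ψ q))) S.μ :=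
    fun j => HPair_integrable (((hb j).norm.pow 2).mul hw2m) (fun q => by positivity) (hb2 j)
  have hgi : Integrable (fun q => ‖g q‖ ^ 2 * Real.exp (-(Φ q + χ q))) S.μ :=
    HPair_integrable ((hg.norm.pow 2).mul hw3m) (fun q => by positivity) hg2
  have hai : Integrable (fun q => a q * Real.exp (-Φ q)) S.μ :=
    HPair_integrable (ham.aestronglyMeasurable.mul hw1m)
      (fun q => mul_nonneg (ha q) (Real.exp_pos _).le) (lt_of_le_of_lt hA ENNReal.ofReal_lt_top)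
  have hAint : ∫ q, a q * Real.exp (-Φ q) ∂S.μ ≤ A :=
    HPair_integral_le (ham.aestronglyMeasurable.mul hw1m)
      (fun q => mul_nonneg (ha q) (Real.exp_pos _).le) hA0 hA
  set G : ℝ := ∫ q, ‖g q‖ ^ 2 * Real.exp (-(Φ q + χ q)) ∂S.μ with hG
  have hG0 : 0 ≤ G := integral_nonneg fun q => by positivity
  have hαb : ∀ j, Integrable (fun q => α j q * conj (b j q) *
      (Real.exp (-(Φ q + χ q - ψ q)) : ℂ)) S.μ := fun j =>
    HPair_mul_integrable (hαm j) (hb j) hw2m (fun q => (Real.exp_pos _).le) (hαi j) (hbi j)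
  set K : ℝ := ∑ j, (∫ q, ‖α j q‖ ^ 2 * Real.exp (-(Φ q + χ q - ψ q)) ∂S.μ + 1) / 2 with hK
  -- the estimate with a parameter
  have main : ∀ t : ℝ, 0 < t → ∀ δ : ℝ, 0 < δ → δ ≤ 1 →
      2 * ‖∫ q, (∑ j, α j q * conj (b j q)) * Real.exp (-(Φ q + χ q - ψ q)) ∂S.μ‖ ≤
        t * A + t⁻¹ * (2 * ((1 + δ) * G + (1 + δ⁻¹) * δ ^ 2) + 1 / 2 * (n * (n * δ ^ 2))) +
          2 * (δ * K) := by
    intro t ht δ hδ hδ1
    obtain ⟨β, hβ, hβb, hβg, hβs⟩ := exists_test_approx (lam := fun q => Φ q + χ q) hlam hψ hcut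
      b g hb hg hb2 hg2 hgw hsw (ε := ENNReal.ofReal (δ ^ 2))
      (by rw [Ne, ENNReal.ofReal_eq_zero, not_le]; positivity)
    have hβ0 : ∀ j, S.CD 0 (β j) := fun j => (hβ j).1.mono (Nat.zero_le 2)
    have hβm : ∀ j, AEStronglyMeasurable (β j) S.μ := fun j => aestronglyMeasurable_of_CD (hβ0 j)
    -- the function `T`
    set T : (Fin n → ℂ) × ℕ → ℂ := fun q => ∑ j, (S.D j (β j) q -
      S.D j (fun q => ((Φ q + χ q - ψ q : ℝ) : ℂ)) q * β j q) with hT
    have hTc : S.CD 0 T := by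
      have h1 : S.CD 0 (fun q => ∑ j, (S.D j (β j) q + (-1) *
          (S.D j (fun q => ((Φ q + χ q - ψ q : ℝ) : ℂ)) q * β j q))) := by
        refine CD.sum _ fun j _ => CD.add ?_ (CD.mul (CD.const _) (CD.mul ?_ (hβ0 j)))
        · exact (CD.D (m := 1) (hβ j).1).mono (Nat.zero_le 1)
        · exact (CD.D (m := 1) hφ2).mono (Nat.zero_le 1)
      refine h1.congr fun q _ => ?_
      simp only [hT]
      refine Finset.sum_congr rfl fun j _ => ?_
      ring
    have hTs : S.Supp T := by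
      have h1 : S.Supp (fun q => ∑ j, (S.D j (β j) q -
          S.D j (fun q => ((Φ q + χ q - ψ q : ℝ) : ℂ)) q * β j q)) := by
        refine HPair_supp_sum _ fun j _ => ?_
        obtain ⟨C, h1, h2, h3⟩ := (hβ j).2
        refine ⟨C, h1, h2, fun q hq => ?_⟩
        beta_reduce
        rw [HPair_D_zero j h1.isClosed h3 q hq, h3 q hq, mul_zero, sub_zero]
      exact h1
    have hTm : AEStronglyMeasurable T S.μ := aestronglyMeasurable_of_CD hTc
    have hTi : Integrable (fun q => ‖T q‖ ^ 2 * Real.exp (-(Φ q + χ q))) S.μ :=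
      HPair_integrable_sq hTc hTs (hw3.mono (Nat.zero_le 2))
    -- `T` is close to `g`
    have hTg : Integrable (fun q => ‖T q - g q‖ ^ 2 * Real.exp (-(Φ q + χ q))) S.μ :=
      HPair_integrable (((hTm.sub hg).norm.pow 2).mul hw3m) (fun q => by positivity)
        (lt_of_le_of_lt hβg ENNReal.ofReal_lt_top)
    have hTg' : ∫ q, ‖T q - g q‖ ^ 2 * Real.exp (-(Φ q + χ q)) ∂S.μ ≤ δ ^ 2 :=
      HPair_integral_le (((hTm.sub hg).norm.pow 2).mul hw3m)
        (fun q => mul_nonneg (sq_nonneg _) (Real.exp_pos _).le) (sq_nonneg δ) hβg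
    have hTb : ∫ q, ‖T q‖ ^ 2 * Real.exp (-(Φ q + χ q)) ∂S.μ ≤
        (1 + δ) * G + (1 + δ⁻¹) * δ ^ 2 := by
      have h1 : ∫ q, ‖T q‖ ^ 2 * Real.exp (-(Φ q + χ q)) ∂S.μ ≤
          ∫ q, ((1 + δ) * (‖g q‖ ^ 2 * Real.exp (-(Φ q + χ q))) +
            (1 + δ⁻¹) * (‖T q - g q‖ ^ 2 * Real.exp (-(Φ q + χ q)))) ∂S.μ := by
        refine integral_mono hTi ((hgi.const_mul _).add (hTg.const_mul _)) fun q => ?_
        have h2 : ‖T q‖ ≤ ‖g q‖ + ‖T q - g q‖ := by
          have := norm_add_le (g q) (T q - g q)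
          rwa [add_sub_cancel] at this
        have h3 : ‖T q‖ ^ 2 ≤ (‖g q‖ + ‖T q - g q‖) ^ 2 := pow_le_pow_left₀ (norm_nonneg _) h2 2
        have h4 : (‖g q‖ + ‖T q - g q‖) ^ 2 ≤
            (1 + δ) * ‖g q‖ ^ 2 + (1 + δ⁻¹) * ‖T q - g q‖ ^ 2 := by
          have h5 : (1 + δ) * ‖g q‖ ^ 2 + (1 + δ⁻¹) * ‖T q - g q‖ ^ 2 -
              (‖g q‖ + ‖T q - g q‖) ^ 2 = (δ * ‖g q‖ - ‖T q - g q‖) ^ 2 / δ := by
            field_simp
            ring
          have h6 : 0 ≤ (δ * ‖g q‖ - ‖T q - g q‖) ^ 2 / δ := by (clear * - hδ; positivity)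
          linarith
        have h7 := mul_le_mul_of_nonneg_right (h3.trans h4) (Real.exp_pos (-(Φ q + χ q))).le
        simp only
        linarith
      rw [integral_add (hgi.const_mul _) (hTg.const_mul _), integral_const_mul,
        integral_const_mul, ← hG] at h1
      refine h1.trans ?_
      gcongr
    -- the closedness defect
    have hSm : ∀ j k, AEStronglyMeasurable (fun q => S.Db j (β k) q - S.Db k (β j) q) S.μ :=
      fun j k => (aestronglyMeasurable_of_CD ((CD.Db (m := 1) (hβ k).1).mono (Nat.zero_le 1))).sub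
        (aestronglyMeasurable_of_CD ((CD.Db (m := 1) (hβ j).1).mono (Nat.zero_le 1)))
    have hSb : ∀ j k, ∫ q, ‖S.Db j (β k) q - S.Db k (β j) q‖ ^ 2 *
        Real.exp (-(Φ q + χ q)) ∂S.μ ≤ δ ^ 2 := fun j k =>
      HPair_integral_le (((hSm j k).norm.pow 2).mul hw3m)
        (fun q => mul_nonneg (sq_nonneg _) (Real.exp_pos _).le) (sq_nonneg δ) (hβs j k)
    have hSsum : ∑ j, ∑ k, ∫ q, ‖S.Db j (β k) q - S.Db k (β j) q‖ ^ 2 *
        Real.exp (-(Φ q + χ q)) ∂S.μ ≤ n * (n * δ ^ 2) := by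
      calc ∑ j, ∑ k, ∫ q, ‖S.Db j (β k) q - S.Db k (β j) q‖ ^ 2 *
            Real.exp (-(Φ q + χ q)) ∂S.μ ≤ ∑ _j : Fin n, ∑ _k : Fin n, δ ^ 2 :=
            Finset.sum_le_sum fun j _ => Finset.sum_le_sum fun k _ => hSb j k
        _ = n * (n * δ ^ 2) := by simp
    -- the Levi form
    have hap := a_priori hΦ hψ hχ hχψ β hβ
    have hLb : ∫ q, S.levi Φ (fun j => β j q) q * Real.exp (-(Φ q + χ q)) ∂S.μ ≤
        2 * ((1 + δ) * G + (1 + δ⁻¹) * δ ^ 2) + 1 / 2 * (n * (n * δ ^ 2)) := by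
      refine hap.trans ?_
      gcongr
    have hLi : Integrable (fun q => S.levi Φ (fun j => β j q) q * Real.exp (-(Φ q + χ q)))
        S.μ := by
      have h1 : S.CD 0 (fun q => ∑ j, ∑ k,
          S.D j (S.Db k (fun q => (Φ q : ℂ))) q * β j q * conj (β k q)) := by
        refine CD.sum _ fun j _ => CD.sum _ fun k _ => CD.mul (CD.mul ?_ (hβ0 j)) (hβ0 k).conj
        exact CD.D (m := 0) (CD.Db (m := 1) hΦ)
      have h2 : S.Supp (fun q => ∑ j, ∑ k,
          S.D j (S.Db k (fun q => (Φ q : ℂ))) q * β j q * conj (β k q)) :=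
        HPair_supp_sum _ fun j _ => HPair_supp_sum _ fun k _ =>
          HPair_supp_mul (HPair_supp_mul' (hβ j).2)
      have h3 := (integrable_of_supp (h1.mul (hw3.mono (Nat.zero_le 2)))
        (HPair_supp_mul h2)).re
      refine h3.congr (ae_of_all _ fun q => ?_)
      simp only [RCLike.re_to_complex]
      rw [Complex.re_mul_ofReal]
      rfl
    -- the pairing with the test form
    have hαβ : ∀ j, Integrable (fun q => α j q * conj (β j q) *
        (Real.exp (-(Φ q + χ q - ψ q)) : ℂ)) S.μ := fun j =>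
      integrable_of_supp ((((hα j).mono (Nat.zero_le 1)).mul (hβ0 j).conj).mul
        (hw2.mono (Nat.zero_le 2))) (HPair_supp_mul (HPair_supp_mul' (HPair_supp_conj (hβ j).2)))
    have hsumb : ∫ q, (∑ j, α j q * conj (b j q)) * Real.exp (-(Φ q + χ q - ψ q)) ∂S.μ =
        ∑ j, ∫ q, α j q * conj (b j q) * (Real.exp (-(Φ q + χ q - ψ q)) : ℂ) ∂S.μ := by
      rw [← integral_finsetSum _ fun j _ => hαb j]
      refine integral_congr_ae (ae_of_all _ fun q => ?_)
      simp only [Finset.sum_mul]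
    have hsumβ : ∫ q, (∑ j, α j q * conj (β j q)) * Real.exp (-(Φ q + χ q - ψ q)) ∂S.μ =
        ∑ j, ∫ q, α j q * conj (β j q) * (Real.exp (-(Φ q + χ q - ψ q)) : ℂ) ∂S.μ := by
      rw [← integral_finsetSum _ fun j _ => hαβ j]
      refine integral_congr_ae (ae_of_all _ fun q => ?_)
      simp only [Finset.sum_mul]
    have hβpair : 2 * ‖∫ q, (∑ j, α j q * conj (β j q)) *
        Real.exp (-(Φ q + χ q - ψ q)) ∂S.μ‖ ≤
        t * A + t⁻¹ * (2 * ((1 + δ) * G + (1 + δ⁻¹) * δ ^ 2) + 1 / 2 * (n * (n * δ ^ 2))) := by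
      have h1 : ‖∫ q, (∑ j, α j q * conj (β j q)) * Real.exp (-(Φ q + χ q - ψ q)) ∂S.μ‖ ≤
          ∫ q, (1 / 2 * (t * (a q * Real.exp (-Φ q)) + t⁻¹ *
            (S.levi Φ (fun j => β j q) q * Real.exp (-(Φ q + χ q))))) ∂S.μ := by
        refine norm_integral_le_of_norm_le
          (((hai.const_mul t).add (hLi.const_mul t⁻¹)).const_mul (1 / 2)) ?_
        filter_upwards [S.ae_mem_M] with q hq
        rw [norm_mul, Complex.norm_real, Real.norm_of_nonneg (Real.exp_pos _).le]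
        have h2 := hab q hq (fun j => β j q)
        have h3 := hlevi q hq (fun j => β j q)
        set L := S.levi Φ (fun j => β j q) q with hL
        set x := ‖∑ j, α j q * conj (β j q)‖ with hx
        have hx0 : 0 ≤ x := norm_nonneg _
        have h4 : Real.exp (-(Φ q + χ q - ψ q)) ≤
            Real.exp (-Φ q / 2) * Real.exp (-(Φ q + χ q) / 2) := by
          rw [← Real.exp_add]
          apply Real.exp_le_exp.2
          have := hχψ' q hq
          linarith only [this]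
        have h5 : 0 ≤ Real.exp (-Φ q / 2) * Real.exp (-(Φ q + χ q) / 2) := by positivity
        have h6 : Real.exp (-Φ q) = Real.exp (-Φ q / 2) ^ 2 := by
          rw [← Real.exp_nat_mul]
          congr 1
          push_cast
          ring
        have h7 : Real.exp (-(Φ q + χ q)) = Real.exp (-(Φ q + χ q) / 2) ^ 2 := by
          rw [← Real.exp_nat_mul]
          congr 1
          push_cast
          ring
        refine (mul_le_mul_of_nonneg_left h4 hx0).trans ?_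
        rw [h6, h7]
        set E := Real.exp (-Φ q / 2) with hE
        set F := Real.exp (-(Φ q + χ q) / 2) with hF
        have hE0 : 0 < E := Real.exp_pos _
        have hF0 : 0 < F := Real.exp_pos _
        -- `x E F ≤ (t a E² + t⁻¹ L F²) / 2`
        have h8 : x ≤ Real.sqrt (a q) * Real.sqrt L := by
          rw [← Real.sqrt_mul (ha q)]
          exact Real.le_sqrt_of_sq_le h2
        have h9 : x * (E * F) ≤ Real.sqrt (a q) * Real.sqrt L * (E * F) :=
          mul_le_mul_of_nonneg_right h8 h5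
        have h10 : a q = Real.sqrt (a q) ^ 2 := (Real.sq_sqrt (ha q)).symm
        have h11 : L = Real.sqrt L ^ 2 := (Real.sq_sqrt h3).symm
        set sa := Real.sqrt (a q) with hsa
        set sL := Real.sqrt L with hsL
        rw [h10, h11]
        refine h9.trans ?_
        have h12 : 1 / 2 * (t * (sa ^ 2 * E ^ 2) + t⁻¹ * (sL ^ 2 * F ^ 2)) -
            sa * sL * (E * F) = (t * (sa * E) - sL * F) ^ 2 / (2 * t) := by
          field_simp
          ring
        have h13 : 0 ≤ (t * (sa * E) - sL * F) ^ 2 / (2 * t) := by (clear * - ht; positivity)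
        linarith only [h13, h12]
      rw [integral_const_mul, integral_add (hai.const_mul t) (hLi.const_mul t⁻¹),
        integral_const_mul, integral_const_mul] at h1
      have h2 := mul_le_mul_of_nonneg_left hAint ht.le
      have h3 := mul_le_mul_of_nonneg_left hLb (inv_pos.2 ht).le
      linarith only [h3, h2, h1]
    -- the difference
    have hdiff : ‖∫ q, (∑ j, α j q * conj (b j q)) * Real.exp (-(Φ q + χ q - ψ q)) ∂S.μ -
        ∫ q, (∑ j, α j q * conj (β j q)) * Real.exp (-(Φ q + χ q - ψ q)) ∂S.μ‖ ≤ δ * K := by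
      rw [hsumb, hsumβ, ← Finset.sum_sub_distrib, hK, Finset.mul_sum]
      refine norm_sum_le_of_le _ fun j _ => ?_
      rw [← integral_sub (hαb j) (hαβ j)]
      have hbβm : AEStronglyMeasurable (fun q => β j q - b j q) S.μ := (hβm j).sub (hb j)
      have hbβi : Integrable (fun q => ‖β j q - b j q‖ ^ 2 *
          Real.exp (-(Φ q + χ q - ψ q))) S.μ :=
        HPair_integrable ((hbβm.norm.pow 2).mul hw2m) (fun q => by (clear * -; positivity))
          (lt_of_le_of_lt (hβb j) ENNReal.ofReal_lt_top)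
      have hbβ2 : ∫ q, ‖β j q - b j q‖ ^ 2 * Real.exp (-(Φ q + χ q - ψ q)) ∂S.μ ≤ δ ^ 2 :=
        HPair_integral_le ((hbβm.norm.pow 2).mul hw2m)
          (fun q => mul_nonneg (sq_nonneg _) (Real.exp_pos _).le) (sq_nonneg δ) (hβb j)
      have h1 : ‖∫ q, (α j q * conj (b j q) * (Real.exp (-(Φ q + χ q - ψ q)) : ℂ) -
          α j q * conj (β j q) * (Real.exp (-(Φ q + χ q - ψ q)) : ℂ)) ∂S.μ‖ ≤
          ∫ q, (1 / 2 * (δ * (‖α j q‖ ^ 2 * Real.exp (-(Φ q + χ q - ψ q))) +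
            δ⁻¹ * (‖β j q - b j q‖ ^ 2 * Real.exp (-(Φ q + χ q - ψ q))))) ∂S.μ := by
        refine norm_integral_le_of_norm_le
          ((((hαi j).const_mul δ).add (hbβi.const_mul δ⁻¹)).const_mul (1 / 2))
          (ae_of_all _ fun q => ?_)
        have h2 : α j q * conj (b j q) * (Real.exp (-(Φ q + χ q - ψ q)) : ℂ) -
            α j q * conj (β j q) * (Real.exp (-(Φ q + χ q - ψ q)) : ℂ) =
            -(α j q * conj (β j q - b j q) * (Real.exp (-(Φ q + χ q - ψ q)) : ℂ)) := by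
          rw [map_sub]
          ring
        rw [h2, norm_neg, norm_mul, norm_mul, RCLike.norm_conj, Complex.norm_real,
          Real.norm_of_nonneg (Real.exp_pos _).le]
        set x := ‖α j q‖ with hx
        set y := ‖β j q - b j q‖ with hy
        set E := Real.exp (-(Φ q + χ q - ψ q)) with hE
        have hE0 : 0 < E := Real.exp_pos _
        have h3 : 1 / 2 * (δ * (x ^ 2 * E) + δ⁻¹ * (y ^ 2 * E)) - x * y * E =
            (δ * x - y) ^ 2 * E / (2 * δ) := by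
          field_simp
          ring
        have h4 : 0 ≤ (δ * x - y) ^ 2 * E / (2 * δ) := by (clear * - hδ; positivity)
        linarith only [h4, h3]
      refine h1.trans ?_
      rw [integral_const_mul, integral_add ((hαi j).const_mul δ) (hbβi.const_mul δ⁻¹),
        integral_const_mul, integral_const_mul]
      have h5 : δ⁻¹ * ∫ q, ‖β j q - b j q‖ ^ 2 * Real.exp (-(Φ q + χ q - ψ q)) ∂S.μ ≤ δ := by
        calc δ⁻¹ * ∫ q, ‖β j q - b j q‖ ^ 2 * Real.exp (-(Φ q + χ q - ψ q)) ∂S.μ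
            ≤ δ⁻¹ * δ ^ 2 := mul_le_mul_of_nonneg_left hbβ2 (inv_pos.2 hδ).le
          _ = δ := by field_simp
      linarith only [h5]
    -- conclusion
    have h9 : ‖∫ q, (∑ j, α j q * conj (b j q)) * Real.exp (-(Φ q + χ q - ψ q)) ∂S.μ‖ ≤
        ‖∫ q, (∑ j, α j q * conj (β j q)) * Real.exp (-(Φ q + χ q - ψ q)) ∂S.μ‖ + δ * K := by
      have := norm_le_norm_add_norm_sub'
        (∫ q, (∑ j, α j q * conj (b j q)) * Real.exp (-(Φ q + χ q - ψ q)) ∂S.μ)
        (∫ q, (∑ j, α j q * conj (β j q)) * Real.exp (-(Φ q + χ q - ψ q)) ∂S.μ)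
      linarith only [this, hdiff]
    linarith only [h9, hβpair]
  -- limit `δ → 0`
  have main2 : ∀ t : ℝ, 0 < t →
      2 * ‖∫ q, (∑ j, α j q * conj (b j q)) * Real.exp (-(Φ q + χ q - ψ q)) ∂S.μ‖ ≤
        t * A + t⁻¹ * (2 * G) := by
    intro t ht
    have hlim : Tendsto (fun δ : ℝ => t * A + t⁻¹ * (2 * ((1 + δ) * G + (δ ^ 2 + δ)) +
        1 / 2 * (n * (n * δ ^ 2))) + 2 * (δ * K)) (𝓝[>] 0) (𝓝 (t * A + t⁻¹ * (2 * G))) := by
      have h1 : Continuous (fun δ : ℝ => t * A + t⁻¹ * (2 * ((1 + δ) * G + (δ ^ 2 + δ)) +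
        1 / 2 * (n * (n * δ ^ 2))) + 2 * (δ * K)) := by fun_prop
      have h2 := h1.tendsto 0
      simp only [ne_eq, OfNat.ofNat_ne_zero, not_false_eq_true, zero_pow, mul_zero, add_zero,
        zero_mul, one_mul] at h2
      exact h2.mono_left nhdsWithin_le_nhds
    refine ge_of_tendsto hlim ?_
    filter_upwards [Ioc_mem_nhdsGT (zero_lt_one : (0 : ℝ) < 1)] with δ hδ
    have h1 := main t ht δ hδ.1 hδ.2
    have h2 : (1 + δ⁻¹) * δ ^ 2 = δ ^ 2 + δ := by
      have := hδ.1.ne'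
      field_simp
    rw [h2] at h1
    exact h1
  have h := HPair_discrim (norm_nonneg _) hA0 main2 (by (clear * -; positivity))
  linarith

end Sheets

end Vale.Agent.P300.L2
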