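import Vale.Agent.P300.H435.L2.Apriori
import Vale.Agent.P300.H435.L2.Pair

set_option linter.all false


open MeasureTheory Filter Topology
open scoped ENNReal NNReal ComplexConjugate

namespace Vale.Agent.P300.L2

section aux

theorem HProj_hilbert {E : Type*} [NormedAddCommGroup E] [InnerProductSpace ℂ E] [CompleteSpace E]
    (T : Set E) (v : E) : ∃ b : E, (∀ t ∈ T, inner ℂ t b = 0) ∧
      ∀ a : E, (∀ t ∈ T, inner ℂ t a = 0) → inner ℂ b a = inner ℂ v a := by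
  obtain ⟨b, hb, c, hc, hbc⟩ :=
    Submodule.exists_add_mem_mem_orthogonal (K := (Submodule.span ℂ T)ᗮ) v
  refine ⟨b, fun t ht => (Submodule.mem_orthogonal _ _).1 hb t (Submodule.subset_span ht),
    fun a ha => ?_⟩
  have ha' : a ∈ (Submodule.span ℂ T)ᗮ := by
    rw [Submodule.mem_orthogonal]
    intro u hu
    induction hu using Submodule.span_induction with
    | mem x hx => exact ha x hx
    | zero => exact inner_zero_left _
    | add x y _ _ hx hy => rw [inner_add_left, hx, hy, add_zero]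
    | smul r x _ hx => rw [inner_smul_left, hx, mul_zero]
  rw [hbc, inner_add_left, (Submodule.mem_orthogonal' _ _).1 hc a ha', add_zero]

variable {Ω : Type*} [MeasurableSpace Ω] {ν : Measure Ω} {n : ℕ}

/-- The vector of classes in the Hilbert space. -/
noncomputable def HProj_emb (X : Fin n → Ω → ℂ) (hX : ∀ j, MemLp (X j) 2 ν) :
    PiLp 2 (fun _ : Fin n => Lp ℂ 2 ν) :=
  WithLp.toLp 2 (fun j => (hX j).toLp (X j))

theorem HProj_integrable {X Y : Ω → ℂ} (hX : MemLp X 2 ν) (hY : MemLp Y 2 ν) :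
    Integrable (fun x => Y x * conj (X x)) ν := by
  have h := L2.integrable_inner (𝕜 := ℂ) (hX.toLp X) (hY.toLp Y)
  refine h.congr ?_
  filter_upwards [hX.coeFn_toLp, hY.coeFn_toLp] with x h1 h2
  rw [h1, h2, RCLike.inner_apply]

theorem HProj_inner (X Y : Fin n → Ω → ℂ) (hX : ∀ j, MemLp (X j) 2 ν)
    (hY : ∀ j, MemLp (Y j) 2 ν) :
    inner ℂ (HProj_emb X hX) (HProj_emb Y hY) = ∫ x, ∑ j, Y j x * conj (X j x) ∂ν := by
  rw [PiLp.inner_apply, integral_finsetSum _ fun j _ => HProj_integrable (hX j) (hY j)]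
  refine Finset.sum_congr rfl fun j _ => ?_
  rw [L2.inner_def]
  refine integral_congr_ae ?_
  have h1 := (hX j).coeFn_toLp
  have h2 := (hY j).coeFn_toLp
  filter_upwards [h1, h2] with x h1 h2
  change inner ℂ (((hX j).toLp (X j) : Lp ℂ 2 ν) x) (((hY j).toLp (Y j) : Lp ℂ 2 ν) x) = _
  rw [h1, h2, RCLike.inner_apply]

/-- Projection on the orthogonal complement of a set of vectors. -/
theorem HProj_exists (P : Set (Fin n → Ω → ℂ)) (hP : ∀ V ∈ P, ∀ j, MemLp (V j) 2 ν)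
    (B : Fin n → Ω → ℂ) (hB : ∀ j, MemLp (B j) 2 ν) :
    ∃ B' : Fin n → Ω → ℂ, (∀ j, MemLp (B' j) 2 ν) ∧
      (∀ V ∈ P, ∫ x, ∑ j, V j x * B' j x ∂ν = 0) ∧
      ∀ A : Fin n → Ω → ℂ, (∀ j, MemLp (A j) 2 ν) →
        (∀ V ∈ P, ∫ x, ∑ j, V j x * A j x ∂ν = 0) →
        ∫ x, ∑ j, A j x * conj (B' j x) ∂ν = ∫ x, ∑ j, A j x * conj (B j x) ∂ν := by
  have hPc : ∀ V ∈ P, ∀ j, MemLp (fun x => conj (V j x)) 2 ν := fun V hV j => (hP V hV j).star
  obtain ⟨b, hb1, hb2⟩ := HProj_hilbert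
    {v | ∃ V, ∃ hV : V ∈ P, v = HProj_emb (fun j x => conj (V j x)) (hPc V hV)} (HProj_emb B hB)
  have hb' : ∀ j, MemLp (fun x => (b j : Lp ℂ 2 ν) x) 2 ν := fun j => Lp.memLp _
  have hbe : b = HProj_emb (fun j x => (b j : Lp ℂ 2 ν) x) hb' := by
    ext1 j
    change b j = (hb' j).toLp _
    rw [Lp.toLp_coeFn]
  have key : ∀ (V : Fin n → Ω → ℂ) (hV : V ∈ P) (A : Fin n → Ω → ℂ) (hA : ∀ j, MemLp (A j) 2 ν),
      inner ℂ (HProj_emb (fun j x => conj (V j x)) (hPc V hV)) (HProj_emb A hA) =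
        ∫ x, ∑ j, V j x * A j x ∂ν := by
    intro V hV A hA
    rw [HProj_inner]
    refine integral_congr_ae (ae_of_all _ fun x => Finset.sum_congr rfl fun j _ => ?_)
    simp only [Complex.conj_conj]
    ring
  refine ⟨fun j x => (b j : Lp ℂ 2 ν) x, hb', fun V hV => ?_, fun A hA hAV => ?_⟩
  · rw [← key V hV _ hb', ← hbe]
    exact hb1 _ ⟨V, hV, rfl⟩
  · have h := hb2 (HProj_emb A hA) (by
      rintro t ⟨V, hV, rfl⟩
      rw [key V hV]
      exact hAV V hV)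
    rw [hbe, HProj_inner, HProj_inner] at h
    exact h

end aux

namespace Sheets

variable {n N : ℕ} {S : Sheets n N}

theorem HProj_memLp {X : (Fin n → ℂ) × ℕ → ℂ} (hX : S.CD 0 X) (hs : S.Supp X) :
    MemLp X 2 S.μ := by
  have hm := aestronglyMeasurable_of_CD hX
  rw [memLp_two_iff_integrable_sq_norm hm]
  have h1 : S.CD 0 (fun _ => (((1 : ℝ)) : ℂ)) := CD.const _
  have h := HPair_integrable_sq hX hs (u := fun _ => 1) h1
  simpa using h

/-- Closed forms pair to zero with the weak equations. -/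
theorem HProj_closed {X : Fin n → (Fin n → ℂ) × ℕ → ℂ} (hX : ∀ j, S.CD 1 (X j))
    (hcl : ∀ q ∈ S.M, ∀ j k, S.Db j (X k) q = S.Db k (X j) q) {κ : (Fin n → ℂ) × ℕ → ℂ}
    (hκ : S.IsTest κ) (j k : Fin n) :
    ∫ q, (X k q * S.Db j κ q - X j q * S.Db k κ q) ∂S.μ = 0 := by
  have hκ1 : S.CD 1 κ := hκ.1.mono (by norm_num)
  have hint : ∀ i l, Integrable (fun q => X i q * S.Db l κ q) S.μ := fun i l =>
    integrable_of_supp (((hX i).mono (Nat.zero_le 1)).mul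
      ((CD.Db (m := 1) hκ.1).mono (Nat.zero_le 1))) (HPair_supp_mul' (HPair_supp_Db hκ.2 l))
  rw [integral_sub (hint k j) (hint j k), integral_mul_Db (hX k) hκ1 hκ.2,
    integral_mul_Db (hX j) hκ1 hκ.2]
  have h : ∫ q, S.Db j (X k) q * κ q ∂S.μ = ∫ q, S.Db k (X j) q * κ q ∂S.μ := by
    refine integral_congr_ae ?_
    filter_upwards [S.ae_mem_M] with q hq
    rw [hcl q hq j k]
  rw [h, sub_self]

/-- The estimate for `(α, γ)`, `γ` an arbitrary test form. -/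
theorem twisted_estimate {Φ ψ χ : (Fin n → ℂ) × ℕ → ℝ} (hΦ : S.CD 2 (fun q => (Φ q : ℂ)))
    (hψ : S.CD 2 (fun q => (ψ q : ℂ))) (hχ : S.CD 2 (fun q => (χ q : ℂ)))
    (hχψ : ∀ q ∈ S.M, ∀ β : Fin n → ℂ,
      2 * ((∑ j, ‖S.D j (fun q => (ψ q : ℂ)) q‖ ^ 2) * ∑ j, ‖β j‖ ^ 2) ≤ S.levi χ β q)
    (hχψ' : ∀ q ∈ S.M, 2 * ψ q ≤ χ q) (hlevi : ∀ q ∈ S.M, ∀ β : Fin n → ℂ, 0 ≤ S.levi Φ β q)
    {p : (Fin n → ℂ) → ℝ} (hcut : S.HasCut p ψ)
    (α : Fin n → (Fin n → ℂ) × ℕ → ℂ) (hα : ∀ j, S.CD 1 (α j))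
    (hcl : ∀ q ∈ S.M, ∀ j k, S.Db j (α k) q = S.Db k (α j) q)
    (hα2 : ∀ j, ∫⁻ q, ENNReal.ofReal (‖α j q‖ ^ 2 * Real.exp (-(Φ q + χ q - ψ q))) ∂S.μ < ⊤)
    (a : (Fin n → ℂ) × ℕ → ℝ) (ha : ∀ q, 0 ≤ a q) (ham : AEMeasurable a S.μ)
    (hab : ∀ q ∈ S.M, ∀ β : Fin n → ℂ, ‖∑ j, α j q * conj (β j)‖ ^ 2 ≤ a q * S.levi Φ β q)
    {A : ℝ} (hA0 : 0 ≤ A)
    (hA : ∫⁻ q, ENNReal.ofReal (a q * Real.exp (-Φ q)) ∂S.μ ≤ ENNReal.ofReal A)
    (γ : Fin n → (Fin n → ℂ) × ℕ → ℂ) (hγ : ∀ j, S.IsTest (γ j)) :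
    ‖∫ q, ∑ j, α j q * conj (γ j q) ∂S.μ‖ ^ 2 ≤
      2 * A * ∫ q, ‖∑ j, S.D j (γ j) q‖ ^ 2 * Real.exp (Φ q + χ q - 2 * ψ q) ∂S.μ := by
  -- weights
  have hwc : S.CD 2 (fun q => ((Φ q + χ q - ψ q : ℝ) : ℂ)) :=
    ((hΦ.add hχ).add ((CD.const (-1)).mul hψ)).congr fun q _ => by push_cast; ring
  have hlam : S.CD 2 (fun q => ((Φ q + χ q : ℝ) : ℂ)) :=
    (hΦ.add hχ).congr fun q _ => by push_cast; ring
  obtain ⟨E, hE⟩ : ∃ E : (Fin n → ℂ) × ℕ → ℝ, E = fun q => Real.exp ((Φ q + χ q - ψ q) / 2) :=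
    ⟨_, rfl⟩
  obtain ⟨F, hF⟩ : ∃ F : (Fin n → ℂ) × ℕ → ℝ, F = fun q => Real.exp (-(Φ q + χ q - ψ q) / 2) :=
    ⟨_, rfl⟩
  have hEc : S.CD 2 (fun q => (E q : ℂ)) := by
    rw [hE]
    exact CD.comp_real (φ := fun x => Real.exp (x / 2)) (by fun_prop) hwc
  have hFc : S.CD 2 (fun q => (F q : ℂ)) := by
    rw [hF]
    exact CD.comp_real (φ := fun x => Real.exp (-x / 2)) (by fun_prop) hwc
  have hEF : ∀ q, (E q : ℂ) * (F q : ℂ) = 1 := fun q => by
    rw [← Complex.ofReal_mul, hE, hF]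
    beta_reduce
    rw [← Real.exp_add, ← add_div, add_neg_cancel, zero_div, Real.exp_zero, Complex.ofReal_one]
  have hEw : ∀ q, (E q : ℂ) * (Real.exp (-(Φ q + χ q - ψ q)) : ℂ) = (F q : ℂ) := fun q => by
    rw [← Complex.ofReal_mul, hE, hF]
    beta_reduce
    rw [← Real.exp_add]
    congr 2
    ring
  have hE2 : ∀ q, E q ^ 2 * Real.exp (-(Φ q + χ q - ψ q)) = 1 := fun q => by
    rw [hE]
    beta_reduce
    rw [← Real.exp_nat_mul, ← Real.exp_add, ← Real.exp_zero]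
    congr 1
    push_cast
    ring
  have hF2 : ∀ q, F q ^ 2 = Real.exp (-(Φ q + χ q - ψ q)) := fun q => by
    rw [hF]
    beta_reduce
    rw [← Real.exp_nat_mul]
    congr 1
    push_cast
    ring
  have hE0 : S.CD 0 (fun q => (E q : ℂ)) := hEc.mono (Nat.zero_le 2)
  have hF0 : S.CD 0 (fun q => (F q : ℂ)) := hFc.mono (Nat.zero_le 2)
  have hEm : AEStronglyMeasurable (fun q => (E q : ℂ)) S.μ := aestronglyMeasurable_of_CD hE0
  have hFm : AEStronglyMeasurable (fun q => (F q : ℂ)) S.μ := aestronglyMeasurable_of_CD hF0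
  have hαm : ∀ j, AEStronglyMeasurable (α j) S.μ := fun j =>
    aestronglyMeasurable_of_CD ((hα j).mono (Nat.zero_le 1))
  have hwm : AEStronglyMeasurable (fun q => Real.exp (-(Φ q + χ q - ψ q))) S.μ := by
    have h1 : S.CD 2 (fun q => ((Real.exp (-(Φ q + χ q - ψ q)) : ℝ) : ℂ)) :=
      CD.comp_real (φ := fun x => Real.exp (-x)) (by fun_prop) hwc
    exact HPair_meas_real (h1.mono (Nat.zero_le 2))
  -- the set of vectors
  let P : Set (Fin n → (Fin n → ℂ) × ℕ → ℂ) := {V | ∃ κ j k, S.IsTest κ ∧ V = fun i q =>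
    (if i = k then 1 else 0) * (S.Db j κ q * (E q : ℂ)) -
      (if i = j then 1 else 0) * (S.Db k κ q * (E q : ℂ))}
  have hDbE : ∀ κ, S.IsTest κ → ∀ j, MemLp (fun q => S.Db j κ q * (E q : ℂ)) 2 S.μ :=
    fun κ hκ j => HProj_memLp (((CD.Db (m := 1) hκ.1).mono (Nat.zero_le 1)).mul hE0)
      (HPair_supp_mul (HPair_supp_Db hκ.2 j))
  have hP : ∀ V ∈ P, ∀ i, MemLp (V i) 2 S.μ := by
    rintro V ⟨κ, j, k, hκ, rfl⟩ i
    exact ((hDbE κ hκ j).const_mul _).sub ((hDbE κ hκ k).const_mul _)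
  have hPsum : ∀ (κ : (Fin n → ℂ) × ℕ → ℂ) (j k : Fin n) (Y : Fin n → (Fin n → ℂ) × ℕ → ℂ)
      (q : (Fin n → ℂ) × ℕ), ∑ i, ((if i = k then 1 else 0) * (S.Db j κ q * (E q : ℂ)) -
        (if i = j then 1 else 0) * (S.Db k κ q * (E q : ℂ))) * Y i q =
      (E q : ℂ) * Y k q * S.Db j κ q - (E q : ℂ) * Y j q * S.Db k κ q := by
    intro κ j k Y q
    simp only [sub_mul, Finset.sum_sub_distrib, ite_mul, one_mul, zero_mul, Finset.sum_ite_eq',
      Finset.mem_univ, if_true]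
    ring
  have hBm : ∀ i, MemLp (fun q => γ i q * (E q : ℂ)) 2 S.μ := fun i =>
    HProj_memLp (((hγ i).1.mono (Nat.zero_le 2)).mul hE0) (HPair_supp_mul (hγ i).2)
  obtain ⟨B', hB'm, hB'1, hB'2⟩ := HProj_exists P hP (fun i q => γ i q * (E q : ℂ)) hBm
  -- closed forms are orthogonal to the vectors
  have hort : ∀ X : Fin n → (Fin n → ℂ) × ℕ → ℂ, (∀ j, S.CD 1 (X j)) →
      (∀ q ∈ S.M, ∀ j k, S.Db j (X k) q = S.Db k (X j) q) →
      ∀ V ∈ P, ∫ q, ∑ i, V i q * (X i q * (F q : ℂ)) ∂S.μ = 0 := by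
    rintro X hX hXcl V ⟨κ, j, k, hκ, rfl⟩
    refine Eq.trans ?_ (HProj_closed hX hXcl hκ j k)
    refine integral_congr_ae (ae_of_all _ fun q => ?_)
    beta_reduce
    rw [hPsum κ j k (fun i q => X i q * (F q : ℂ)) q]
    linear_combination (X k q * S.Db j κ q - X j q * S.Db k κ q) * hEF q
  -- the pair `(b', g)`
  have hDγc : S.CD 0 (fun q => ∑ j, S.D j (γ j) q) :=
    CD.sum _ fun j _ => (CD.D (m := 1) (hγ j).1).mono (Nat.zero_le 1)
  have hDγs : S.Supp (fun q => ∑ j, S.D j (γ j) q) :=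
    HPair_supp_sum _ fun j _ => HPair_supp_D (hγ j).2 j
  obtain ⟨b', hb'⟩ : ∃ b' : Fin n → (Fin n → ℂ) × ℕ → ℂ, b' = fun i q => (E q : ℂ) * B' i q :=
    ⟨_, rfl⟩
  obtain ⟨g, hg⟩ : ∃ g : (Fin n → ℂ) × ℕ → ℂ, g = fun q => (E q : ℂ) ^ 2 * ∑ j, S.D j (γ j) q :=
    ⟨_, rfl⟩
  have hb : ∀ j, AEStronglyMeasurable (b' j) S.μ := fun j => by
    rw [hb']
    exact hEm.mul (hB'm j).1
  have hgc : S.CD 0 g := by
    rw [hg]
    refine ((hE0.mul hE0).mul hDγc).congr fun q _ => ?_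
    ring
  have hgs : S.Supp g := by
    rw [hg]
    exact HPair_supp_mul' hDγs
  have hgm : AEStronglyMeasurable g S.μ := aestronglyMeasurable_of_CD hgc
  have hb2 : ∀ j, ∫⁻ q, ENNReal.ofReal (‖b' j q‖ ^ 2 * Real.exp (-(Φ q + χ q - ψ q))) ∂S.μ < ⊤ := by
    intro j
    have h1 : ∀ q, ‖b' j q‖ ^ 2 * Real.exp (-(Φ q + χ q - ψ q)) = ‖B' j q‖ ^ 2 := fun q => by
      rw [hb']
      beta_reduce
      rw [norm_mul, Complex.norm_real, mul_pow, Real.norm_eq_abs, sq_abs]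
      linear_combination ‖B' j q‖ ^ 2 * hE2 q
    simp only [h1]
    have h2 := (memLp_two_iff_integrable_sq_norm (hB'm j).1).1 (hB'm j)
    have h3 := h2.2
    rwa [hasFiniteIntegral_iff_ofReal (ae_of_all _ fun q => sq_nonneg _)] at h3
  have hg2 : ∫⁻ q, ENNReal.ofReal (‖g q‖ ^ 2 * Real.exp (-(Φ q + χ q))) ∂S.μ < ⊤ := by
    have h1 : S.CD 2 (fun q => ((Real.exp (-(Φ q + χ q)) : ℝ) : ℂ)) :=
      CD.comp_real (φ := fun x => Real.exp (-x)) (by fun_prop) hlam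
    have h2 := (HPair_integrable_sq hgc hgs (h1.mono (Nat.zero_le 2))).2
    rwa [hasFiniteIntegral_iff_ofReal (ae_of_all _ fun q => by positivity)] at h2
  have hgw : ∀ κ, S.IsTest κ →
      ∫ q, (∑ j, b' j q * S.D j κ q) * Real.exp (-(Φ q + χ q - ψ q)) ∂S.μ =
        - ∫ q, g q * κ q * Real.exp (-(Φ q + χ q - ψ q)) ∂S.μ := by
    intro κ hκ
    have hκ1 : S.CD 1 κ := hκ.1.mono (by norm_num)
    have hX : ∀ j, S.CD 1 (fun q => conj (S.D j κ q)) := fun j => (CD.D (m := 1) hκ.1).conj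
    have hXe : ∀ j, (fun q => conj (S.D j κ q)) = S.Db j (fun q => conj (κ q)) := fun j => by
      funext q
      rw [Db_conj]
    have hXcl : ∀ q ∈ S.M, ∀ j k, S.Db j (fun q => conj (S.D k κ q)) q =
        S.Db k (fun q => conj (S.D j κ q)) q := fun q hq j k => by
      rw [hXe, hXe]
      exact Db_Db_comm hκ.1.conj hq
    have hXm : ∀ j, MemLp (fun q => conj (S.D j κ q) * (F q : ℂ)) 2 S.μ := fun j =>
      HProj_memLp (((hX j).mono (Nat.zero_le 1)).mul hF0)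
        (HPair_supp_mul (HPair_supp_conj (HPair_supp_D hκ.2 j)))
    have h1 := hB'2 (fun j q => conj (S.D j κ q) * (F q : ℂ)) hXm (hort _ hX hXcl)
    have h2 := congrArg (starRingEnd ℂ) h1
    rw [← integral_conj, ← integral_conj] at h2
    have h3 : ∫ q, (∑ j, b' j q * S.D j κ q) * Real.exp (-(Φ q + χ q - ψ q)) ∂S.μ =
        ∫ q, conj (∑ j, conj (S.D j κ q) * (F q : ℂ) * conj (B' j q)) ∂S.μ := by
      refine integral_congr_ae (ae_of_all _ fun q => ?_)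
      beta_reduce
      rw [map_sum, Finset.sum_mul]
      refine Finset.sum_congr rfl fun j _ => ?_
      rw [hb', map_mul, map_mul, Complex.conj_conj, Complex.conj_conj, Complex.conj_ofReal,
        ← hEw q]
      ring
    have h4 : ∫ q, conj (∑ j, conj (S.D j κ q) * (F q : ℂ) * conj (γ j q * (E q : ℂ))) ∂S.μ =
        ∑ j, ∫ q, γ j q * S.D j κ q ∂S.μ := by
      rw [← integral_finsetSum _ fun j _ => integrable_of_supp
        (((hγ j).1.mono (Nat.zero_le 2)).mul ((CD.D (m := 1) hκ.1).mono (Nat.zero_le 1)))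
        (HPair_supp_mul (hγ j).2)]
      refine integral_congr_ae (ae_of_all _ fun q => ?_)
      beta_reduce
      rw [map_sum]
      refine Finset.sum_congr rfl fun j _ => ?_
      rw [map_mul, map_mul, Complex.conj_conj, Complex.conj_conj, Complex.conj_ofReal]
      linear_combination (γ j q * S.D j κ q) * hEF q
    have h5 : ∫ q, g q * κ q * Real.exp (-(Φ q + χ q - ψ q)) ∂S.μ =
        ∑ j, ∫ q, S.D j (γ j) q * κ q ∂S.μ := by
      rw [← integral_finsetSum _ fun j _ => integrable_of_supp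
        (((CD.D (m := 1) (hγ j).1).mono (Nat.zero_le 1)).mul (hκ.1.mono (Nat.zero_le 2)))
        (HPair_supp_mul' hκ.2)]
      refine integral_congr_ae (ae_of_all _ fun q => ?_)
      beta_reduce
      rw [hg, ← Finset.sum_mul]
      beta_reduce
      have h6 : (E q : ℂ) ^ 2 * (Real.exp (-(Φ q + χ q - ψ q)) : ℂ) = 1 := by
        rw [← Complex.ofReal_pow, ← Complex.ofReal_mul, hE2 q, Complex.ofReal_one]
      linear_combination ((∑ j, S.D j (γ j) q) * κ q) * h6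
    rw [h3, h2, h4, h5, ← Finset.sum_neg_distrib]
    refine Finset.sum_congr rfl fun j _ => ?_
    exact integral_mul_D ((hγ j).1.mono (by norm_num)) hκ1 hκ.2
  have hsw : ∀ κ, S.IsTest κ → ∀ j k,
      ∫ q, (b' k q * S.Db j κ q - b' j q * S.Db k κ q) ∂S.μ = 0 := by
    intro κ hκ j k
    refine Eq.trans ?_ (hB'1 _ ⟨κ, j, k, hκ, rfl⟩)
    refine integral_congr_ae (ae_of_all _ fun q => ?_)
    beta_reduce
    rw [hPsum κ j k B' q, hb']
  have hpl := pairing_le hΦ hψ hχ hχψ hχψ' hlevi hcut α hα hα2 a ha ham hab hA0 hA b' g hb hgm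
    hb2 hg2 hgw hsw
  -- rewrite both sides
  have hαF : ∀ j, MemLp (fun q => α j q * (F q : ℂ)) 2 S.μ := by
    intro j
    have hm : AEStronglyMeasurable (fun q => α j q * (F q : ℂ)) S.μ := (hαm j).mul hFm
    rw [memLp_two_iff_integrable_sq_norm hm]
    have h1 : Integrable (fun q => ‖α j q‖ ^ 2 * Real.exp (-(Φ q + χ q - ψ q))) S.μ :=
      HPair_integrable (((hαm j).norm.pow 2).mul hwm) (fun q => by (clear * -; positivity)) (hα2 j)
    refine h1.congr (ae_of_all _ fun q => ?_)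
    beta_reduce
    rw [norm_mul, Complex.norm_real, mul_pow, Real.norm_eq_abs, sq_abs, hF2 q]
  have hL := hB'2 (fun j q => α j q * (F q : ℂ)) hαF (hort α hα hcl)
  have hL1 : ∫ q, (∑ j, α j q * conj (b' j q)) * Real.exp (-(Φ q + χ q - ψ q)) ∂S.μ =
      ∫ q, ∑ j, α j q * (F q : ℂ) * conj (B' j q) ∂S.μ := by
    refine integral_congr_ae (ae_of_all _ fun q => ?_)
    beta_reduce
    rw [Finset.sum_mul]
    refine Finset.sum_congr rfl fun j _ => ?_
    rw [hb', map_mul, Complex.conj_ofReal, ← hEw q]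
    ring
  have hL2 : ∫ q, ∑ j, α j q * (F q : ℂ) * conj (γ j q * (E q : ℂ)) ∂S.μ =
      ∫ q, ∑ j, α j q * conj (γ j q) ∂S.μ := by
    refine integral_congr_ae (ae_of_all _ fun q => ?_)
    beta_reduce
    refine Finset.sum_congr rfl fun j _ => ?_
    rw [map_mul, Complex.conj_ofReal]
    linear_combination (α j q * conj (γ j q)) * hEF q
  have hR : ∫ q, ‖g q‖ ^ 2 * Real.exp (-(Φ q + χ q)) ∂S.μ =
      ∫ q, ‖∑ j, S.D j (γ j) q‖ ^ 2 * Real.exp (Φ q + χ q - 2 * ψ q) ∂S.μ := by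
    refine integral_congr_ae (ae_of_all _ fun q => ?_)
    beta_reduce
    have h1 : E q ^ 4 * Real.exp (-(Φ q + χ q)) = Real.exp (Φ q + χ q - 2 * ψ q) := by
      rw [hE]
      beta_reduce
      rw [← Real.exp_nat_mul, ← Real.exp_add]
      congr 1
      push_cast
      ring
    rw [hg, ← h1]
    beta_reduce
    rw [norm_mul, norm_pow, Complex.norm_real, Real.norm_eq_abs, sq_abs]
    ring
  rw [hL1, hL, hL2, hR] at hpl
  exact hpl

end Sheets

end Vale.Agent.P300.L2
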