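import Vale.Agent.P300.H435.L2.Hdc

set_option linter.all false

open MeasureTheory Filter Topology
open scoped ENNReal NNReal ComplexConjugate

namespace Vale.Agent.P300.L2

namespace Sheets

variable {n N : ℕ} {S : Sheets n N}

/-- Restriction of a cover to an open subset. -/
def res (S : Sheets n N) (W₀ : Set (Fin n → ℂ)) (hW₀ : IsOpen W₀) (hWV : W₀ ⊆ S.V) :
    Sheets n N where
  V := W₀
  fib := S.fib
  IsSection := fun W s => S.IsSection W s ∧ W ⊆ W₀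
  isOpen := hW₀
  isOpen_dom := fun {W s} h => IsSection.isOpen h.1
  subset_dom := fun {W s} h => h.2
  mem_fib := fun {W s} h => IsSection.mem h.1
  germ_eq := fun {W W' s s'} h h' {z} hz hz' e => IsSection.germ h.1 h'.1 hz hz' e
  mono_dom := fun {W W' s} h hW' hWW => ⟨IsSection.mono h.1 hW' hWW, hWW.trans h.2⟩
  meas_dom := fun {W s} h => IsSection.exists_ext h.1
  loc := fun z₀ hz₀ => by
    obtain ⟨W, s, hs, hz⟩ := sm_loc (hWV hz₀)
    exact ⟨W ∩ W₀, s, hs.isOpen.inter hW₀, ⟨hz, hz₀⟩, Set.inter_subset_right,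
      fun i => ⟨(hs.sec i).mono (hs.isOpen.inter hW₀) Set.inter_subset_left,
        Set.inter_subset_right⟩, fun z hz => ⟨hs.inj z hz.1, hs.fib z hz.1⟩⟩

variable {W₀ : Set (Fin n → ℂ)} {hW₀ : IsOpen W₀} {hWV : W₀ ⊆ S.V}

theorem res_mem_M {q : (Fin n → ℂ) × ℕ} (hq : q ∈ (S.res W₀ hW₀ hWV).M) : q ∈ S.M :=
  ⟨hWV hq.1, hq.2⟩

theorem res_D {X : (Fin n → ℂ) × ℕ → ℂ} {j : Fin n} {q : (Fin n → ℂ) × ℕ}
    (hq : q ∈ (S.res W₀ hW₀ hWV).M) : (S.res W₀ hW₀ hWV).D j X q = S.D j X q := by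
  obtain ⟨s, W, hs, z, hz, rfl⟩ := exists_section' hq
  rw [D_apply hs hz, D_apply (S := S) hs.1 hz]

theorem res_Db {X : (Fin n → ℂ) × ℕ → ℂ} {j : Fin n} {q : (Fin n → ℂ) × ℕ}
    (hq : q ∈ (S.res W₀ hW₀ hWV).M) : (S.res W₀ hW₀ hWV).Db j X q = S.Db j X q := by
  obtain ⟨s, W, hs, z, hz, rfl⟩ := exists_section' hq
  rw [Db_apply hs hz, Db_apply (S := S) hs.1 hz]

theorem CD.res {k : ℕ} {X : (Fin n → ℂ) × ℕ → ℂ} (hX : S.CD k X) :
    (S.res W₀ hW₀ hWV).CD k X := fun W s h => hX W s h.1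

theorem res_CD {k : ℕ} {X : (Fin n → ℂ) × ℕ → ℂ} (hX : (S.res W₀ hW₀ hWV).CD k X)
    {C : Set (Fin n → ℂ)} (hC : IsClosed C) (hCW : C ⊆ W₀)
    (h0 : ∀ q : (Fin n → ℂ) × ℕ, q.1 ∉ C → X q = 0) : S.CD k X := by
  intro W s hs z hz
  by_cases hzC : z ∈ C
  · have h1 : (S.res W₀ hW₀ hWV).IsSection (W ∩ W₀) s :=
      ⟨hs.mono (hs.isOpen.inter hW₀) Set.inter_subset_left, Set.inter_subset_right⟩
    exact ((hX _ _ h1).contDiffAt ((hs.isOpen.inter hW₀).mem_nhds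
      ⟨hz, hCW hzC⟩)).contDiffWithinAt
  · have h1 : (fun z => X (z, s z)) =ᶠ[𝓝 z] fun _ => 0 := by
      filter_upwards [hC.isOpen_compl.mem_nhds hzC] with y hy using h0 _ hy
    exact (contDiffAt_const.congr_of_eventuallyEq h1).contDiffWithinAt

theorem res_isTest {κ : (Fin n → ℂ) × ℕ → ℂ} (hκ : (S.res W₀ hW₀ hWV).IsTest κ) :
    S.IsTest κ := by
  obtain ⟨h1, C, hC, hCV, h0⟩ := hκ
  exact ⟨res_CD h1 hC.isClosed hCV h0, C, hC, hCV.trans hWV, h0⟩

theorem res_μ : (S.res W₀ hW₀ hWV).μ = S.μ.restrict {q : (Fin n → ℂ) × ℕ | q.1 ∈ W₀} := by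
  have hT : MeasurableSet {q : (Fin n → ℂ) × ℕ | q.1 ∈ W₀} := measurable_fst hW₀.measurableSet
  ext A hA
  rw [Measure.restrict_apply hA, ← lintegral_indicator_one hA,
    ← lintegral_indicator_one (hA.inter hT), lintegral_μ (measurable_one.indicator hA),
    lintegral_μ (measurable_one.indicator (hA.inter hT))]
  have h1 : ∫⁻ z in S.V, ∑ w ∈ S.fib z,
      ((A ∩ {q : (Fin n → ℂ) × ℕ | q.1 ∈ W₀}).indicator 1 (z, w) : ℝ≥0∞) =
      ∫⁻ z in S.V, W₀.indicator (fun z => ∑ w ∈ S.fib z, (A.indicator 1 (z, w) : ℝ≥0∞)) z := by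
    refine lintegral_congr fun z => ?_
    by_cases hz : z ∈ W₀
    · rw [Set.indicator_of_mem hz]
      refine Finset.sum_congr rfl fun w _ => ?_
      by_cases hA' : (z, w) ∈ A
      · rw [Set.indicator_of_mem hA', Set.indicator_of_mem (show (z, w) ∈ A ∩ _ from ⟨hA', hz⟩)]
      · rw [Set.indicator_of_notMem hA', Set.indicator_of_notMem (fun h => hA' h.1)]
    · rw [Set.indicator_of_notMem hz]
      exact Finset.sum_eq_zero fun w _ => Set.indicator_of_notMem (fun h => hz h.2) _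
  rw [h1, lintegral_indicator hW₀.measurableSet, Measure.restrict_restrict hW₀.measurableSet,
    Set.inter_eq_left.2 hWV]
  rfl

theorem res_integral {f : (Fin n → ℂ) × ℕ → ℂ} (hf : ∀ q : (Fin n → ℂ) × ℕ, q.1 ∉ W₀ → f q = 0) :
    ∫ q, f q ∂(S.res W₀ hW₀ hWV).μ = ∫ q, f q ∂S.μ := by
  rw [res_μ]
  exact setIntegral_eq_integral_of_forall_compl_eq_zero fun q hq => hf q hq

theorem res_lintegral {f : (Fin n → ℂ) × ℕ → ℝ≥0∞}
    (hf : ∀ q : (Fin n → ℂ) × ℕ, q.1 ∉ W₀ → f q = 0) :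
    ∫⁻ q, f q ∂(S.res W₀ hW₀ hWV).μ = ∫⁻ q, f q ∂S.μ := by
  have hT : MeasurableSet {q : (Fin n → ℂ) × ℕ | q.1 ∈ W₀} := measurable_fst hW₀.measurableSet
  rw [res_μ, ← lintegral_indicator hT]
  congr 1
  funext q
  by_cases hq : q.1 ∈ W₀
  · exact Set.indicator_of_mem (by exact hq) _
  · rw [Set.indicator_of_notMem (by exact hq), hf q hq]

/-- Trivial covers have dual families. -/
theorem exists_dual_triv {σ : Fin N → (Fin n → ℂ) → ℕ} (hσ : S.SmTriv W₀ σ) :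
    ∃ e c, (S.res W₀ hW₀ hWV).Dual e c := by
  classical
  set T := S.res W₀ hW₀ hWV with hT
  set e : Fin N → (Fin n → ℂ) × ℕ → ℂ := fun i q => if q.2 = σ i q.1 then 1 else 0 with he
  have hh : ∀ i, T.Holo (e i) := by
    intro i W s hs z hz
    have hzW : z ∈ W₀ := hs.2 hz
    have h1 := hs.1.mem z hz
    rw [hσ.fib z hzW] at h1
    obtain ⟨l, -, hl⟩ := Finset.mem_image.1 h1
    have hg := (hσ.sec l).germ hs.1 hzW hz hl
    have h2 : (fun z => e i (z, s z)) =ᶠ[𝓝 z] fun _ => if l = i then 1 else 0 := by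
      filter_upwards [hg, hσ.isOpen.mem_nhds hzW] with y hy hyW
      simp only [he]
      rw [← hy]
      by_cases hli : l = i
      · simp [hli]
      · rw [if_neg hli, if_neg (fun h => hli (hσ.inj y hyW h))]
    exact ((differentiableAt_const _).congr_of_eventuallyEq h2).differentiableWithinAt
  refine ⟨e, e, hh, hh, fun z hz w hw w' hw' => ?_⟩
  have hz' : z ∈ W₀ := hz
  have h1 : w ∈ S.fib z := hw
  have h2 : w' ∈ S.fib z := hw'
  rw [hσ.fib z hz'] at h1 h2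
  obtain ⟨i, -, rfl⟩ := Finset.mem_image.1 h1
  obtain ⟨l, -, rfl⟩ := Finset.mem_image.1 h2
  have hinj := hσ.inj z hz'
  simp only [he]
  by_cases hil : i = l
  · subst hil
    rw [if_pos rfl, Finset.sum_eq_single i]
    · simp
    · intro k _ hk
      rw [if_neg (fun h => hk (hinj h).symm), zero_mul]
    · intro h
      exact absurd (Finset.mem_univ i) h
  · rw [if_neg (fun h => hil (hinj h))]
    refine Finset.sum_eq_zero fun k _ => ?_
    by_cases hk : σ l z = σ k z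
    · have : l = k := hinj hk
      subst this
      rw [if_neg (fun h => hil (hinj h)), mul_zero]
    · rw [if_neg hk, zero_mul]

/-- A function which is orthogonal to all test functions supported off `C` vanishes off `C`. -/
theorem vanish_off {X : (Fin n → ℂ) × ℕ → ℂ} (hX : MemLp X 2 S.μ) {C : Set (Fin n → ℂ)}
    (hC : IsClosed C)
    (h : ∀ κ, S.IsTest κ → (∃ K : Set (Fin n → ℂ), IsCompact K ∧ Disjoint K C ∧
      ∀ q : (Fin n → ℂ) × ℕ, q.1 ∉ K → κ q = 0) → ∫ q, X q * κ q ∂S.μ = 0) :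
    ∀ᵐ q ∂S.μ, q.1 ∉ C → X q = 0 := by
  obtain ⟨ι, _, W, s, hW, hU⟩ := sm_cover S
  have h1 : S.μ.restrict (⋃ k, {q : (Fin n → ℂ) × ℕ | q.1 ∈ W k}) = S.μ := by
    refine Measure.restrict_eq_self_of_ae_mem ?_
    filter_upwards [ae_mem_M (S := S)] with q hq
    have h2 := hq.1
    rw [← hU] at h2
    obtain ⟨k, hk⟩ := Set.mem_iUnion.1 h2
    exact Set.mem_iUnion.2 ⟨k, hk⟩
  rw [← h1, ae_restrict_iUnion_iff]
  intro k
  have hk := hW k
  have h2 := res_μ (S := S) (W₀ := W k) (hW₀ := hk.isOpen) (hWV := hk.subset)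
  rw [← h2]
  obtain ⟨e, c, hdu⟩ := exists_dual_triv (S := S) (W₀ := W k) (hW₀ := hk.isOpen)
    (hWV := hk.subset) hk
  refine hdc_vanish hdu ?_ hC ?_
  · rw [h2]
    exact hX.restrict _
  · intro φ Y hφ hφc hφV hφC hY
    have ht := hdc_isTest hφ hφc hφV (fun z hz => image_eq_zero_of_notMem_tsupport hz) hY
    rw [res_integral]
    · refine h _ (res_isTest ht) ⟨tsupport φ, hφc, hφC, fun q hq => ?_⟩
      rw [image_eq_zero_of_notMem_tsupport hq, mul_zero]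
    · intro q hq
      have : q.1 ∉ tsupport φ := fun h => hq (hφV h)
      rw [image_eq_zero_of_notMem_tsupport this, mul_zero, mul_zero]

end Sheets

end Vale.Agent.P300.L2
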