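import Vale.Agent.P300.H435.L2.Defs
import Vale.Agent.P268.Hol

set_option linter.all false


open MeasureTheory Filter Topology
open scoped ENNReal NNReal ComplexConjugate

namespace Vale.Agent.P300.L2

variable {n : ℕ} {f g : (Fin n → ℂ) → ℂ} {z : Fin n → ℂ} {j k : Fin n}

theorem dz_congr (h : f =ᶠ[𝓝 z] g) : dz j f z = dz j g z := by
  rw [dz, dz, h.fderiv_eq]

theorem dzb_congr (h : f =ᶠ[𝓝 z] g) : dzb j f z = dzb j g z := by
  rw [dzb, dzb, h.fderiv_eq]

theorem dz_const (c : ℂ) : dz j (fun _ => c) z = 0 := by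
  simp [dz]

theorem dzb_const (c : ℂ) : dzb j (fun _ => c) z = 0 := by
  simp [dzb]

theorem dz_add (hf : DifferentiableAt ℝ f z) (hg : DifferentiableAt ℝ g z) :
    dz j (fun z => f z + g z) z = dz j f z + dz j g z := by
  simp only [dz, fderiv_fun_add hf hg, add_apply]
  ring

theorem dzb_add (hf : DifferentiableAt ℝ f z) (hg : DifferentiableAt ℝ g z) :
    dzb j (fun z => f z + g z) z = dzb j f z + dzb j g z := by
  simp only [dzb, fderiv_fun_add hf hg, add_apply]
  ring

theorem dz_sum {ι : Type*} (s : Finset ι) {f : ι → (Fin n → ℂ) → ℂ}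
    (hf : ∀ i ∈ s, DifferentiableAt ℝ (f i) z) :
    dz j (fun z => ∑ i ∈ s, f i z) z = ∑ i ∈ s, dz j (f i) z := by
  simp only [dz, fderiv_fun_sum hf, sum_apply]
  rw [Finset.mul_sum, ← Finset.sum_sub_distrib, Finset.sum_div]

theorem dzb_sum {ι : Type*} (s : Finset ι) {f : ι → (Fin n → ℂ) → ℂ}
    (hf : ∀ i ∈ s, DifferentiableAt ℝ (f i) z) :
    dzb j (fun z => ∑ i ∈ s, f i z) z = ∑ i ∈ s, dzb j (f i) z := by
  simp only [dzb, fderiv_fun_sum hf, sum_apply]
  rw [Finset.mul_sum, ← Finset.sum_add_distrib, Finset.sum_div]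

theorem dz_mul (hf : DifferentiableAt ℝ f z) (hg : DifferentiableAt ℝ g z) :
    dz j (fun z => f z * g z) z = dz j f z * g z + f z * dz j g z := by
  simp only [dz, fderiv_fun_mul hf hg, add_apply,
    smul_apply, smul_eq_mul]
  ring

theorem dzb_mul (hf : DifferentiableAt ℝ f z) (hg : DifferentiableAt ℝ g z) :
    dzb j (fun z => f z * g z) z = dzb j f z * g z + f z * dzb j g z := by
  simp only [dzb, fderiv_fun_mul hf hg, add_apply,
    smul_apply, smul_eq_mul]
  ring

theorem wirt_fderiv_conj_apply (v : Fin n → ℂ) :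
    fderiv ℝ (fun z => conj (f z)) z v = conj (fderiv ℝ f z v) := by
  have h := ContinuousLinearEquiv.comp_fderiv (Complex.conjCLE) (f := f) (x := z)
  have h2 : (fun z => conj (f z)) = (Complex.conjCLE ∘ f) := by
    funext w; simp
  rw [h2, h]
  simp

theorem wirt_conj_two : conj (2 : ℂ) = 2 := Complex.conj_ofNat 2

theorem dz_conj : dz j (fun z => conj (f z)) z = conj (dzb j f z) := by
  simp only [dz, dzb, wirt_fderiv_conj_apply, map_div₀, map_add, map_mul, Complex.conj_I, wirt_conj_two]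
  ring

theorem dzb_conj : dzb j (fun z => conj (f z)) z = conj (dz j f z) := by
  simp only [dz, dzb, wirt_fderiv_conj_apply, map_div₀, map_sub, map_mul, Complex.conj_I, wirt_conj_two]
  ring

theorem wirt_fderiv_comp_real_apply {φ : ℝ → ℝ} {u : (Fin n → ℂ) → ℝ} (hu : DifferentiableAt ℝ u z)
    (hφ : DifferentiableAt ℝ φ (u z)) (v : Fin n → ℂ) :
    fderiv ℝ (fun z => ((φ (u z) : ℝ) : ℂ)) z v =
      ((deriv φ (u z) : ℝ) : ℂ) * fderiv ℝ (fun z => (u z : ℂ)) z v := by
  have h1 : HasFDerivAt (fun z => (u z : ℂ)) (Complex.ofRealCLM.comp (fderiv ℝ u z)) z :=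
    Complex.ofRealCLM.hasFDerivAt.comp z hu.hasFDerivAt
  have h2 : HasFDerivAt (fun z => φ (u z)) (deriv φ (u z) • fderiv ℝ u z) z :=
    hφ.hasDerivAt.comp_hasFDerivAt z hu.hasFDerivAt
  have h3 : HasFDerivAt (fun z => ((φ (u z) : ℝ) : ℂ))
      (Complex.ofRealCLM.comp (deriv φ (u z) • fderiv ℝ u z)) z :=
    Complex.ofRealCLM.hasFDerivAt.comp z h2
  rw [h1.fderiv, h3.fderiv]
  simp

/-- Chain rule for a real function of a real function. -/
theorem dz_comp_real {φ : ℝ → ℝ} {u : (Fin n → ℂ) → ℝ} (hu : DifferentiableAt ℝ u z)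
    (hφ : DifferentiableAt ℝ φ (u z)) :
    dz j (fun z => ((φ (u z) : ℝ) : ℂ)) z = ((deriv φ (u z) : ℝ) : ℂ) * dz j (fun z => (u z : ℂ)) z := by
  simp only [dz, wirt_fderiv_comp_real_apply hu hφ]
  ring

theorem dzb_comp_real {φ : ℝ → ℝ} {u : (Fin n → ℂ) → ℝ} (hu : DifferentiableAt ℝ u z)
    (hφ : DifferentiableAt ℝ φ (u z)) :
    dzb j (fun z => ((φ (u z) : ℝ) : ℂ)) z =
      ((deriv φ (u z) : ℝ) : ℂ) * dzb j (fun z => (u z : ℂ)) z := by
  simp only [dzb, wirt_fderiv_comp_real_apply hu hφ]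
  ring

theorem wirt_fderiv_real_of_complex (hf : DifferentiableAt ℂ f z) (v : Fin n → ℂ) :
    fderiv ℝ f z v = fderiv ℂ f z v := by
  have h := hf.hasFDerivAt.restrictScalars ℝ
  rw [h.fderiv]
  rfl

theorem wirt_single_I (j : Fin n) : (Pi.single j Complex.I : Fin n → ℂ) = Complex.I • Pi.single j 1 := by
  rw [← Pi.single_smul]
  simp

theorem dzb_holo (hf : DifferentiableAt ℂ f z) : dzb j f z = 0 := by
  simp only [dzb, wirt_fderiv_real_of_complex hf, wirt_single_I, map_smul, smul_eq_mul]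
  rw [← mul_assoc, Complex.I_mul_I]
  ring

theorem dz_holo (hf : DifferentiableAt ℂ f z) : dz j f z = fderiv ℂ f z (Pi.single j 1) := by
  simp only [dz, wirt_fderiv_real_of_complex hf, wirt_single_I, map_smul, smul_eq_mul]
  rw [← mul_assoc, Complex.I_mul_I]
  ring

theorem wirt_pi_decomp (v : Fin n → ℂ) :
    v = ∑ j, ((v j).re • (Pi.single j 1 : Fin n → ℂ) + (v j).im • (Pi.single j Complex.I : Fin n → ℂ)) := by
  funext i
  simp only [Finset.sum_apply, Pi.add_apply, Pi.smul_apply]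
  rw [Finset.sum_eq_single i]
  · simp only [Pi.single_eq_same, Complex.real_smul]
    rw [mul_one, Complex.re_add_im]
  · intro b _ hb
    simp [Pi.single_eq_of_ne (Ne.symm hb)]
  · intro h
    exact absurd (Finset.mem_univ i) h

/-- A real differentiable function with vanishing `∂̄` is complex differentiable. -/
theorem holo_of_dzb {W : Set (Fin n → ℂ)} (hW : IsOpen W) (hf : DifferentiableOn ℝ f W)
    (h : ∀ z ∈ W, ∀ j, dzb j f z = 0) : DifferentiableOn ℂ f W := by
  intro z hz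
  have hd : DifferentiableAt ℝ f z := (hf z hz).differentiableAt (hW.mem_nhds hz)
  set A := fderiv ℝ f z with hA
  have h1 : ∀ j, A (Pi.single j Complex.I) = Complex.I * A (Pi.single j 1) := by
    intro j
    have h2 := h z hz j
    rw [dzb, ← hA] at h2
    have h3 : A (Pi.single j 1) + Complex.I * A (Pi.single j Complex.I) = 0 := by
      have := congrArg (fun t => t * 2) h2
      simpa using this
    have h4 : Complex.I * (A (Pi.single j 1) + Complex.I * A (Pi.single j Complex.I)) = 0 := by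
      rw [h3, mul_zero]
    rw [mul_add, ← mul_assoc, Complex.I_mul_I] at h4
    linear_combination -h4
  have hAv : ∀ v : Fin n → ℂ, A v = ∑ j, v j * A (Pi.single j 1) := by
    intro v
    conv_lhs => rw [wirt_pi_decomp v]
    rw [map_sum]
    refine Finset.sum_congr rfl fun j _ => ?_
    rw [map_add, map_smul, map_smul, h1 j, Complex.real_smul, Complex.real_smul]
    conv_rhs => rw [← Complex.re_add_im (v j)]
    ring
  have hlin : ∀ (c : ℂ) (v : Fin n → ℂ), A (c • v) = c • A v := by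
    intro c v
    rw [hAv, hAv v, smul_eq_mul, Finset.mul_sum]
    refine Finset.sum_congr rfl fun j _ => ?_
    rw [Pi.smul_apply, smul_eq_mul]
    ring
  let B : (Fin n → ℂ) →L[ℂ] ℂ :=
    { toFun := A
      map_add' := fun x y => map_add A x y
      map_smul' := fun c x => by simpa using hlin c x
      cont := A.continuous }
  have hB : HasFDerivAt f B z := by
    have h5 := hd.hasFDerivAt
    rw [hasFDerivAt_iff_tendsto] at h5 ⊢
    exact h5
  exact hB.differentiableAt.differentiableWithinAt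

theorem wirt_contDiffOn_fderiv_apply {W : Set (Fin n → ℂ)} (hW : IsOpen W) {m : ℕ}
    (hf : ContDiffOn ℝ (m + 1 : ℕ) f W) (v : Fin n → ℂ) :
    ContDiffOn ℝ m (fun z => fderiv ℝ f z v) W := by
  have h : ContDiffOn ℝ m (fderiv ℝ f) W :=
    hf.fderiv_of_isOpen hW (by push_cast; exact le_rfl)
  exact h.clm_apply contDiffOn_const

theorem contDiffOn_dz {W : Set (Fin n → ℂ)} (hW : IsOpen W) {m : ℕ}
    (hf : ContDiffOn ℝ (m + 1 : ℕ) f W) : ContDiffOn ℝ m (dz j f) W := by
  have h1 := wirt_contDiffOn_fderiv_apply hW hf (Pi.single j 1)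
  have h2 := wirt_contDiffOn_fderiv_apply hW hf (Pi.single j Complex.I)
  exact (h1.sub (contDiffOn_const.mul h2)).div_const 2

theorem contDiffOn_dzb {W : Set (Fin n → ℂ)} (hW : IsOpen W) {m : ℕ}
    (hf : ContDiffOn ℝ (m + 1 : ℕ) f W) : ContDiffOn ℝ m (dzb j f) W := by
  have h1 := wirt_contDiffOn_fderiv_apply hW hf (Pi.single j 1)
  have h2 := wirt_contDiffOn_fderiv_apply hW hf (Pi.single j Complex.I)
  exact (h1.add (contDiffOn_const.mul h2)).div_const 2

theorem differentiableOn_dz_holo {W : Set (Fin n → ℂ)} (hW : IsOpen W)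
    (hf : DifferentiableOn ℂ f W) : DifferentiableOn ℂ (dz j f) W := by
  refine (Vale.Agent.P268.differentiableOn_fderiv_apply hW hf (Pi.single j 1)).congr fun z hz => ?_
  exact dz_holo ((hf z hz).differentiableAt (hW.mem_nhds hz))

theorem wirt_fderiv_fderiv_apply {W : Set (Fin n → ℂ)} (hW : IsOpen W) (hf : ContDiffOn ℝ 2 f W)
    (hz : z ∈ W) (a b : Fin n → ℂ) :
    DifferentiableAt ℝ (fun w => fderiv ℝ f w a) z ∧
    fderiv ℝ (fun w => fderiv ℝ f w a) z b = fderiv ℝ (fderiv ℝ f) z b a := by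
  have h1 : ContDiffOn ℝ 1 (fderiv ℝ f) W := hf.fderiv_of_isOpen hW (by norm_num)
  have h2 : DifferentiableAt ℝ (fderiv ℝ f) z :=
    ((h1 z hz).contDiffAt (hW.mem_nhds hz)).differentiableAt one_ne_zero
  have h3 : HasFDerivAt (fun w => fderiv ℝ f w a)
      ((ContinuousLinearMap.apply ℝ ℂ a).comp (fderiv ℝ (fderiv ℝ f) z)) z :=
    (ContinuousLinearMap.apply ℝ ℂ a).hasFDerivAt.comp z h2.hasFDerivAt
  exact ⟨h3.differentiableAt, by rw [h3.fderiv]; rfl⟩

theorem wirt_second_symm {W : Set (Fin n → ℂ)} (hW : IsOpen W) (hf : ContDiffOn ℝ 2 f W)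
    (hz : z ∈ W) (a b : Fin n → ℂ) :
    fderiv ℝ (fderiv ℝ f) z b a = fderiv ℝ (fderiv ℝ f) z a b := by
  have h : ContDiffAt ℝ 2 f z := (hf z hz).contDiffAt (hW.mem_nhds hz)
  exact (h.isSymmSndFDerivAt (by simp)) b a

theorem wirt_fderiv_dzb {W : Set (Fin n → ℂ)} (hW : IsOpen W) (hf : ContDiffOn ℝ 2 f W)
    (hz : z ∈ W) (k : Fin n) (v : Fin n → ℂ) :
    fderiv ℝ (dzb k f) z v = (fderiv ℝ (fderiv ℝ f) z v (Pi.single k 1) +
      Complex.I * fderiv ℝ (fderiv ℝ f) z v (Pi.single k Complex.I)) / 2 := by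
  obtain ⟨h1, h1'⟩ := wirt_fderiv_fderiv_apply hW hf hz (Pi.single k 1) v
  obtain ⟨h2, h2'⟩ := wirt_fderiv_fderiv_apply hW hf hz (Pi.single k Complex.I) v
  have h3 := ((h1.hasFDerivAt.add (h2.hasFDerivAt.const_mul Complex.I)).mul_const (2 : ℂ)⁻¹)
  have h4 : dzb k f = fun w => (fderiv ℝ f w (Pi.single k 1) +
      Complex.I * fderiv ℝ f w (Pi.single k Complex.I)) * 2⁻¹ := by
    funext w; rw [dzb, div_eq_mul_inv]
  rw [h4]
  erw [h3.fderiv]
  simp only [smul_apply, add_apply, smul_eq_mul, h1', h2']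
  ring

theorem wirt_fderiv_dz {W : Set (Fin n → ℂ)} (hW : IsOpen W) (hf : ContDiffOn ℝ 2 f W)
    (hz : z ∈ W) (k : Fin n) (v : Fin n → ℂ) :
    fderiv ℝ (dz k f) z v = (fderiv ℝ (fderiv ℝ f) z v (Pi.single k 1) -
      Complex.I * fderiv ℝ (fderiv ℝ f) z v (Pi.single k Complex.I)) / 2 := by
  obtain ⟨h1, h1'⟩ := wirt_fderiv_fderiv_apply hW hf hz (Pi.single k 1) v
  obtain ⟨h2, h2'⟩ := wirt_fderiv_fderiv_apply hW hf hz (Pi.single k Complex.I) v
  have h3 := ((h1.hasFDerivAt.sub (h2.hasFDerivAt.const_mul Complex.I)).mul_const (2 : ℂ)⁻¹)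
  have h4 : dz k f = fun w => (fderiv ℝ f w (Pi.single k 1) -
      Complex.I * fderiv ℝ f w (Pi.single k Complex.I)) * 2⁻¹ := by
    funext w; rw [dz, div_eq_mul_inv]
  rw [h4]
  erw [h3.fderiv]
  simp only [smul_apply, sub_apply, smul_eq_mul, h1', h2']
  ring

theorem dz_dzb_comm {W : Set (Fin n → ℂ)} (hW : IsOpen W) (hf : ContDiffOn ℝ 2 f W) (hz : z ∈ W) :
    dz j (dzb k f) z = dzb k (dz j f) z := by
  rw [dz, dzb]
  simp only [wirt_fderiv_dz hW hf hz, wirt_fderiv_dzb hW hf hz]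
  rw [wirt_second_symm hW hf hz (Pi.single k 1) (Pi.single j 1),
    wirt_second_symm hW hf hz (Pi.single k Complex.I) (Pi.single j 1),
    wirt_second_symm hW hf hz (Pi.single k 1) (Pi.single j Complex.I),
    wirt_second_symm hW hf hz (Pi.single k Complex.I) (Pi.single j Complex.I)]
  ring

theorem dzb_dzb_comm {W : Set (Fin n → ℂ)} (hW : IsOpen W) (hf : ContDiffOn ℝ 2 f W) (hz : z ∈ W) :
    dzb j (dzb k f) z = dzb k (dzb j f) z := by
  rw [dzb, dzb]
  simp only [wirt_fderiv_dzb hW hf hz]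
  rw [wirt_second_symm hW hf hz (Pi.single k 1) (Pi.single j 1),
    wirt_second_symm hW hf hz (Pi.single k Complex.I) (Pi.single j 1),
    wirt_second_symm hW hf hz (Pi.single k 1) (Pi.single j Complex.I),
    wirt_second_symm hW hf hz (Pi.single k Complex.I) (Pi.single j Complex.I)]
  ring

theorem dz_dz_comm {W : Set (Fin n → ℂ)} (hW : IsOpen W) (hf : ContDiffOn ℝ 2 f W) (hz : z ∈ W) :
    dz j (dz k f) z = dz k (dz j f) z := by
  rw [dz, dz]
  simp only [wirt_fderiv_dz hW hf hz]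
  rw [wirt_second_symm hW hf hz (Pi.single k 1) (Pi.single j 1),
    wirt_second_symm hW hf hz (Pi.single k Complex.I) (Pi.single j 1),
    wirt_second_symm hW hf hz (Pi.single k 1) (Pi.single j Complex.I),
    wirt_second_symm hW hf hz (Pi.single k Complex.I) (Pi.single j Complex.I)]
  ring

theorem wirt_integrable_fderiv_apply (hf : ContDiff ℝ 1 f) (hs : HasCompactSupport f)
    (v : Fin n → ℂ) : Integrable (fun z => fderiv ℝ f z v) := by
  have hc : Continuous (fun z => fderiv ℝ f z v) :=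
    (hf.continuous_fderiv one_ne_zero).clm_apply continuous_const
  refine hc.integrable_of_hasCompactSupport ?_
  exact hs.fderiv_apply ℝ v

theorem wirt_integral_fderiv_apply (hf : ContDiff ℝ 1 f) (hs : HasCompactSupport f)
    (v : Fin n → ℂ) : ∫ z, fderiv ℝ f z v = 0 := by
  have h := integral_mul_fderiv_eq_neg_fderiv_mul_of_integrable (𝕜 := ℂ)
    (μ := (volume : Measure (Fin n → ℂ))) (f := fun _ => (1 : ℂ)) (g := f) (v := v)
    (by simp) (by simpa using wirt_integrable_fderiv_apply hf hs v)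
    (by simpa using hf.continuous.integrable_of_hasCompactSupport hs)
    (fun x _ => differentiableAt_const _)
    (fun x _ => (hf.differentiable one_ne_zero) x)
  simpa using h

theorem integral_dz (hf : ContDiff ℝ 1 f) (hs : HasCompactSupport f) :
    ∫ z, dz j f z = 0 := by
  have h1 := wirt_integrable_fderiv_apply hf hs (Pi.single j 1)
  have h2 := (wirt_integrable_fderiv_apply hf hs (Pi.single j Complex.I)).const_mul Complex.I
  simp only [dz]
  rw [integral_div, integral_sub h1 h2, integral_const_mul, wirt_integral_fderiv_apply hf hs,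
    wirt_integral_fderiv_apply hf hs]
  simp

theorem integral_dzb (hf : ContDiff ℝ 1 f) (hs : HasCompactSupport f) :
    ∫ z, dzb j f z = 0 := by
  have h1 := wirt_integrable_fderiv_apply hf hs (Pi.single j 1)
  have h2 := (wirt_integrable_fderiv_apply hf hs (Pi.single j Complex.I)).const_mul Complex.I
  simp only [dzb]
  rw [integral_div, integral_add h1 h2, integral_const_mul, wirt_integral_fderiv_apply hf hs,
    wirt_integral_fderiv_apply hf hs]
  simp

end Vale.Agent.P300.L2
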